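import Vale.Agent.P204.MathlibUsed
import Vale.Agent.P204.Bdl.B1
import Vale.Agent.P204.Bdl.B2

set_option linter.all false

section
set_option linter.all false
/-!
Scaled Sobolev norms `rsob m d B f` and `C^m` norms `rsupn m d B f` of functions `f : V4 → E` on a set `B ⊆ V4`,
defined recursively by partial derivatives.
-/
open MeasureTheory Set
open scoped ContDiff BigOperators ENNReal

namespace Vale.Agent.P204.GX
open Vale.Agent.P204.T4

variable {E F : Type*} [NormedAddCommGroup E] [NormedSpace ℝ E] [NormedAddCommGroup F] [NormedSpace ℝ F]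

/-- vector valued partial derivative -/
noncomputable def pv (i : Fin 4) (f : V4 → E) (y : V4) : E := fderiv ℝ f y (Pi.single i 1)

/-- recursive norm of order `m` at scale `d` built from a norm `N` of order zero -/
noncomputable def rn (N : (V4 → E) → ℝ) : ℕ → ℝ → (V4 → E) → ℝ
  | 0, _, f => N f
  | m + 1, d, f => rn N m d f + d * ∑ i, rn N m d (pv i f)

/-- scaled Sobolev norm of order `m` on `B` -/
noncomputable def rsob (m : ℕ) (d : ℝ) (B : Set V4) (f : V4 → E) : ℝ :=
  rn (fun f => Real.sqrt (∫ y in B, ‖f y‖ ^ 2)) m d f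

/-- scaled `C^m` norm on `B` -/
noncomputable def rsupn (m : ℕ) (d : ℝ) (B : Set V4) (f : V4 → E) : ℝ :=
  rn (fun f => sSup ((fun y => ‖f y‖) '' B)) m d f

theorem rsob_zero_def (d : ℝ) (B : Set V4) (f : V4 → E) : rsob 0 d B f = Real.sqrt (∫ y in B, ‖f y‖ ^ 2) := rfl
theorem rsob_succ_def (m : ℕ) (d : ℝ) (B : Set V4) (f : V4 → E) :
    rsob (m + 1) d B f = rsob m d B f + d * ∑ i, rsob m d B (pv i f) := rfl
theorem rsupn_succ_def (m : ℕ) (d : ℝ) (B : Set V4) (f : V4 → E) :
    rsupn (m + 1) d B f = rsupn m d B f + d * ∑ i, rsupn m d B (pv i f) := rfl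

/-! ### partial derivatives -/

theorem pv_smooth {f : V4 → E} (hf : ContDiff ℝ ∞ f) (i : Fin 4) : ContDiff ℝ ∞ (pv i f) := by
  have : ContDiff ℝ ∞ (fderiv ℝ f) := hf.fderiv_right (m := ∞) (by simp)
  exact this.clm_apply contDiff_const

theorem pv_add {f g : V4 → E} (hf : Differentiable ℝ f) (hg : Differentiable ℝ g) (i : Fin 4) :
    pv i (fun y => f y + g y) = fun y => pv i f y + pv i g y := by
  funext y
  simp only [pv]
  rw [fderiv_fun_add (hf y) (hg y)]
  rfl

theorem pv_const_smul (c : ℝ) {f : V4 → E} (hf : Differentiable ℝ f) (i : Fin 4) :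
    pv i (fun y => c • f y) = fun y => c • pv i f y := by
  funext y
  simp only [pv]
  rw [fderiv_fun_const_smul (hf y)]
  rfl

theorem pv_zero (i : Fin 4) : pv i (fun _ : V4 => (0 : E)) = fun _ => 0 := by
  funext y
  simp only [pv, fderiv_fun_const, Pi.zero_apply, zero_apply]

theorem pv_clm (L : E →L[ℝ] F) {f : V4 → E} (hf : Differentiable ℝ f) (i : Fin 4) :
    pv i (fun y => L (f y)) = fun y => L (pv i f y) := by
  funext y
  simp only [pv]
  rw [show (fun y => L (f y)) = L ∘ f from rfl, fderiv_comp y L.differentiableAt (hf y),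
    ContinuousLinearMap.fderiv]
  rfl

theorem pv_clm_apply {A : V4 → E →L[ℝ] F} {f : V4 → E} (hA : Differentiable ℝ A) (hf : Differentiable ℝ f)
    (i : Fin 4) : pv i (fun y => A y (f y)) = fun y => pv i A y (f y) + A y (pv i f y) := by
  funext y
  simp only [pv]
  rw [fderiv_clm_apply (hA y) (hf y)]
  simp only [ContinuousLinearMap.add_apply, ContinuousLinearMap.comp_apply, ContinuousLinearMap.flip_apply]
  rw [add_comm]

theorem pi_eq_sum_single (v : V4) : v = ∑ i, v i • (Pi.single i 1 : V4) := by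
  funext j
  simp only [Finset.sum_apply, Pi.smul_apply, Pi.single_apply, smul_eq_mul, mul_ite, mul_one, mul_zero, Finset.sum_ite_eq, Finset.mem_univ, ↓reduceIte]

theorem fderiv_eq_sum_pv {f : V4 → E} (y v : V4) : fderiv ℝ f y v = ∑ i, v i • pv i f y := by
  conv_lhs => rw [pi_eq_sum_single v]
  rw [map_sum]
  simp only [map_smul, pv]

theorem norm_fderiv_le (f : V4 → E) (y : V4) : ‖fderiv ℝ f y‖ ≤ ∑ i, ‖pv i f y‖ := by
  apply ContinuousLinearMap.opNorm_le_bound _ (Finset.sum_nonneg fun i _ => norm_nonneg _)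
  intro v
  rw [fderiv_eq_sum_pv, Finset.sum_mul]
  refine (norm_sum_le _ _).trans (Finset.sum_le_sum fun i _ => ?_)
  rw [norm_smul, mul_comm]
  exact mul_le_mul_of_nonneg_left (norm_le_pi_norm v i) (norm_nonneg _)

/-- chain rule -/
theorem pv_comp {f : V4 → E} {T : V4 → V4} (hf : Differentiable ℝ f) (hT : Differentiable ℝ T) (i : Fin 4) :
    pv i (fun y => f (T y)) = fun y => ∑ k, (pv i T y) k • pv k f (T y) := by
  funext y
  simp only [pv]
  rw [show (fun y => f (T y)) = f ∘ T from rfl, fderiv_comp y (hf _) (hT y)]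
  rw [ContinuousLinearMap.comp_apply, fderiv_eq_sum_pv]
  rfl

/-- the partial derivative is local -/
theorem pv_congr {f g : V4 → E} {U : Set V4} (hU : IsOpen U) (h : ∀ y ∈ U, f y = g y) (i : Fin 4) :
    ∀ y ∈ U, pv i f y = pv i g y := by
  intro y hy
  have : f =ᶠ[nhds y] g := Filter.eventuallyEq_of_mem (hU.mem_nhds hy) h
  simp only [pv]
  rw [this.fderiv_eq]

/-! ### order zero -/

theorem memLp_of_continuous {f : V4 → E} (hf : Continuous f) {B : Set V4} (hB : Bornology.IsBounded B) :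
    MemLp f 2 (volume.restrict B) := by
  have hK : IsCompact (closure B) := hB.isCompact_closure
  have h1 : MemLp f 2 (volume.restrict (closure B)) := by
    have : IsFiniteMeasure (volume.restrict (closure B)) := ⟨by
      rw [Measure.restrict_apply_univ]; exact hK.measure_lt_top⟩
    obtain ⟨C, hC⟩ := hK.exists_bound_of_continuousOn hf.continuousOn
    refine MemLp.of_bound hf.aestronglyMeasurable C ?_
    filter_upwards [ae_restrict_mem isClosed_closure.measurableSet] with y hy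
    exact hC y hy
  exact h1.mono_measure (Measure.restrict_mono subset_closure le_rfl)

theorem rsob_zero_eq {f : V4 → E} {d : ℝ} {B : Set V4} (h : MemLp f 2 (volume.restrict B)) :
    rsob 0 d B f = (eLpNorm f 2 (volume.restrict B)).toReal := by
  rw [rsob_zero_def, h.eLpNorm_eq_integral_rpow_norm (by norm_num) (by norm_num)]
  rw [ENNReal.toReal_ofReal (by positivity)]
  rw [Real.sqrt_eq_rpow]
  simp only [one_div, ENNReal.toReal_ofNat, Real.rpow_ofNat]

theorem integrable_sq {f : V4 → E} (hf : Continuous f) {B : Set V4} (hB : Bornology.IsBounded B) :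
    IntegrableOn (fun y => ‖f y‖ ^ 2) B := by
  have hK : IsCompact (closure B) := hB.isCompact_closure
  exact ((hf.norm.pow 2).continuousOn.integrableOn_compact hK).mono_set subset_closure

theorem rsob_zero_add {f g : V4 → E} (hf : Continuous f) (hg : Continuous g) (d : ℝ) {B : Set V4}
    (hB : Bornology.IsBounded B) :
    rsob 0 d B (fun y => f y + g y) ≤ rsob 0 d B f + rsob 0 d B g := by
  have h1 := memLp_of_continuous hf hB
  have h2 := memLp_of_continuous hg hB
  rw [rsob_zero_eq h1, rsob_zero_eq h2,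
    show rsob 0 d B (fun y => f y + g y) = _ from rsob_zero_eq (f := fun y => f y + g y) (h1.add h2)]
  rw [← ENNReal.toReal_add h1.eLpNorm_ne_top h2.eLpNorm_ne_top]
  apply ENNReal.toReal_mono (ENNReal.add_ne_top.2 ⟨h1.eLpNorm_ne_top, h2.eLpNorm_ne_top⟩)
  exact eLpNorm_add_le h1.1 h2.1 (by norm_num)

theorem rsob_zero_mono {f : V4 → E} {g : V4 → F} (hg : Continuous g) (d d' : ℝ) {B B' : Set V4}
    (hB' : Bornology.IsBounded B') (hBB : B ⊆ B') {C : ℝ} (hC : 0 ≤ C) (hm : MeasurableSet B)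
    (h : ∀ y ∈ B, ‖f y‖ ≤ C * ‖g y‖) :
    rsob 0 d B f ≤ C * rsob 0 d' B' g := by
  rw [rsob_zero_def, rsob_zero_def]
  have h1 : C * Real.sqrt (∫ y in B', ‖g y‖ ^ 2) = Real.sqrt (∫ y in B', C ^ 2 * ‖g y‖ ^ 2) := by
    rw [integral_const_mul, Real.sqrt_mul (sq_nonneg C), Real.sqrt_sq hC]
  rw [h1]
  apply Real.sqrt_le_sqrt
  have hi : IntegrableOn (fun y => C ^ 2 * ‖g y‖ ^ 2) B' := (integrable_sq hg hB').const_mul _
  have h2 : ∫ y in B, C ^ 2 * ‖g y‖ ^ 2 ≤ ∫ y in B', C ^ 2 * ‖g y‖ ^ 2 :=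
    setIntegral_mono_set hi (by filter_upwards with y; positivity) (HasSubset.Subset.eventuallyLE hBB)
  refine le_trans ?_ h2
  apply integral_mono_of_nonneg
  · filter_upwards with y
    positivity
  · exact hi.mono_set hBB
  · filter_upwards [ae_restrict_mem hm] with y hy
    have := h y hy
    calc ‖f y‖ ^ 2 ≤ (C * ‖g y‖) ^ 2 := pow_le_pow_left₀ (norm_nonneg _) this 2
      _ = C ^ 2 * ‖g y‖ ^ 2 := by ring

/-! ### generic lemmas -/

section generic

variable {N N' : (V4 → E) → ℝ} {M : (V4 → F) → ℝ}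

theorem rn_nonneg (hN : ∀ f, 0 ≤ N f) {d : ℝ} (hd : 0 ≤ d) (m : ℕ) (f : V4 → E) : 0 ≤ rn N m d f := by
  induction m generalizing f with
  | zero => exact hN f
  | succ m ih => exact add_nonneg (ih f) (mul_nonneg hd (Finset.sum_nonneg fun i _ => ih _))

theorem rn_succ_le (hN : ∀ f, 0 ≤ N f) {d : ℝ} (hd : 0 ≤ d) (m : ℕ) (f : V4 → E) :
    rn N m d f ≤ rn N (m + 1) d f :=
  le_add_of_nonneg_right (mul_nonneg hd (Finset.sum_nonneg fun i _ => rn_nonneg hN hd m _))

theorem rn_mono_d (hN : ∀ f, 0 ≤ N f) {d d' : ℝ} (hd : 0 ≤ d) (hdd : d ≤ d') (m : ℕ) (f : V4 → E) :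
    rn N m d f ≤ rn N m d' f := by
  induction m generalizing f with
  | zero => exact le_rfl
  | succ m ih =>
    refine add_le_add (ih f) (mul_le_mul hdd (Finset.sum_le_sum fun i _ => ih _)
      (Finset.sum_nonneg fun i _ => rn_nonneg hN hd m _) (hd.trans hdd))

theorem rn_scale (hN : ∀ f, 0 ≤ N f) {d : ℝ} (hd : 0 ≤ d) (hd1 : d ≤ 1) (m : ℕ) (f : V4 → E) :
    d ^ m * rn N m 1 f ≤ rn N m d f := by
  induction m generalizing f with
  | zero => simp only [pow_zero, rn, one_mul, Std.le_refl]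
  | succ m ih =>
    have h1 : d ^ (m + 1) * rn N m 1 f ≤ rn N m d f := by
      have h2 : 0 ≤ d ^ m * rn N m 1 f := mul_nonneg (pow_nonneg hd m) (rn_nonneg hN zero_le_one m f)
      calc d ^ (m + 1) * rn N m 1 f = d * (d ^ m * rn N m 1 f) := by ring
        _ ≤ 1 * (d ^ m * rn N m 1 f) := mul_le_mul_of_nonneg_right hd1 h2
        _ ≤ rn N m d f := by rw [one_mul]; exact ih f
    have h3 : d ^ m * ∑ i, rn N m 1 (pv i f) ≤ ∑ i, rn N m d (pv i f) := by
      rw [Finset.mul_sum]
      exact Finset.sum_le_sum fun i _ => ih _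
    calc d ^ (m + 1) * rn N (m + 1) 1 f
        = d ^ (m + 1) * rn N m 1 f + d * (d ^ m * ∑ i, rn N m 1 (pv i f)) := by
          simp only [rn]; ring
      _ ≤ rn N m d f + d * ∑ i, rn N m d (pv i f) := add_le_add h1 (mul_le_mul_of_nonneg_left h3 hd)

theorem rn_add (hN : ∀ f g : V4 → E, Continuous f → Continuous g → N (fun y => f y + g y) ≤ N f + N g)
    {d : ℝ} (hd : 0 ≤ d) (m : ℕ) {f g : V4 → E} (hf : ContDiff ℝ ∞ f) (hg : ContDiff ℝ ∞ g) :
    rn N m d (fun y => f y + g y) ≤ rn N m d f + rn N m d g := by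
  induction m generalizing f g with
  | zero => exact hN f g hf.continuous hg.continuous
  | succ m ih =>
    have h1 : ∀ i, rn N m d (pv i (fun y => f y + g y)) ≤ rn N m d (pv i f) + rn N m d (pv i g) := by
      intro i
      rw [pv_add (hf.differentiable (by simp)) (hg.differentiable (by simp))]
      exact ih (pv_smooth hf i) (pv_smooth hg i)
    have h2 : ∑ i, rn N m d (pv i (fun y => f y + g y)) ≤
        ∑ i, rn N m d (pv i f) + ∑ i, rn N m d (pv i g) := by
      rw [← Finset.sum_add_distrib]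
      exact Finset.sum_le_sum fun i _ => h1 i
    have h3 := mul_le_mul_of_nonneg_left h2 hd
    have h4 := ih hf hg
    simp only [rn]
    linarith

theorem rn_smul (hN : ∀ (c : ℝ) (f : V4 → E), N (fun y => c • f y) = |c| * N f)
    (d c : ℝ) (m : ℕ) {f : V4 → E} (hf : ContDiff ℝ ∞ f) :
    rn N m d (fun y => c • f y) = |c| * rn N m d f := by
  induction m generalizing f with
  | zero => exact hN c f
  | succ m ih =>
    have h1 : ∀ i, rn N m d (pv i (fun y => c • f y)) = |c| * rn N m d (pv i f) := by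
      intro i
      rw [pv_const_smul c (hf.differentiable (by simp))]
      exact ih (pv_smooth hf i)
    simp only [rn]
    rw [ih hf, Finset.sum_congr rfl fun i _ => h1 i, ← Finset.mul_sum]
    ring

/-- comparison of two norms -/
theorem rn_le {C : ℝ} (hC : ∀ f : V4 → E, Continuous f → N f ≤ C * N' f) {d : ℝ} (hd : 0 ≤ d) (m : ℕ)
    {f : V4 → E} (hf : ContDiff ℝ ∞ f) : rn N m d f ≤ C * rn N' m d f := by
  induction m generalizing f with
  | zero => exact hC f hf.continuous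
  | succ m ih =>
    have h2 : ∑ i, rn N m d (pv i f) ≤ C * ∑ i, rn N' m d (pv i f) := by
      rw [Finset.mul_sum]
      exact Finset.sum_le_sum fun i _ => ih (pv_smooth hf i)
    have h3 := mul_le_mul_of_nonneg_left h2 hd
    have h4 := ih hf
    simp only [rn]
    linarith

/-- comparison with a sum of norms -/
theorem rn_le_sum {ι : Type*} (s : Finset ι) (L : ι → (V4 → E) → ℝ)
    (hC : ∀ f : V4 → E, Continuous f → N f ≤ ∑ k ∈ s, L k f) {d : ℝ} (hd : 0 ≤ d) (m : ℕ)
    {f : V4 → E} (hf : ContDiff ℝ ∞ f) : rn N m d f ≤ ∑ k ∈ s, rn (L k) m d f := by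
  induction m generalizing f with
  | zero => exact hC f hf.continuous
  | succ m ih =>
    have h2 : ∑ i, rn N m d (pv i f) ≤ ∑ k ∈ s, ∑ i, rn (L k) m d (pv i f) := by
      rw [Finset.sum_comm]
      exact Finset.sum_le_sum fun i _ => ih (pv_smooth hf i)
    have h3 := mul_le_mul_of_nonneg_left h2 hd
    have h4 := ih hf
    simp only [rn]
    rw [Finset.sum_add_distrib, ← Finset.mul_sum]
    linarith

/-- the norm is local -/
theorem rn_congr {U : Set V4} (hU : IsOpen U)
    (hN : ∀ f g : V4 → E, (∀ y ∈ U, f y = g y) → N f = N g) (d : ℝ) (m : ℕ) {f g : V4 → E}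
    (h : ∀ y ∈ U, f y = g y) : rn N m d f = rn N m d g := by
  induction m generalizing f g with
  | zero => exact hN f g h
  | succ m ih =>
    simp only [rn]
    rw [ih h, Finset.sum_congr rfl fun i _ => ih (pv_congr hU h i)]

/-- products: `M (B A f) ≤ P A * N' f` in order zero gives the same in order `m`, for `d ≤ 1` -/
theorem rn_bilin {G : Type*} [NormedAddCommGroup G] [NormedSpace ℝ G] (B : G →L[ℝ] E →L[ℝ] F)
    {M : (V4 → F) → ℝ} {N' : (V4 → E) → ℝ} {P : (V4 → G) → ℝ}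
    (hM : ∀ f g : V4 → F, Continuous f → Continuous g → M (fun y => f y + g y) ≤ M f + M g)
    (hP0 : ∀ A, 0 ≤ P A) (hN0 : ∀ f, 0 ≤ N' f)
    (h : ∀ (A : V4 → G) (f : V4 → E), Continuous A → Continuous f → M (fun y => B (A y) (f y)) ≤ P A * N' f)
    {d : ℝ} (hd : 0 ≤ d) (hd1 : d ≤ 1) (m : ℕ) {A : V4 → G} {f : V4 → E}
    (hA : ContDiff ℝ ∞ A) (hf : ContDiff ℝ ∞ f) :
    rn M m d (fun y => B (A y) (f y)) ≤ rn P m 1 A * rn N' m d f := by
  induction m generalizing A f with
  | zero => exact h A f hA.continuous hf.continuous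
  | succ m ih =>
    have hPm : ∀ A, 0 ≤ rn P m 1 A := fun A => rn_nonneg hP0 zero_le_one m A
    have hNm : ∀ f, 0 ≤ rn N' m d f := fun f => rn_nonneg hN0 hd m f
    have hBs : ∀ {A : V4 → G} {f : V4 → E}, ContDiff ℝ ∞ A → ContDiff ℝ ∞ f →
        ContDiff ℝ ∞ (fun y => B (A y) (f y)) := fun hA hf => (B.contDiff.comp hA).clm_apply hf
    have h0 : ∀ i, pv i (fun y => B (A y) (f y)) =
        fun y => B (pv i A y) (f y) + B (A y) (pv i f y) := by
      intro i
      rw [pv_clm_apply (A := fun y => B (A y)) ((B.contDiff.comp hA).differentiable (by simp))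
        (hf.differentiable (by simp)), pv_clm B (hA.differentiable (by simp))]
    have h1 : ∀ i, rn M m d (pv i (fun y => B (A y) (f y))) ≤
        rn P m 1 (pv i A) * rn N' m d f + rn P m 1 A * rn N' m d (pv i f) := by
      intro i
      rw [h0]
      refine (rn_add hM hd m (hBs (pv_smooth hA i) hf) (hBs hA (pv_smooth hf i))).trans ?_
      exact add_le_add (ih (pv_smooth hA i) hf) (ih hA (pv_smooth hf i))
    have h2 : ∑ i, rn M m d (pv i (fun y => B (A y) (f y))) ≤
        (∑ i, rn P m 1 (pv i A)) * rn N' m d f + rn P m 1 A * ∑ i, rn N' m d (pv i f) := by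
      rw [Finset.sum_mul, Finset.mul_sum, ← Finset.sum_add_distrib]
      exact Finset.sum_le_sum fun i _ => h1 i
    have h3 := mul_le_mul_of_nonneg_left h2 hd
    have h4 := ih hA hf
    have h5 : 0 ≤ ∑ i, rn P m 1 (pv i A) := Finset.sum_nonneg fun i _ => hPm _
    have h6 : 0 ≤ ∑ i, rn N' m d (pv i f) := Finset.sum_nonneg fun i _ => hNm _
    have h7 : d * ((∑ i, rn P m 1 (pv i A)) * rn N' m d f) ≤ (∑ i, rn P m 1 (pv i A)) * rn N' m d f :=
      mul_le_of_le_one_left (mul_nonneg h5 (hNm f)) hd1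
    have h8 : 0 ≤ (∑ i, rn P m 1 (pv i A)) * (d * ∑ i, rn N' m d (pv i f)) := by positivity
    simp only [rn]
    rw [one_mul]
    linarith only [h3, h4, h7, h8]

theorem rn_smul_fun {M : (V4 → E) → ℝ} {N' : (V4 → E) → ℝ} {P : (V4 → ℝ) → ℝ}
    (hM : ∀ f g : V4 → E, Continuous f → Continuous g → M (fun y => f y + g y) ≤ M f + M g)
    (hP0 : ∀ A, 0 ≤ P A) (hN0 : ∀ f, 0 ≤ N' f)
    (h : ∀ (a : V4 → ℝ) (f : V4 → E), Continuous a → Continuous f → M (fun y => a y • f y) ≤ P a * N' f)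
    {d : ℝ} (hd : 0 ≤ d) (hd1 : d ≤ 1) (m : ℕ) {a : V4 → ℝ} {f : V4 → E}
    (ha : ContDiff ℝ ∞ a) (hf : ContDiff ℝ ∞ f) :
    rn M m d (fun y => a y • f y) ≤ rn P m 1 a * rn N' m d f :=
  rn_bilin (ContinuousLinearMap.lsmul ℝ ℝ) hM hP0 hN0 h hd hd1 m ha hf

/-- finite sums -/
theorem rn_sum {ι : Type*} (s : Finset ι) (hN00 : N (fun _ => 0) = 0)
    (hN : ∀ f g : V4 → E, Continuous f → Continuous g → N (fun y => f y + g y) ≤ N f + N g)
    {d : ℝ} (hd : 0 ≤ d) (m : ℕ) {f : ι → V4 → E} (hf : ∀ k ∈ s, ContDiff ℝ ∞ (f k)) :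
    rn N m d (fun y => ∑ k ∈ s, f k y) ≤ ∑ k ∈ s, rn N m d (f k) := by
  classical
  induction s using Finset.induction_on with
  | empty =>
    simp only [Finset.sum_empty]
    apply le_of_eq
    clear hf
    induction m with
    | zero => exact hN00
    | succ m ih =>
      simp only [rn]
      rw [ih]
      simp only [pv_zero, ih]
      simp
  | insert a s ha ih =>
    simp only [Finset.sum_insert ha]
    have h1 : ∀ k ∈ s, ContDiff ℝ ∞ (f k) := fun k hk => hf k (Finset.mem_insert_of_mem hk)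
    refine (rn_add hN hd m (hf a (Finset.mem_insert_self a s)) (ContDiff.sum h1)).trans ?_
    exact add_le_add le_rfl (ih h1)

/-- composition with a fixed map -/
theorem rn_comp {T : V4 → V4} (hT : ContDiff ℝ ∞ T) {P : (V4 → ℝ) → ℝ}
    (hN00 : N (fun _ => 0) = 0) (hN0 : ∀ f, 0 ≤ N f) (hN'0 : ∀ f, 0 ≤ N' f) (hP0 : ∀ f, 0 ≤ P f)
    (hN : ∀ f g : V4 → E, Continuous f → Continuous g → N (fun y => f y + g y) ≤ N f + N g)
    (hP : ∀ (a : V4 → ℝ) (f : V4 → E), Continuous a → Continuous f → N (fun y => a y • f y) ≤ P a * N f)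
    {C : ℝ} (hC0 : 0 ≤ C) (hC : ∀ f : V4 → E, Continuous f → N (fun y => f (T y)) ≤ C * N' f) (m : ℕ) :
    ∃ C' : ℝ, 0 ≤ C' ∧ ∀ (d : ℝ), 0 ≤ d → d ≤ 1 → ∀ f : V4 → E, ContDiff ℝ ∞ f →
      rn N m d (fun y => f (T y)) ≤ C' * rn N' m d f := by
  induction m with
  | zero => exact ⟨C, hC0, fun d _ _ f hf => hC f hf.continuous⟩
  | succ m ih =>
    obtain ⟨C', hC'0, hC'⟩ := ih
    have ha : ∀ i k, ContDiff ℝ ∞ fun y => (pv i T y) k := fun i k => contDiff_pi.1 (pv_smooth hT i) k
    set S : ℝ := ∑ i, ∑ k, rn P m 1 (fun y => (pv i T y) k) with hS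
    have hS1 : ∀ i k, rn P m 1 (fun y => (pv i T y) k) ≤ S := by
      intro i k
      rw [hS]
      refine le_trans ?_ (Finset.single_le_sum (f := fun i => ∑ k, rn P m 1 (fun y => (pv i T y) k))
        (fun i _ => Finset.sum_nonneg fun k _ => rn_nonneg hP0 zero_le_one m _) (Finset.mem_univ i))
      exact Finset.single_le_sum (f := fun k => rn P m 1 (fun y => (pv i T y) k))
        (fun k _ => rn_nonneg hP0 zero_le_one m _) (Finset.mem_univ k)
    have hS0 : 0 ≤ S := Finset.sum_nonneg fun i _ => Finset.sum_nonneg fun k _ =>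
      rn_nonneg hP0 zero_le_one m _
    refine ⟨C' + 4 * (S * C'), by (clear * - hC'0 hS0; positivity), fun d hd hd1 f hf => ?_⟩
    have hNm : ∀ f, 0 ≤ rn N' m d f := fun f => rn_nonneg hN'0 hd m f
    have h1 : ∀ i, rn N m d (pv i (fun y => f (T y))) ≤ S * C' * ∑ k, rn N' m d (pv k f) := by
      intro i
      rw [pv_comp (hf.differentiable (by simp)) (hT.differentiable (by simp))]
      refine (rn_sum Finset.univ hN00 hN hd m (f := fun k y => (pv i T y) k • pv k f (T y))
        fun k _ => (ha i k).smul ((pv_smooth hf k).comp hT)).trans ?_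
      rw [Finset.mul_sum]
      refine Finset.sum_le_sum fun k _ => ?_
      refine (rn_smul_fun hN hP0 hN0 hP hd hd1 m (ha i k) ((pv_smooth hf k).comp hT)).trans ?_
      rw [mul_assoc]
      exact mul_le_mul (hS1 i k) (hC' d hd hd1 _ (pv_smooth hf k)) (rn_nonneg hN0 hd m _) hS0
    have h2 : ∑ i, rn N m d (pv i (fun y => f (T y))) ≤ 4 * (S * C' * ∑ k, rn N' m d (pv k f)) := by
      refine (Finset.sum_le_sum fun i _ => h1 i).trans ?_
      rw [Finset.sum_const, Finset.card_univ, Fintype.card_fin]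
      simp only [nsmul_eq_mul, Nat.cast_ofNat, Std.le_refl]
    have h3 := mul_le_mul_of_nonneg_left h2 hd
    have h4 := hC' d hd hd1 f hf
    have h5 : 0 ≤ ∑ k, rn N' m d (pv k f) := Finset.sum_nonneg fun i _ => hNm _
    have h6 : 0 ≤ 4 * (S * C') * rn N' m d f := mul_nonneg (by (clear * - hS0 hC'0; positivity)) (hNm f)
    have h7 : 0 ≤ C' * (d * ∑ k, rn N' m d (pv k f)) := by positivity
    simp only [rn]
    linarith only [h3, h4, h6, h7]

end generic

end Vale.Agent.P204.GX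
end

section
set_option linter.all false
/-! The basic properties of `rsob` and `rsupn`. -/
open MeasureTheory Set
open scoped ContDiff BigOperators ENNReal Pointwise

namespace Vale.Agent.P204.GX
open Vale.Agent.P204.T4

variable {E F : Type*} [NormedAddCommGroup E] [NormedSpace ℝ E] [NormedAddCommGroup F] [NormedSpace ℝ F]

/-! ### order zero: sup norm -/

theorem bddAbove_image {f : V4 → E} (hf : Continuous f) {B : Set V4} (hB : Bornology.IsBounded B) :
    BddAbove ((fun y => ‖f y‖) '' B) := by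
  have hK : IsCompact (closure B) := hB.isCompact_closure
  exact (hK.bddAbove_image hf.norm.continuousOn).mono (image_mono subset_closure)

theorem ssup_nonneg (B : Set V4) (f : V4 → E) : 0 ≤ sSup ((fun y => ‖f y‖) '' B) := by
  apply Real.sSup_nonneg
  rintro _ ⟨y, _, rfl⟩
  exact norm_nonneg _

theorem le_ssup {f : V4 → E} (hf : Continuous f) {B : Set V4} (hB : Bornology.IsBounded B) {y : V4}
    (hy : y ∈ B) : ‖f y‖ ≤ sSup ((fun y => ‖f y‖) '' B) :=
  le_csSup (bddAbove_image hf hB) (mem_image_of_mem _ hy)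

theorem ssup_le {f : V4 → E} {B : Set V4} {C : ℝ} (hC : 0 ≤ C) (h : ∀ y ∈ B, ‖f y‖ ≤ C) :
    sSup ((fun y => ‖f y‖) '' B) ≤ C := by
  apply Real.sSup_le _ hC
  rintro _ ⟨y, hy, rfl⟩
  exact h y hy

theorem ssup_zero (B : Set V4) : sSup ((fun y => ‖(fun _ : V4 => (0 : E)) y‖) '' B) = 0 := by
  apply le_antisymm
  · exact ssup_le le_rfl fun y _ => by simp
  · exact ssup_nonneg B (fun _ : V4 => (0 : E))

theorem ssup_add {f g : V4 → E} (hf : Continuous f) (hg : Continuous g) {B : Set V4}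
    (hB : Bornology.IsBounded B) :
    sSup ((fun y => ‖(fun y => f y + g y) y‖) '' B) ≤
      sSup ((fun y => ‖f y‖) '' B) + sSup ((fun y => ‖g y‖) '' B) :=
  ssup_le (add_nonneg (ssup_nonneg B f) (ssup_nonneg B g)) fun y hy =>
    (norm_add_le _ _).trans (add_le_add (le_ssup hf hB hy) (le_ssup hg hB hy))

theorem ssup_smul (c : ℝ) (f : V4 → E) (B : Set V4) :
    sSup ((fun y => ‖(fun y => c • f y) y‖) '' B) = |c| * sSup ((fun y => ‖f y‖) '' B) := by
  have h : (fun y => ‖(fun y => c • f y) y‖) '' B = |c| • ((fun y => ‖f y‖) '' B) := by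
    rw [← image_smul, image_image]
    apply image_congr
    intro y _
    simp only [norm_smul, Real.norm_eq_abs, smul_eq_mul]
  rw [h, Real.sSup_smul_of_nonneg (abs_nonneg c)]
  rfl

/-! ### rsupn -/

theorem rsupn_nonneg {d : ℝ} (hd : 0 ≤ d) (m : ℕ) (B : Set V4) (f : V4 → E) : 0 ≤ rsupn m d B f :=
  rn_nonneg (ssup_nonneg B) hd m f

theorem rsupn_add {d : ℝ} (hd : 0 ≤ d) (m : ℕ) {B : Set V4} (hB : Bornology.IsBounded B) {f g : V4 → E}
    (hf : ContDiff ℝ ∞ f) (hg : ContDiff ℝ ∞ g) :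
    rsupn m d B (fun y => f y + g y) ≤ rsupn m d B f + rsupn m d B g :=
  rn_add (fun f g hf hg => ssup_add hf hg hB) hd m hf hg

theorem rsupn_smul (d c : ℝ) (m : ℕ) (B : Set V4) {f : V4 → E} (hf : ContDiff ℝ ∞ f) :
    rsupn m d B (fun y => c • f y) = |c| * rsupn m d B f :=
  rn_smul (fun c f => ssup_smul c f B) d c m hf

theorem rsupn_mono_d {d d' : ℝ} (hd : 0 ≤ d) (hdd : d ≤ d') (m : ℕ) (B : Set V4) (f : V4 → E) :
    rsupn m d B f ≤ rsupn m d' B f := rn_mono_d (ssup_nonneg B) hd hdd m f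

theorem rsupn_succ {d : ℝ} (hd : 0 ≤ d) (m : ℕ) (B : Set V4) (f : V4 → E) :
    rsupn m d B f ≤ rsupn (m + 1) d B f := rn_succ_le (ssup_nonneg B) hd m f

theorem rsupn_congr {U : Set V4} (hU : IsOpen U) {B : Set V4} (hBU : B ⊆ U) (d : ℝ) (m : ℕ) {f g : V4 → E}
    (h : ∀ y ∈ U, f y = g y) : rsupn m d B f = rsupn m d B g := by
  refine rn_congr hU (fun f g h => ?_) d m h
  congr 1
  exact image_congr fun y hy => by rw [h y (hBU hy)]

theorem rsupn_bilin {G : Type*} [NormedAddCommGroup G] [NormedSpace ℝ G] (L : G →L[ℝ] E →L[ℝ] F) (hL : ‖L‖ ≤ 1)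
    {d : ℝ} (hd : 0 ≤ d) (hd1 : d ≤ 1) (m : ℕ) {B : Set V4} (hB : Bornology.IsBounded B) {A : V4 → G} {f : V4 → E}
    (hA : ContDiff ℝ ∞ A) (hf : ContDiff ℝ ∞ f) :
    rsupn m d B (fun y => L (A y) (f y)) ≤ rsupn m 1 B A * rsupn m d B f := by
  refine rn_bilin L (fun f g hf hg => ssup_add hf hg hB) (ssup_nonneg B) (ssup_nonneg B) ?_ hd hd1 m hA hf
  intro A f hA hf
  refine ssup_le (mul_nonneg (ssup_nonneg _ _) (ssup_nonneg _ _)) fun y hy => ?_
  calc ‖L (A y) (f y)‖ ≤ ‖L‖ * ‖A y‖ * ‖f y‖ := L.le_opNorm₂ _ _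
    _ ≤ 1 * ‖A y‖ * ‖f y‖ := by gcongr
    _ = ‖A y‖ * ‖f y‖ := by ring
    _ ≤ _ := mul_le_mul (le_ssup hA hB hy) (le_ssup hf hB hy) (norm_nonneg _) (ssup_nonneg _ _)

theorem rsupn_clm_apply {d : ℝ} (hd : 0 ≤ d) (hd1 : d ≤ 1) (m : ℕ) {B : Set V4} (hB : Bornology.IsBounded B)
    {A : V4 → E →L[ℝ] F} {f : V4 → E} (hA : ContDiff ℝ ∞ A) (hf : ContDiff ℝ ∞ f) :
    rsupn m d B (fun y => A y (f y)) ≤ rsupn m 1 B A * rsupn m d B f :=
  rsupn_bilin (ContinuousLinearMap.id ℝ (E →L[ℝ] F)) ContinuousLinearMap.norm_id_le hd hd1 m hB hA hf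

theorem rsupn_comp {T : V4 → V4} (hT : ContDiff ℝ ∞ T) {B B' : Set V4} (hB : Bornology.IsBounded B)
    (hB' : Bornology.IsBounded B') (hTB : MapsTo T B B') (m : ℕ) :
    ∃ C' : ℝ, 0 ≤ C' ∧ ∀ (d : ℝ), 0 ≤ d → d ≤ 1 → ∀ f : V4 → E, ContDiff ℝ ∞ f →
      rsupn m d B (fun y => f (T y)) ≤ C' * rsupn m d B' f := by
  refine rn_comp hT (N := fun f : V4 → E => sSup ((fun y => ‖f y‖) '' B))
    (N' := fun f : V4 → E => sSup ((fun y => ‖f y‖) '' B')) (P := fun f : V4 → ℝ => sSup ((fun y => ‖f y‖) '' B))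
    (ssup_zero B) (ssup_nonneg B) (ssup_nonneg B') (ssup_nonneg B)
    (fun f g hf hg => ssup_add hf hg hB) (fun a f ha hf => ?_) zero_le_one (fun f hf => ?_) m
  · refine ssup_le (mul_nonneg (ssup_nonneg _ _) (ssup_nonneg _ _)) fun y hy => ?_
    rw [norm_smul]
    exact mul_le_mul (le_ssup ha hB hy) (le_ssup hf hB hy) (norm_nonneg _) (ssup_nonneg _ _)
  · rw [one_mul]
    exact ssup_le (ssup_nonneg _ _) fun y hy => le_ssup hf hB' (hTB hy)

theorem rsupn_union {ι : Type*} (s : Finset ι) {d : ℝ} (hd : 0 ≤ d) (m : ℕ) {B : Set V4} {K : ι → Set V4}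
    (hK : ∀ k ∈ s, Bornology.IsBounded (K k)) (hB : B ⊆ ⋃ k ∈ s, K k) {f : V4 → E} (hf : ContDiff ℝ ∞ f) :
    rsupn m d B f ≤ ∑ k ∈ s, rsupn m d (K k) f := by
  refine rn_le_sum s (fun k (f : V4 → E) => sSup ((fun y => ‖f y‖) '' K k)) (fun f hf => ?_) hd m hf
  refine ssup_le (Finset.sum_nonneg fun k _ => ssup_nonneg _ _) fun y hy => ?_
  obtain ⟨k, hk, hy'⟩ := mem_iUnion₂.1 (hB hy)
  exact (le_ssup hf (hK k hk) hy').trans
    (Finset.single_le_sum (f := fun k => sSup ((fun y => ‖f y‖) '' K k)) (fun k _ => ssup_nonneg _ _) hk)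

/-- pointwise bound -/
theorem norm_le_rsupn {d : ℝ} (hd : 0 ≤ d) (m : ℕ) {B : Set V4} (hB : Bornology.IsBounded B) {f : V4 → E}
    (hf : Continuous f) {y : V4} (hy : y ∈ B) : ‖f y‖ ≤ rsupn m d B f := by
  induction m with
  | zero => exact le_ssup hf hB hy
  | succ m ih => exact ih.trans (rsupn_succ hd m B f)

/-! ### rsob -/

theorem rsob_nonneg {d : ℝ} (hd : 0 ≤ d) (m : ℕ) (B : Set V4) (f : V4 → E) : 0 ≤ rsob m d B f :=
  rn_nonneg (fun f => Real.sqrt_nonneg _) hd m f

theorem rsob_add {d : ℝ} (hd : 0 ≤ d) (m : ℕ) {B : Set V4} (hB : Bornology.IsBounded B) {f g : V4 → E}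
    (hf : ContDiff ℝ ∞ f) (hg : ContDiff ℝ ∞ g) :
    rsob m d B (fun y => f y + g y) ≤ rsob m d B f + rsob m d B g :=
  rn_add (fun f g hf hg => rsob_zero_add hf hg d hB) hd m hf hg

theorem rsob0_smul (c : ℝ) (f : V4 → E) (B : Set V4) :
    Real.sqrt (∫ y in B, ‖(fun y => c • f y) y‖ ^ 2) = |c| * Real.sqrt (∫ y in B, ‖f y‖ ^ 2) := by
  have h : ∀ y, ‖c • f y‖ ^ 2 = |c| ^ 2 * ‖f y‖ ^ 2 := by
    intro y
    rw [norm_smul, mul_pow, Real.norm_eq_abs]
  simp only [h]
  rw [integral_const_mul, Real.sqrt_mul (by positivity), Real.sqrt_sq (abs_nonneg c)]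

theorem rsob_smul (d c : ℝ) (m : ℕ) (B : Set V4) {f : V4 → E} (hf : ContDiff ℝ ∞ f) :
    rsob m d B (fun y => c • f y) = |c| * rsob m d B f :=
  rn_smul (fun c f => rsob0_smul c f B) d c m hf

theorem rsob_mono_d {d d' : ℝ} (hd : 0 ≤ d) (hdd : d ≤ d') (m : ℕ) (B : Set V4) (f : V4 → E) :
    rsob m d B f ≤ rsob m d' B f := rn_mono_d (fun f => Real.sqrt_nonneg _) hd hdd m f

theorem rsob_succ {d : ℝ} (hd : 0 ≤ d) (m : ℕ) (B : Set V4) (f : V4 → E) :
    rsob m d B f ≤ rsob (m + 1) d B f := rn_succ_le (fun f => Real.sqrt_nonneg _) hd m f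

theorem rsob_scale {d : ℝ} (hd : 0 ≤ d) (hd1 : d ≤ 1) (m : ℕ) (B : Set V4) (f : V4 → E) :
    d ^ m * rsob m 1 B f ≤ rsob m d B f := rn_scale (fun f => Real.sqrt_nonneg _) hd hd1 m f

theorem rsob_congr {U : Set V4} (hU : IsOpen U) {B : Set V4} (hm : MeasurableSet B) (hBU : B ⊆ U) (d : ℝ) (m : ℕ)
    {f g : V4 → E} (h : ∀ y ∈ U, f y = g y) : rsob m d B f = rsob m d B g := by
  refine rn_congr hU (fun f g h => ?_) d m h
  congr 1
  exact setIntegral_congr_fun hm fun y hy => by simp only [h y (hBU hy)]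

theorem rsob0_bound {f : V4 → E} {g : V4 → F} (hg : Continuous g) {B : Set V4} (hm : MeasurableSet B)
    (hB : Bornology.IsBounded B) {C : ℝ} (hC : 0 ≤ C) (h : ∀ y ∈ B, ‖f y‖ ≤ C * ‖g y‖) :
    Real.sqrt (∫ y in B, ‖f y‖ ^ 2) ≤ C * Real.sqrt (∫ y in B, ‖g y‖ ^ 2) :=
  rsob_zero_mono hg 0 0 hB Subset.rfl hC hm h

theorem rsob_bilin {G : Type*} [NormedAddCommGroup G] [NormedSpace ℝ G] (L : G →L[ℝ] E →L[ℝ] F) (hL : ‖L‖ ≤ 1)
    {d : ℝ} (hd : 0 ≤ d) (hd1 : d ≤ 1) (m : ℕ) {B : Set V4} (hm : MeasurableSet B) (hB : Bornology.IsBounded B)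
    {A : V4 → G} {f : V4 → E} (hA : ContDiff ℝ ∞ A) (hf : ContDiff ℝ ∞ f) :
    rsob m d B (fun y => L (A y) (f y)) ≤ rsupn m 1 B A * rsob m d B f := by
  refine rn_bilin L (fun f g hf hg => rsob_zero_add hf hg d hB) (ssup_nonneg B) (fun f => Real.sqrt_nonneg _) ?_
    hd hd1 m hA hf
  intro A f hA hf
  refine rsob0_bound hf hm hB (ssup_nonneg _ _) fun y hy => ?_
  calc ‖L (A y) (f y)‖ ≤ ‖L‖ * ‖A y‖ * ‖f y‖ := L.le_opNorm₂ _ _
    _ ≤ 1 * ‖A y‖ * ‖f y‖ := by gcongr
    _ = ‖A y‖ * ‖f y‖ := by ring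
    _ ≤ _ := mul_le_mul_of_nonneg_right (le_ssup hA hB hy) (norm_nonneg _)

theorem rsob_clm_apply {d : ℝ} (hd : 0 ≤ d) (hd1 : d ≤ 1) (m : ℕ) {B : Set V4} (hm : MeasurableSet B)
    (hB : Bornology.IsBounded B) {A : V4 → E →L[ℝ] F} {f : V4 → E} (hA : ContDiff ℝ ∞ A) (hf : ContDiff ℝ ∞ f) :
    rsob m d B (fun y => A y (f y)) ≤ rsupn m 1 B A * rsob m d B f :=
  rsob_bilin (ContinuousLinearMap.id ℝ (E →L[ℝ] F)) ContinuousLinearMap.norm_id_le hd hd1 m hm hB hA hf

theorem rsob0_zero (B : Set V4) : Real.sqrt (∫ y in B, ‖(fun _ : V4 => (0 : E)) y‖ ^ 2) = 0 := by simp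

/-- composition with a fixed map, given the estimate of order zero -/
theorem rsob_comp' {T : V4 → V4} (hT : ContDiff ℝ ∞ T) {B B' : Set V4} (hm : MeasurableSet B)
    (hB : Bornology.IsBounded B) {C : ℝ} (hC0 : 0 ≤ C)
    (hC : ∀ f : V4 → E, Continuous f →
      Real.sqrt (∫ y in B, ‖f (T y)‖ ^ 2) ≤ C * Real.sqrt (∫ y in B', ‖f y‖ ^ 2)) (m : ℕ) :
    ∃ C' : ℝ, 0 ≤ C' ∧ ∀ (d : ℝ), 0 ≤ d → d ≤ 1 → ∀ f : V4 → E, ContDiff ℝ ∞ f →
      rsob m d B (fun y => f (T y)) ≤ C' * rsob m d B' f := by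
  refine rn_comp hT (N := fun f : V4 → E => Real.sqrt (∫ y in B, ‖f y‖ ^ 2))
    (N' := fun f : V4 → E => Real.sqrt (∫ y in B', ‖f y‖ ^ 2)) (P := fun f : V4 → ℝ => sSup ((fun y => ‖f y‖) '' B))
    (rsob0_zero B) (fun f => Real.sqrt_nonneg _) (fun f => Real.sqrt_nonneg _) (ssup_nonneg B)
    (fun f g hf hg => rsob_zero_add hf hg 0 hB) (fun a f ha hf => ?_) hC0 (fun f hf => hC f hf) m
  refine rsob0_bound hf hm hB (ssup_nonneg _ _) fun y hy => ?_
  rw [norm_smul]
  exact mul_le_mul_of_nonneg_right (le_ssup ha hB hy) (norm_nonneg _)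

theorem sqrt_sum_le {ι : Type*} (s : Finset ι) (a : ι → ℝ) (ha : ∀ k ∈ s, 0 ≤ a k) :
    Real.sqrt (∑ k ∈ s, a k) ≤ ∑ k ∈ s, Real.sqrt (a k) := by
  classical
  induction s using Finset.induction_on with
  | empty => simp
  | insert k s hk ih =>
    rw [Finset.sum_insert hk, Finset.sum_insert hk]
    have h1 : 0 ≤ a k := ha k (Finset.mem_insert_self k s)
    have h2 : 0 ≤ ∑ k ∈ s, a k := Finset.sum_nonneg fun j hj => ha j (Finset.mem_insert_of_mem hj)
    have h3 : Real.sqrt (a k + ∑ k ∈ s, a k) ≤ Real.sqrt (a k) + Real.sqrt (∑ k ∈ s, a k) := by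
      rw [Real.sqrt_le_left (by positivity)]
      have e1 := Real.sq_sqrt h1
      have e2 := Real.sq_sqrt h2
      have e3 : 0 ≤ Real.sqrt (a k) * Real.sqrt (∑ k ∈ s, a k) := by positivity
      linarith only [e1, e2, e3]
    exact h3.trans (add_le_add le_rfl (ih fun j hj => ha j (Finset.mem_insert_of_mem hj)))

theorem rsob_union {ι : Type*} (s : Finset ι) {d : ℝ} (hd : 0 ≤ d) (m : ℕ) {B : Set V4} {K : ι → Set V4}
    (hmK : ∀ k ∈ s, MeasurableSet (K k))
    (hK : ∀ k ∈ s, Bornology.IsBounded (K k)) (hB : B ⊆ ⋃ k ∈ s, K k) {f : V4 → E} (hf : ContDiff ℝ ∞ f) :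
    rsob m d B f ≤ ∑ k ∈ s, rsob m d (K k) f := by
  refine rn_le_sum s (fun k (f : V4 → E) => Real.sqrt (∫ y in K k, ‖f y‖ ^ 2)) (fun f hf => ?_) hd m hf
  refine le_trans ?_ (sqrt_sum_le s (fun k => ∫ y in K k, ‖f y‖ ^ 2) fun k _ => integral_nonneg fun y => by positivity)
  apply Real.sqrt_le_sqrt
  have hbU : Bornology.IsBounded (⋃ k ∈ s, K k) :=
    (Bornology.isBounded_biUnion_finset s).2 hK
  have h1 : ∫ y in B, ‖f y‖ ^ 2 ≤ ∫ y in (⋃ k ∈ s, K k), ‖f y‖ ^ 2 :=
    setIntegral_mono_set (integrable_sq hf hbU) (by filter_upwards with y; positivity)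
      (HasSubset.Subset.eventuallyLE hB)
  refine h1.trans ?_
  have hmU : MeasurableSet (⋃ k ∈ s, K k) := Finset.measurableSet_biUnion s hmK
  rw [← integral_indicator hmU]
  have h2 : ∀ k ∈ s, ∫ y in K k, ‖f y‖ ^ 2 = ∫ y, (K k).indicator (fun y => ‖f y‖ ^ 2) y := fun k hk =>
    (integral_indicator (hmK k hk)).symm
  rw [Finset.sum_congr rfl h2, ← integral_finsetSum _ fun k hk =>
    (integrable_indicator_iff (hmK k hk)).2 (integrable_sq hf (hK k hk))]
  apply integral_mono
  · exact (integrable_indicator_iff hmU).2 (integrable_sq hf hbU)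
  · exact integrable_finsetSum _ fun k hk =>
      (integrable_indicator_iff (hmK k hk)).2 (integrable_sq hf (hK k hk))
  · intro y
    have h0 : ∀ k ∈ s, 0 ≤ (K k).indicator (fun y => ‖f y‖ ^ 2) y := fun k _ =>
      indicator_nonneg (fun y _ => by positivity) y
    by_cases hy : y ∈ ⋃ k ∈ s, K k
    · obtain ⟨k, hk, hy'⟩ := mem_iUnion₂.1 hy
      simp only [indicator_of_mem hy]
      have h3 := Finset.single_le_sum (f := fun k => (K k).indicator (fun y => ‖f y‖ ^ 2) y) h0 hk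
      simp only [indicator_of_mem hy'] at h3
      exact h3
    · simp only [indicator_of_notMem hy]
      exact Finset.sum_nonneg h0

/-- comparison with the sup norm -/
theorem rsob_le_rsupn {d : ℝ} (hd : 0 ≤ d) (m : ℕ) {B : Set V4} (hm : MeasurableSet B) (hB : Bornology.IsBounded B)
    {f : V4 → E} (hf : ContDiff ℝ ∞ f) :
    rsob m d B f ≤ Real.sqrt ((volume B).toReal) * rsupn m d B f := by
  refine rn_le (N := fun f : V4 → E => Real.sqrt (∫ y in B, ‖f y‖ ^ 2))
    (N' := fun f : V4 → E => sSup ((fun y => ‖f y‖) '' B)) (fun f hf => ?_) hd m hf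
  have hfin : volume B < ⊤ := hB.measure_lt_top
  have h1 : ∫ y in B, ‖f y‖ ^ 2 ≤ ∫ y in B, (sSup ((fun y => ‖f y‖) '' B)) ^ 2 := by
    apply integral_mono_of_nonneg
    · filter_upwards with y
      positivity
    · exact integrableOn_const (by exact hfin.ne)
    · filter_upwards [ae_restrict_mem hm] with y hy
      exact pow_le_pow_left₀ (norm_nonneg _) (le_ssup hf hB hy) 2
  refine (Real.sqrt_le_sqrt h1).trans ?_
  rw [setIntegral_const, smul_eq_mul, Real.sqrt_mul (by exact ENNReal.toReal_nonneg),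
    Real.sqrt_sq (ssup_nonneg _ _)]
  exact le_rfl

/-- change of variables, order zero -/
theorem rsob0_comp {T : V4 → V4} {B B' : Set V4} {U : Set V4} (hU : IsOpen U) (hm : MeasurableSet B) (hBU : B ⊆ U)
    (hT : ContDiffOn ℝ 1 T U) (hinj : InjOn T B) (hB' : Bornology.IsBounded B') (hTB : MapsTo T B B')
    {c : ℝ} (hc : 0 < c) (hdet : ∀ y ∈ B, c ≤ |(fderiv ℝ T y).det|) {f : V4 → E} (hf : Continuous f) :
    Real.sqrt (∫ y in B, ‖f (T y)‖ ^ 2) ≤ Real.sqrt c⁻¹ * Real.sqrt (∫ y in B', ‖f y‖ ^ 2) := by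
  rw [← Real.sqrt_mul (by positivity)]
  apply Real.sqrt_le_sqrt
  have hder : ∀ y ∈ B, HasFDerivWithinAt T (fderiv ℝ T y) B y := fun y hy =>
    ((hT.differentiableOn one_ne_zero y (hBU hy)).differentiableAt (hU.mem_nhds (hBU hy))).hasFDerivAt.hasFDerivWithinAt
  have hcv := integral_image_eq_integral_abs_det_fderiv_smul volume hm hder hinj (fun y => ‖f y‖ ^ 2)
  have hsub : T '' B ⊆ B' := hTB.image_subset
  have hint : IntegrableOn (fun y => ‖f y‖ ^ 2) (T '' B) := (integrable_sq hf hB').mono_set hsub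
  have hint2 : IntegrableOn (fun y => |(fderiv ℝ T y).det| • ‖f (T y)‖ ^ 2) B :=
    (integrableOn_image_iff_integrableOn_abs_det_fderiv_smul volume hm hder hinj (fun y => ‖f y‖ ^ 2)).1 hint
  have h1 : ∫ y in B, ‖f (T y)‖ ^ 2 ≤ c⁻¹ * ∫ y in B, |(fderiv ℝ T y).det| • ‖f (T y)‖ ^ 2 := by
    rw [← integral_const_mul]
    apply integral_mono_of_nonneg
    · filter_upwards with y
      positivity
    · exact hint2.const_mul _
    · filter_upwards [ae_restrict_mem hm] with y hy
      have h2 := hdet y hy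
      have h3 : 0 ≤ ‖f (T y)‖ ^ 2 := by positivity
      rw [smul_eq_mul, ← mul_assoc]
      have h4 : 1 ≤ c⁻¹ * |(fderiv ℝ T y).det| := by
        rw [inv_mul_eq_div, le_div_iff₀ hc, one_mul]
        exact h2
      nlinarith only [h4]
  refine h1.trans (mul_le_mul_of_nonneg_left ?_ (by positivity))
  rw [← hcv]
  exact setIntegral_mono_set (integrable_sq hf hB') (by filter_upwards with y; positivity)
    (HasSubset.Subset.eventuallyLE hsub)

end Vale.Agent.P204.GX
end

section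
set_option linter.all false
/-! Local transfer of the norms by coordinate changes, supports, completeness. -/
open MeasureTheory Set Filter Topology
open scoped ContDiff BigOperators ENNReal

namespace Vale.Agent.P204.GX
open Vale.Agent.P204.T4

variable {E F : Type*} [NormedAddCommGroup E] [NormedSpace ℝ E] [NormedAddCommGroup F] [NormedSpace ℝ F]

/-- A smooth function on an open set times a cut-off function supported there is smooth. -/
theorem contDiff_cutoff {g : V4 → E} {χ : V4 → ℝ} {U : Set V4} (hU : IsOpen U) (hχ : ContDiff ℝ ∞ χ)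
    (hs : tsupport χ ⊆ U) (hg : ContDiffOn ℝ ∞ g U) : ContDiff ℝ ∞ (fun y => χ y • g y) := by
  rw [contDiff_iff_contDiffAt]
  intro y
  by_cases hy : y ∈ tsupport χ
  · exact hχ.contDiffAt.smul (hg.contDiffAt (hU.mem_nhds (hs hy)))
  · have h1 := notMem_tsupport_iff_eventuallyEq.1 hy
    refine contDiffAt_const (c := (0 : E)) |>.congr_of_eventuallyEq ?_
    filter_upwards [h1] with z hz
    rw [hz]
    simp

/-- the cut-off used for transfer -/
noncomputable def bumpT (p : V4) {r R : ℝ} (hr : 0 < r) (hrR : r < R) : ContDiffBump p :=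
  ⟨(2 * r + R) / 3, (r + 2 * R) / 3, by linarith only [hr, hrR], by linarith only [hrR]⟩

theorem bumpT_one (p : V4) {r R : ℝ} (hr : 0 < r) (hrR : r < R) {y : V4}
    (hy : y ∈ Metric.ball p ((2 * r + R) / 3)) : bumpT p hr hrR y = 1 :=
  (bumpT p hr hrR).one_of_mem_closedBall (Metric.ball_subset_closedBall hy)

theorem bumpT_tsupport (p : V4) {r R : ℝ} (hr : 0 < r) (hrR : r < R) :
    tsupport (bumpT p hr hrR) ⊆ Metric.ball p R := by
  rw [(bumpT p hr hrR).tsupport_eq]
  exact Metric.closedBall_subset_ball (by show (r + 2 * R) / 3 < R; linarith only [hrR])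

theorem exists_det_lower {p : V4} {r R : ℝ} (hrR : r < R) {T : V4 → V4}
    (hT : ContDiffOn ℝ ∞ T (Metric.ball p R))
    (hdet : ∀ y ∈ Metric.closedBall p r, (fderiv ℝ T y).det ≠ 0) :
    ∃ c : ℝ, 0 < c ∧ ∀ y ∈ Metric.closedBall p r, c ≤ |(fderiv ℝ T y).det| := by
  have hsub : Metric.closedBall p r ⊆ Metric.ball p R := Metric.closedBall_subset_ball hrR
  have h1 : ContinuousOn (fun y => |(fderiv ℝ T y).det|) (Metric.closedBall p r) := by
    have h2 : ContinuousOn (fderiv ℝ T) (Metric.ball p R) :=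
      hT.continuousOn_fderiv_of_isOpen Metric.isOpen_ball (by simp only [WithTop.one_le_coe, le_top])
    exact (ContinuousLinearMap.continuous_det.comp_continuousOn (h2.mono hsub)).abs
  rcases (Metric.closedBall p r).eq_empty_or_nonempty with he | hne
  · exact ⟨1, one_pos, fun y hy => by rw [he] at hy; exact absurd hy (notMem_empty y)⟩
  · obtain ⟨y0, hy0, hmin⟩ := (isCompact_closedBall p r).exists_isMinOn hne h1
    exact ⟨|(fderiv ℝ T y0).det|, abs_pos.2 (hdet y0 hy0), fun y hy => hmin hy⟩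

theorem transfer_rsob {p : V4} {r R : ℝ} (hr : 0 < r) (hrR : r < R) {T : V4 → V4} {A : V4 → E →L[ℝ] F}
    (hT : ContDiffOn ℝ ∞ T (Metric.ball p R)) (hA : ContDiffOn ℝ ∞ A (Metric.ball p R))
    (hinj : InjOn T (Metric.closedBall p r))
    (hdet : ∀ y ∈ Metric.closedBall p r, (fderiv ℝ T y).det ≠ 0)
    {B' : Set V4} (hB' : Bornology.IsBounded B') (hTB : MapsTo T (Metric.closedBall p r) B') (m : ℕ) :
    ∃ C : ℝ, 0 ≤ C ∧ ∀ d : ℝ, 0 ≤ d → d ≤ 1 → ∀ (g : V4 → E) (f : V4 → F), ContDiff ℝ ∞ g →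
      (∀ y ∈ Metric.ball p R, f y = A y (g (T y))) →
      rsob m d (Metric.closedBall p r) f ≤ C * rsob m d B' g := by
  obtain ⟨c, hc, hcd⟩ := exists_det_lower hrR hT hdet
  set χ := bumpT p hr hrR with hχ
  have hmeas : MeasurableSet (Metric.closedBall p r) := Metric.isClosed_closedBall.measurableSet
  have hbd : Bornology.IsBounded (Metric.closedBall p r) := Metric.isBounded_closedBall
  have hT' : ContDiff ℝ ∞ (fun y => χ y • T y) :=
    contDiff_cutoff Metric.isOpen_ball χ.contDiff (bumpT_tsupport p hr hrR) hT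
  have hA' : ContDiff ℝ ∞ (fun y => χ y • A y) :=
    contDiff_cutoff Metric.isOpen_ball χ.contDiff (bumpT_tsupport p hr hrR) hA
  have hPU : Metric.closedBall p r ⊆ Metric.ball p ((2 * r + R) / 3) :=
    Metric.closedBall_subset_ball (by linarith only [hrR])
  have hone : ∀ y ∈ Metric.closedBall p r, χ y • T y = T y := fun y hy => by
    rw [hχ, bumpT_one p hr hrR (hPU hy), one_smul]
  obtain ⟨C, hC0, hC⟩ := rsob_comp' (E := E) hT' hmeas hbd (B' := B') (Real.sqrt_nonneg c⁻¹)
    (fun f hf => by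
      have h1 : ∫ y in Metric.closedBall p r, ‖f (χ y • T y)‖ ^ 2 =
          ∫ y in Metric.closedBall p r, ‖f (T y)‖ ^ 2 :=
        setIntegral_congr_fun hmeas fun y hy => by simp only [hone y hy]
      rw [h1]
      exact rsob0_comp Metric.isOpen_ball hmeas (Metric.closedBall_subset_ball hrR)
        (hT.of_le (by simp only [WithTop.one_le_coe, le_top])) hinj hB' hTB hc hcd hf) m
  refine ⟨rsupn m 1 (Metric.closedBall p r) (fun y => χ y • A y) * C,
    mul_nonneg (rsupn_nonneg zero_le_one m _ _) hC0, fun d hd hd1 g f hg hfg => ?_⟩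
  have h1 : rsob m d (Metric.closedBall p r) f =
      rsob m d (Metric.closedBall p r) (fun y => (χ y • A y) (g (χ y • T y))) := by
    refine rsob_congr Metric.isOpen_ball hmeas hPU d m fun y hy => ?_
    rw [hfg y (Metric.ball_subset_ball (by linarith only [hrR]) hy), hχ, bumpT_one p hr hrR hy, one_smul, one_smul]
  rw [h1, mul_assoc]
  refine (rsob_clm_apply hd hd1 m hmeas hbd hA' (hg.comp hT')).trans ?_
  exact mul_le_mul_of_nonneg_left (hC d hd hd1 g hg) (rsupn_nonneg zero_le_one m _ _)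

theorem transfer_rsupn {p : V4} {r R : ℝ} (hr : 0 < r) (hrR : r < R) {T : V4 → V4} {A : V4 → E →L[ℝ] F}
    (hT : ContDiffOn ℝ ∞ T (Metric.ball p R)) (hA : ContDiffOn ℝ ∞ A (Metric.ball p R))
    {B' : Set V4} (hB' : Bornology.IsBounded B') (hTB : MapsTo T (Metric.closedBall p r) B') (m : ℕ) :
    ∃ C : ℝ, 0 ≤ C ∧ ∀ d : ℝ, 0 ≤ d → d ≤ 1 → ∀ (g : V4 → E) (f : V4 → F), ContDiff ℝ ∞ g →
      (∀ y ∈ Metric.ball p R, f y = A y (g (T y))) →
      rsupn m d (Metric.closedBall p r) f ≤ C * rsupn m d B' g := by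
  set χ := bumpT p hr hrR with hχ
  have hbd : Bornology.IsBounded (Metric.closedBall p r) := Metric.isBounded_closedBall
  have hT' : ContDiff ℝ ∞ (fun y => χ y • T y) :=
    contDiff_cutoff Metric.isOpen_ball χ.contDiff (bumpT_tsupport p hr hrR) hT
  have hA' : ContDiff ℝ ∞ (fun y => χ y • A y) :=
    contDiff_cutoff Metric.isOpen_ball χ.contDiff (bumpT_tsupport p hr hrR) hA
  have hPU : Metric.closedBall p r ⊆ Metric.ball p ((2 * r + R) / 3) :=
    Metric.closedBall_subset_ball (by linarith only [hrR])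
  have hone : ∀ y ∈ Metric.closedBall p r, χ y • T y = T y := fun y hy => by
    rw [hχ, bumpT_one p hr hrR (hPU hy), one_smul]
  obtain ⟨C, hC0, hC⟩ := rsupn_comp (E := E) hT' hbd hB'
    (fun y hy => by
      show χ y • T y ∈ B'
      rw [hone y hy]; exact hTB hy) m
  refine ⟨rsupn m 1 (Metric.closedBall p r) (fun y => χ y • A y) * C,
    mul_nonneg (rsupn_nonneg zero_le_one m _ _) hC0, fun d hd hd1 g f hg hfg => ?_⟩
  have h1 : rsupn m d (Metric.closedBall p r) f =
      rsupn m d (Metric.closedBall p r) (fun y => (χ y • A y) (g (χ y • T y))) := by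
    refine rsupn_congr Metric.isOpen_ball hPU d m fun y hy => ?_
    rw [hfg y (Metric.ball_subset_ball (by linarith only [hrR]) hy), hχ, bumpT_one p hr hrR hy, one_smul, one_smul]
  rw [h1, mul_assoc]
  refine (rsupn_clm_apply hd hd1 m hbd hA' (hg.comp hT')).trans ?_
  exact mul_le_mul_of_nonneg_left (hC d hd hd1 g hg) (rsupn_nonneg zero_le_one m _ _)

/-! ### supports -/

theorem rn_of_zero {N : (V4 → E) → ℝ} (hN : N (fun _ => 0) = 0) (d : ℝ) (m : ℕ) :
    rn N m d (fun _ => 0) = 0 := by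
  induction m with
  | zero => exact hN
  | succ m ih => simp [rn, pv_zero, ih]

theorem rsob_zero_fun (d : ℝ) (m : ℕ) (B : Set V4) : rsob m d B (fun _ : V4 => (0 : E)) = 0 :=
  rn_of_zero (rsob0_zero B) d m

/-- a function vanishing outside a closed set `K` has all its norm on `K` -/
theorem rsob_le_of_support {d : ℝ} (hd : 0 ≤ d) (m : ℕ) {B K : Set V4} (hm : MeasurableSet B)
    (hB : Bornology.IsBounded B) (hK : IsClosed K) (hKb : Bornology.IsBounded K) {f : V4 → E}
    (hf : ContDiff ℝ ∞ f) (h0 : ∀ y ∉ K, f y = 0) : rsob m d B f ≤ rsob m d K f := by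
  have h1 := rsob_union (Finset.univ : Finset Bool) hd m (B := B) (K := fun b => if b then K else B \ K)
    (fun b _ => by cases b <;> simp only [Bool.false_eq_true, ↓reduceIte, hm.diff hK.measurableSet, hK.measurableSet])
    (fun b _ => by cases b <;> simp [hKb, hB.subset diff_subset])
    (by
      intro y hy
      by_cases hyK : y ∈ K
      · exact mem_iUnion₂.2 ⟨true, Finset.mem_univ _, by simpa using hyK⟩
      · exact mem_iUnion₂.2 ⟨false, Finset.mem_univ _, by simpa using ⟨hy, hyK⟩⟩) hf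
  rw [Fintype.sum_bool] at h1
  have h2 : rsob m d (B \ K) f = 0 := by
    rw [rsob_congr (U := Kᶜ) hK.isOpen_compl (hm.diff hK.measurableSet) (fun y hy => hy.2) d m
      (g := fun _ => 0) fun y hy => h0 y hy]
    exact rsob_zero_fun d m _
  simpa only [ge_iff_le, ↓reduceIte, Bool.false_eq_true, h2, add_zero] using h1

/-! ### completeness -/

theorem norm_fderiv_le_rsupn {m : ℕ} {B : Set V4} (hB : Bornology.IsBounded B) {f : V4 → E}
    (hf : ContDiff ℝ ∞ f) {y : V4} (hy : y ∈ B) : ‖fderiv ℝ f y‖ ≤ rsupn 1 1 B f := by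
  refine (norm_fderiv_le f y).trans ?_
  have h1 : ∀ i ∈ Finset.univ, ‖pv i f y‖ ≤ rsupn 0 1 B (pv i f) := fun i _ =>
    le_ssup (pv_smooth hf i).continuous hB hy
  refine (Finset.sum_le_sum h1).trans ?_
  rw [rsupn_succ_def, one_mul]
  exact le_add_of_nonneg_left (rsupn_nonneg zero_le_one 0 B f)

theorem rsupn_pv_le {m : ℕ} {B : Set V4} (f : V4 → E) (i : Fin 4) :
    rsupn m 1 B (pv i f) ≤ rsupn (m + 1) 1 B f := by
  rw [rsupn_succ_def, one_mul]
  have := Finset.single_le_sum (f := fun i => rsupn m 1 B (pv i f))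
    (fun i _ => rsupn_nonneg zero_le_one m B _) (Finset.mem_univ i)
  have h2 := rsupn_nonneg zero_le_one m B f
  linarith

section complete

variable [CompleteSpace E]

theorem series_deriv {f : ℕ → V4 → E} (hf : ∀ k, ContDiff ℝ ∞ (f k))
    (hs : ∀ (m : ℕ) (R : ℝ), Summable fun k => rsupn m 1 (Metric.ball 0 R) (f k)) :
    (∀ y, Summable fun k => f k y) ∧ (∀ y, HasFDerivAt (fun y => ∑' k, f k y) (∑' k, fderiv ℝ (f k) y) y) ∧
    (∀ y, Summable fun k => fderiv ℝ (f k) y) := by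
  have hsum : ∀ y, Summable fun k => f k y := by
    intro y
    have hy : y ∈ Metric.ball (0 : V4) (‖y‖ + 1) := by simp only [Metric.mem_ball, dist_zero_right, lt_add_iff_pos_right, zero_lt_one]
    refine Summable.of_norm_bounded (hs 0 (‖y‖ + 1)) fun k => ?_
    exact le_ssup (hf k).continuous Metric.isBounded_ball hy
  have hsum' : ∀ y, Summable fun k => fderiv ℝ (f k) y := by
    intro y
    have hy : y ∈ Metric.ball (0 : V4) (‖y‖ + 1) := by simp only [Metric.mem_ball, dist_zero_right, lt_add_iff_pos_right, zero_lt_one]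
    refine Summable.of_norm_bounded (hs 1 (‖y‖ + 1)) fun k => ?_
    exact norm_fderiv_le_rsupn (m := 1) Metric.isBounded_ball (hf k) hy
  refine ⟨hsum, fun y => ?_, hsum'⟩
  have hy : y ∈ Metric.ball (0 : V4) (‖y‖ + 1) := by simp
  exact hasFDerivAt_tsum_of_isPreconnected (hs 1 (‖y‖ + 1)) Metric.isOpen_ball
    (convex_ball (0 : V4) (‖y‖ + 1)).isPreconnected
    (fun k x _ => ((hf k).differentiable (by simp) x).hasFDerivAt)
    (fun k x hx => norm_fderiv_le_rsupn (m := 1) Metric.isBounded_ball (hf k) hx) hy (hsum y) hy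

theorem series_pv {f : ℕ → V4 → E} (hf : ∀ k, ContDiff ℝ ∞ (f k))
    (hs : ∀ (m : ℕ) (R : ℝ), Summable fun k => rsupn m 1 (Metric.ball 0 R) (f k)) (i : Fin 4) :
    pv i (fun y => ∑' k, f k y) = fun y => ∑' k, pv i (f k) y := by
  obtain ⟨h1, h2, h3⟩ := series_deriv hf hs
  funext y
  simp only [pv]
  rw [(h2 y).fderiv]
  exact ((ContinuousLinearMap.apply ℝ E (Pi.single i 1 : V4)).map_tsum (h3 y))

theorem summable_pv {f : ℕ → V4 → E}
    (hs : ∀ (m : ℕ) (R : ℝ), Summable fun k => rsupn m 1 (Metric.ball 0 R) (f k)) (i : Fin 4) :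
    ∀ (m : ℕ) (R : ℝ), Summable fun k => rsupn m 1 (Metric.ball 0 R) (pv i (f k)) := fun m R =>
  Summable.of_nonneg_of_le (fun k => rsupn_nonneg zero_le_one m _ _) (fun k => rsupn_pv_le (f k) i) (hs (m + 1) R)

theorem series_contDiff_nat (n : ℕ) {f : ℕ → V4 → E} (hf : ∀ k, ContDiff ℝ ∞ (f k))
    (hs : ∀ (m : ℕ) (R : ℝ), Summable fun k => rsupn m 1 (Metric.ball 0 R) (f k)) :
    ContDiff ℝ n (fun y => ∑' k, f k y) := by
  induction n generalizing f with
  | zero =>
    have h : Differentiable ℝ (fun y => ∑' k, f k y) := fun y => ((series_deriv hf hs).2.1 y).differentiableAt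
    exact contDiff_zero.2 h.continuous
  | succ n ih =>
    have h : Differentiable ℝ (fun y => ∑' k, f k y) := fun y => ((series_deriv hf hs).2.1 y).differentiableAt
    have hcast : ((n + 1 : ℕ) : WithTop ℕ∞) = (n : WithTop ℕ∞) + 1 := by norm_cast
    rw [hcast, contDiff_succ_iff_fderiv]
    refine ⟨h, fun h0 => absurd h0 (by simp), ?_⟩
    have h2 : fderiv ℝ (fun y => ∑' k, f k y) = fun y => ∑ i : Fin 4,
        (ContinuousLinearMap.proj (R := ℝ) (φ := fun _ : Fin 4 => ℝ) i).smulRight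
          (∑' k, pv i (f k) y) := by
      funext y
      ext v
      rw [fderiv_eq_sum_pv]
      simp only [series_pv hf hs, ContinuousLinearMap.sum_apply, ContinuousLinearMap.smulRight_apply,
        ContinuousLinearMap.proj_apply]
    rw [h2]
    refine ContDiff.sum fun i _ => ?_
    exact (ContinuousLinearMap.smulRightL ℝ V4 E
      (ContinuousLinearMap.proj (R := ℝ) (φ := fun _ : Fin 4 => ℝ) i)).contDiff.comp
      (ih (fun k => pv_smooth (hf k) i) (summable_pv hs i))

theorem series_contDiff {f : ℕ → V4 → E} (hf : ∀ k, ContDiff ℝ ∞ (f k))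
    (hs : ∀ (m : ℕ) (R : ℝ), Summable fun k => rsupn m 1 (Metric.ball 0 R) (f k)) :
    ContDiff ℝ ∞ (fun y => ∑' k, f k y) :=
  contDiff_infty.2 fun n => series_contDiff_nat n hf hs

theorem series_rsupn (m : ℕ) (R : ℝ) {f : ℕ → V4 → E} (hf : ∀ k, ContDiff ℝ ∞ (f k))
    (hs : ∀ (m : ℕ) (R : ℝ), Summable fun k => rsupn m 1 (Metric.ball 0 R) (f k)) :
    rsupn m 1 (Metric.ball 0 R) (fun y => ∑' k, f k y) ≤ ∑' k, rsupn m 1 (Metric.ball 0 R) (f k) := by
  induction m generalizing f with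
  | zero =>
    refine ssup_le (tsum_nonneg fun k => rsupn_nonneg zero_le_one 0 _ _) fun y hy => ?_
    have h1 : ∀ k, ‖f k y‖ ≤ rsupn 0 1 (Metric.ball 0 R) (f k) := fun k =>
      le_ssup (hf k).continuous Metric.isBounded_ball hy
    have h2 : Summable fun k => ‖f k y‖ :=
      Summable.of_nonneg_of_le (fun k => norm_nonneg _) h1 (hs 0 R)
    exact (norm_tsum_le_tsum_norm h2).trans (h2.tsum_le_tsum h1 (hs 0 R))
  | succ m ih =>
    rw [rsupn_succ_def, one_mul]
    have h1 := ih hf hs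
    have h2 : ∀ i ∈ Finset.univ, rsupn m 1 (Metric.ball 0 R) (pv i (fun y => ∑' k, f k y)) ≤
        ∑' k, rsupn m 1 (Metric.ball 0 R) (pv i (f k)) := by
      intro i _
      rw [series_pv hf hs]
      exact ih (fun k => pv_smooth (hf k) i) (summable_pv hs i)
    have h3 : ∑' k, rsupn (m + 1) 1 (Metric.ball 0 R) (f k) =
        ∑' k, rsupn m 1 (Metric.ball 0 R) (f k) + ∑ i, ∑' k, rsupn m 1 (Metric.ball 0 R) (pv i (f k)) := by
      simp only [rsupn_succ_def, one_mul]
      rw [Summable.tsum_add (hs m R) (summable_sum fun i _ => summable_pv hs i m R),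
        Summable.tsum_finsetSum fun i _ => summable_pv hs i m R]
    rw [h3]
    exact add_le_add h1 (Finset.sum_le_sum h2)

theorem series_tail (m : ℕ) (R : ℝ) {f : ℕ → V4 → E} (hf : ∀ k, ContDiff ℝ ∞ (f k))
    (hs : ∀ (m : ℕ) (R : ℝ), Summable fun k => rsupn m 1 (Metric.ball 0 R) (f k)) :
    Tendsto (fun n => rsupn m 1 (Metric.ball 0 R) (fun y => ∑' k, f k y - ∑ k ∈ Finset.range n, f k y))
      atTop (𝓝 0) := by
  have h1 : ∀ n, (fun y => ∑' k, f k y - ∑ k ∈ Finset.range n, f k y) = fun y => ∑' k, f (k + n) y := by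
    intro n
    funext y
    rw [← ((series_deriv hf hs).1 y).sum_add_tsum_nat_add n]
    simp only [add_sub_cancel_left]
  have h2 : ∀ n, rsupn m 1 (Metric.ball 0 R) (fun y => ∑' k, f k y - ∑ k ∈ Finset.range n, f k y) ≤
      ∑' k, rsupn m 1 (Metric.ball 0 R) (f (k + n)) := by
    intro n
    rw [h1]
    exact series_rsupn m R (fun k => hf (k + n)) fun m R => (summable_nat_add_iff n).2 (hs m R)
  refine squeeze_zero (fun n => rsupn_nonneg zero_le_one m _ _) h2 ?_
  exact tendsto_sum_nat_add fun k => rsupn m 1 (Metric.ball 0 R) (f k)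

end complete

end Vale.Agent.P204.GX
end

section

/-!
Measurability and boundedness of smooth forms, invariance of the pairing under `U z`.
-/

open scoped BigOperators ContDiff Topology
open MeasureTheory Set

namespace Vale.Agent.P204.GX
open T4

/-! ### Change of variables on `V4` for a diffeomorphism with compact support -/

theorem Dfo.det_ne {f g : V4 → V4} (h : Dfo f g) (y : V4) : det4 (Dm f y) ≠ 0 := by
  have h1 : mm (Dm g (f y)) (Dm f y) = oneM := by
    rw [← Dm_comp (h.sg.differentiable (by simp) _) (h.sf.differentiable (by simp) _)]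
    have : (fun x => g (f x)) = fun x => x := funext h.gf
    rw [this, Dm_id]
  have h2 := det4_mm (Dm g (f y)) (Dm f y)
  rw [h1, det4_one] at h2
  intro h0
  rw [h0, mul_zero] at h2
  exact one_ne_zero h2

theorem Dfo.det_pos {f g : V4 → V4} (h : Dfo f g) (y : V4) : 0 < det4 (Dm f y) := by
  have hcont : Continuous fun y => det4 (Dm f y) :=
    contDiff_det4.continuous.comp (contDiff_Dm h.sf).continuous
  set p : V4 := fun _ => 6 with hp
  have hpn : 5 < ‖p‖ := by
    have h1 : ‖p 0‖ ≤ ‖p‖ := norm_le_pi_norm p 0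
    have h2 : ‖p 0‖ = 6 := by simp [hp]
    linarith only [h1, h2]
  have h1 : det4 (Dm f p) = 1 := by rw [Dm_id_far h.idf hpn, det4_one]
  by_contra hneg
  push Not at hneg
  have hlt : det4 (Dm f y) < 0 := lt_of_le_of_ne hneg (h.det_ne y)
  have hmem : (0 : ℝ) ∈ Set.Icc (det4 (Dm f y)) (det4 (Dm f p)) := ⟨hlt.le, by rw [h1]; norm_num⟩
  have hconn : IsPreconnected (univ : Set V4) := isPreconnected_univ
  obtain ⟨w, -, hw⟩ := hconn.intermediate_value (mem_univ y) (mem_univ p)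
    hcont.continuousOn hmem
  exact h.det_ne w hw

theorem Dfo.image_ball {f g : V4 → V4} (h : Dfo f g) :
    f '' Metric.ball 0 6 = Metric.ball 0 6 := by
  have key : ∀ {f g : V4 → V4}, Dfo f g → ∀ y, ‖y‖ < 6 → ‖f y‖ < 6 := by
    intro f g h y hy
    by_contra hge
    push Not at hge
    have h1 := h.idg (f y) (by linarith only [hge])
    rw [h.gf] at h1
    rw [← h1] at hge
    linarith
  ext y
  simp only [mem_image, Metric.mem_ball, dist_zero_right]
  constructor
  · rintro ⟨w, hw, rfl⟩; exact key h w hw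
  · intro hy; exact ⟨g y, key h.symm y hy, h.fg y⟩

theorem Dfo.int_sub {f g : V4 → V4} (h : Dfo f g) {q : V4 → ℝ} (hq : Continuous q) :
    ∫ y, (det4 (Dm f y) * q (f y) - q y) = 0 := by
  have hdet : Continuous fun y => det4 (Dm f y) :=
    contDiff_det4.continuous.comp (contDiff_Dm h.sf).continuous
  have hz : ∀ y ∉ Metric.ball (0 : V4) 6, det4 (Dm f y) * q (f y) - q y = 0 := by
    intro y hy
    simp only [Metric.mem_ball, dist_zero_right, not_lt] at hy
    rw [Dm_id_far h.idf (by linarith only [hy]), det4_one, one_mul, h.idf y (by linarith), sub_self]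
  rw [← setIntegral_eq_integral_of_forall_compl_eq_zero hz]
  have hi1 : IntegrableOn (fun y => det4 (Dm f y) * q (f y)) (Metric.ball (0 : V4) 6) :=
    ((hdet.mul (hq.comp h.sf.continuous)).continuousOn.integrableOn_compact
      (isCompact_closedBall (0 : V4) 6)).mono_set Metric.ball_subset_closedBall
  have hi2 : IntegrableOn q (Metric.ball (0 : V4) 6) :=
    (hq.continuousOn.integrableOn_compact
      (isCompact_closedBall (0 : V4) 6)).mono_set Metric.ball_subset_closedBall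
  rw [integral_sub hi1 hi2, sub_eq_zero]
  have hinj : InjOn f (Metric.ball (0 : V4) 6) := fun y _ y' _ hyy => by
    rw [← h.gf y, hyy, h.gf]
  have h1 := integral_image_eq_integral_abs_det_fderiv_smul volume
    (Metric.isOpen_ball.measurableSet : MeasurableSet (Metric.ball (0 : V4) 6))
    (fun y _ => ((h.sf.differentiable (by simp only [ne_eq, WithTop.coe_eq_zero, ENat.top_ne_zero, not_false_eq_true]) y).hasFDerivAt).hasFDerivWithinAt) hinj q
  rw [h.image_ball] at h1
  rw [h1]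
  refine setIntegral_congr_fun Metric.isOpen_ball.measurableSet fun y _ => ?_
  show _ = |(fderiv ℝ f y).det| • q (f y)
  rw [det_fderiv_eq (h.sf.differentiable (by simp) y), abs_of_pos (h.det_pos y), smul_eq_mul]

namespace CM
variable {X : Type} [MetricSpace X] (M : CM X)

/-! ### Measurability and bounds -/

theorem ext_eq_extend (a : M.A) (γ : V4 → L2) :
    M.ext a γ = Function.extend (M.ψ a) (fun y => pull (M.m' a y) (γ y)) 0 := by
  funext x
  by_cases h : x ∈ range (M.ψ a)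
  · obtain ⟨y, rfl⟩ := h
    rw [M.ext_ψ_self, (M.ψ_inj a).extend_apply]
  · rw [M.ext_of_notMem a γ h, Function.extend_apply' _ _ _ (fun ⟨y, hy⟩ => h ⟨y, hy⟩)]
    rfl

section meas
variable [MeasurableSpace X] [BorelSpace X]

theorem measurable_ext (a : M.A) {γ : V4 → L2} (h : Measurable γ) : Measurable (M.ext a γ) := by
  rw [ext_eq_extend]
  refine (M.measurableEmbedding_ψ a).measurable_extend ?_ measurable_const
  exact Measurable.comp (g := fun p : M4 × L2 => pull p.1 p.2) (f := fun y => (M.m' a y, γ y))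
    continuous_pull.measurable ((M.m'_meas a).prodMk h)

theorem measurable_of_C0 {u : X → L2} (hu : ∀ a, Continuous (M.cf a u)) : Measurable u := by
  have he : u = fun x => ∑ a, M.ext a (M.cut u a) x := by
    conv_lhs => rw [← M.sum_ext_cut u]
    funext x; exact Finset.sum_apply _ _ _
  rw [he]
  refine Finset.measurable_sum _ fun a _ => M.measurable_ext a ?_
  exact ((M.contDiff_zl a).continuous.smul (hu a)).measurable

theorem measurable_of_Om {u : X → L2} (hu : u ∈ M.Om) : Measurable u :=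
  M.measurable_of_C0 fun a => (hu a).continuous

end meas

theorem bounded_of_C0 {u : X → L2} (hu : ∀ a, Continuous (M.cf a u)) :
    ∃ C, 0 ≤ C ∧ ∀ x, ‖u x‖ ≤ C := by
  have h1 : ∀ a : M.A, ∃ C, 0 ≤ C ∧ ∀ y : V4, ‖y‖ ≤ 1 → ‖u (M.ψ a y)‖ ≤ C := by
    intro a
    obtain ⟨C, hC1, hC⟩ := M.exists_cf_bound a 1
    obtain ⟨B, hB⟩ := (isCompact_closedBall (0 : V4) 1).exists_bound_of_continuousOn
      (hu a).continuousOn
    refine ⟨C * max B 0, by positivity, fun y hy => ?_⟩
    refine ((hC y hy u).2).trans ?_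
    gcongr
    exact (hB y (by rw [mem_closedBall_zero_iff]; exact hy)).trans (le_max_left _ _)
  choose f hf hf' using h1
  refine ⟨∑ a, f a, Finset.sum_nonneg fun a _ => hf a, fun x => ?_⟩
  have h2 := hf' (M.ch x) (M.cy x) (M.norm_cy x).le
  rw [M.ψ_cy] at h2
  exact h2.trans (Finset.single_le_sum (fun a _ => hf a) (Finset.mem_univ _))

section meas
variable [MeasurableSpace X] [BorelSpace X]

theorem integrable_Q {u w : X → L2} (hu : ∀ a, Continuous (M.cf a u))
    (hw : ∀ a, Continuous (M.cf a w)) : Integrable (fun x => Q (u x) (w x)) M.mu := by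
  obtain ⟨C, hC0, hC⟩ := M.bounded_of_C0 hu
  obtain ⟨C', hC0', hC'⟩ := M.bounded_of_C0 hw
  refine Integrable.of_bound (C := 6 * C * C') ?_ (Filter.Eventually.of_forall fun x => ?_)
  · exact (continuous_Q.measurable.comp
      ((M.measurable_of_C0 hu).prodMk (M.measurable_of_C0 hw))).aestronglyMeasurable
  · rw [Real.norm_eq_abs]
    refine (abs_Q_le _ _).trans ?_
    have := hC x
    have := hC' x
    gcongr

/-- The wedge pairing. -/
noncomputable def pr (u w : X → L2) : ℝ := ∫ x, Q (u x) (w x) ∂M.mu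

theorem pr_Mo (c : M.A) {f g : V4 → V4} (h : Dfo f g) {u w : X → L2} (hu : u ∈ M.Om)
    (hw : w ∈ M.Om) : M.pr (M.Mo c f u) (M.Mo c f w) = M.pr u w := by
  have hu' := M.Mo_mem_Om c h.sf h.idf hu
  have hw' := M.Mo_mem_Om c h.sf h.idf hw
  unfold pr
  rw [← sub_eq_zero, ← integral_sub (M.integrable_Q (fun a => (hu' a).continuous)
    fun a => (hw' a).continuous) (M.integrable_Q (fun a => (hu a).continuous)
    fun a => (hw a).continuous)]
  rw [M.integral_chart c]
  · rw [← h.int_sub (q := fun y => Q (M.cf c u y) (M.cf c w y))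
      (continuous_Q.comp ((hu c).continuous.prodMk (hw c).continuous))]
    refine integral_congr_ae (Filter.Eventually.of_forall fun y => ?_)
    show (Q (M.Mo c f u (M.ψ c y)) (M.Mo c f w (M.ψ c y)) - Q (u (M.ψ c y)) (w (M.ψ c y)))
      * det4 (M.m c y) = det4 (Dm f y) * Q (M.cf c u (f y)) (M.cf c w (f y))
        - Q (M.cf c u y) (M.cf c w y)
    have h1 : Q (M.cf c u y) (M.cf c w y) = det4 (M.m c y) * Q (u (M.ψ c y)) (w (M.ψ c y)) :=
      Q_pull _ _ _
    have h2 : det4 (Dm f y) * Q (M.cf c u (f y)) (M.cf c w (f y))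
        = det4 (M.m c y) * Q (M.Mo c f u (M.ψ c y)) (M.Mo c f w (M.ψ c y)) := by
      rw [← Q_pull, ← Q_pull]
      have e1 : pull (Dm f y) (M.cf c u (f y)) = pull (M.m c y) (M.Mo c f u (M.ψ c y)) := by
        have := congrFun (M.cf_Mo_self c f u) y
        exact this.symm
      have e2 : pull (Dm f y) (M.cf c w (f y)) = pull (M.m c y) (M.Mo c f w (M.ψ c y)) := by
        have := congrFun (M.cf_Mo_self c f w) y
        exact this.symm
      rw [e1, e2]
    rw [h1, h2]; ring
  · intro x hx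
    have e1 : ∀ u : X → L2, M.Mo c f u x = u x := by
      intro u
      show u x + M.ext c _ x = u x
      rw [M.ext_of_notMem c _ hx, add_zero]
    rw [e1, e1, sub_self]

theorem pr_UL (L : List M.A) {z : M.A → V4} (hz' : ‖z‖ < vinv) {u w : X → L2}
    (hu : u ∈ M.Om) (hw : w ∈ M.Om) : M.pr (M.UL L z u) (M.UL L z w) = M.pr u w := by
  induction L with
  | nil => rfl
  | cons c L ih =>
    obtain ⟨g, hg⟩ := exists_inv (v := z c) ((norm_le_pi_norm z c).trans_lt hz')
    show M.pr (M.Mo c (hz (z c)) (M.UL L z u)) (M.Mo c (hz (z c)) (M.UL L z w)) = _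
    rw [M.pr_Mo c hg (M.UL_mem_Om L z hu) (M.UL_mem_Om L z hw), ih]

theorem pr_U {z : M.A → V4} (hz' : ‖z‖ < vinv) {u w : X → L2}
    (hu : u ∈ M.Om) (hw : w ∈ M.Om) : M.pr (M.U z u) (M.U z w) = M.pr u w :=
  M.pr_UL M.AL hz' hu hw

/-- The pairing as a sum over charts. -/
theorem pr_eq_sum {u w : X → L2} (hu : ∀ a, Continuous (M.cf a u))
    (hw : ∀ a, Continuous (M.cf a w)) :
    M.pr u w = ∑ a, ∫ y, Q (M.cut u a y) (M.cf a w y) := by
  unfold pr
  have h1 : ∀ x, Q (u x) (w x) = ∑ a, Q (M.ext a (M.cut u a) x) (w x) := by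
    intro x
    have : ∀ a : M.A, Q (M.ext a (M.cut u a) x) (w x) = M.zeta a x * Q (u x) (w x) := by
      intro a; rw [M.ext_cut, Q_smul_left]
    simp only [this]
    rw [← Finset.sum_mul, M.sum_zeta, one_mul]
  simp only [h1]
  rw [integral_finsetSum]
  · exact Finset.sum_congr rfl fun a _ => M.integral_ext a _ _
  · intro a _
    have : (fun x => Q (M.ext a (M.cut u a) x) (w x)) = fun x => M.zeta a x * Q (u x) (w x) := by
      funext x; rw [M.ext_cut, Q_smul_left]
    rw [this]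
    refine (M.integrable_Q hu hw).bdd_mul (c := 1) ?_ (Filter.Eventually.of_forall fun x => ?_)
    · have hmz : Measurable (M.zeta a) := by
        have hc : Continuous (M.zeta a) := by
          rw [continuous_iff_continuousAt]
          intro x
          have h2 := (M.sm0_zeta a (M.ch x)).continuous.continuousAt (x := M.cy x)
          have h3 := (M.ψo (M.ch x)).continuousAt_iff (g := M.zeta a) (x := M.cy x)
          rw [M.ψ_cy] at h3
          exact h3.1 h2
        exact hc.measurable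
      exact hmz.aestronglyMeasurable
    · rw [Real.norm_eq_abs, abs_of_nonneg (M.zeta_nonneg a x)]
      exact M.zeta_le_one a x

end meas

end CM
end Vale.Agent.P204.GX
end

section
/-!
Local kernel calculus on `V4`: definitions.

`Z` = parameter space, `H z : V4 → V4` a smooth family of maps (globally smooth after a cut-off),
`G δ z y : L2 →L[ℝ] L2` an amplitude supported in `‖z‖ ≤ 1`, and
`TT G H δ b y = ∫ z, G δ z y (b (H (δ • z) y))`.
-/
open MeasureTheory Set Metric
open scoped ContDiff ENNReal NNReal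

namespace Vale.Agent.P204.GX
open Vale.Agent.P204.T4

/-- partial derivative of a vector valued function -/
noncomputable def pdv {E : Type} [NormedAddCommGroup E] [NormedSpace ℝ E] (i : Fin 4)
    (f : V4 → E) (y : V4) : E := fderiv ℝ f y (Pi.single i 1)

/-- scaled Sobolev norms on the set `K` -/
noncomputable def sob {E : Type} [NormedAddCommGroup E] [NormedSpace ℝ E] :
    ℕ → ℝ → Set V4 → (V4 → E) → ℝ≥0∞
  | 0, _, K, f => eLpNorm f 2 (volume.restrict K)
  | m + 1, δ, K, f => sob m δ K f + ENNReal.ofReal δ * ∑ i : Fin 4, sob m δ K (pdv i f)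

/-- `C^m` norms on the set `K` -/
noncomputable def supn {E : Type} [NormedAddCommGroup E] [NormedSpace ℝ E] :
    ℕ → Set V4 → (V4 → E) → ℝ≥0∞
  | 0, K, f => ⨆ y ∈ K, ‖f y‖ₑ
  | m + 1, K, f => supn m K f + ∑ i : Fin 4, supn m K (pdv i f)

section
variable {Z : Type} [NormedAddCommGroup Z] [NormedSpace ℝ Z] [FiniteDimensional ℝ Z]
  [MeasureSpace Z] [BorelSpace Z] [(volume : Measure Z).IsAddHaarMeasure]

/-- A smooth family of maps, injective with nondegenerate derivative on `K` for small parameters,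
mapping `K` into `K'`. -/
structure Fam (H : Z → V4 → V4) (δ0 : ℝ) (K K' : Set V4) : Prop where
  smooth : ContDiff ℝ ∞ (Function.uncurry H)
  maps : ∀ z, ‖z‖ ≤ δ0 → MapsTo (H z) K K'
  inj : ∀ z, ‖z‖ ≤ δ0 → InjOn (H z) K
  det : ∀ z, ‖z‖ ≤ δ0 → ∀ y ∈ K, 1 / 2 ≤ |(fderiv ℝ (H z) y).det|

/-- Amplitudes: smooth in `(δ, z, y)`, supported in `‖z‖ ≤ 1`. -/
structure Amp (G : ℝ → Z → V4 → (L2 →L[ℝ] L2)) : Prop where
  smooth : ContDiff ℝ ∞ (fun p : ℝ × Z × V4 => G p.1 p.2.1 p.2.2)
  supp : ∀ δ z y, 1 < ‖z‖ → G δ z y = 0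

/-- The averaging operators. -/
noncomputable def TT (G : ℝ → Z → V4 → (L2 →L[ℝ] L2)) (H : Z → V4 → V4) (δ : ℝ) (b : V4 → L2)
    (y : V4) : L2 := ∫ z, G δ z y (b (H (δ • z) y))

/-- The submersion property: `D_y H = (D_z H) e Θ` for small parameters on `K`. -/
structure Sub (H : Z → V4 → V4) (e : V4 →L[ℝ] Z) (Θ : Z → V4 → (V4 →L[ℝ] V4)) (δ0 : ℝ)
    (K : Set V4) : Prop where
  smooth : ContDiff ℝ ∞ (Function.uncurry Θ)
  eq : ∀ z, ‖z‖ ≤ δ0 → ∀ y ∈ K, ∀ v,
    fderiv ℝ (Function.uncurry H) (z, y) (e (Θ z y v), 0) =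
      fderiv ℝ (Function.uncurry H) (z, y) (0, v)

/-- The cut-off kernel, normalised. -/
structure Bump (ρ : Z → ℝ) : Prop where
  smooth : ContDiff ℝ ∞ ρ
  supp : ∀ z, 1 < ‖z‖ → ρ z = 0
  nonneg : ∀ z, 0 ≤ ρ z
  int : ∫ z, ρ z = 1

end
end Vale.Agent.P204.GX
end

section

/-!
The averaging operators `S0 δ b x = ∫ ρ(z) U (δ z) b x dz`.
-/

open scoped BigOperators ContDiff Topology
open MeasureTheory Set

namespace Vale.Agent.P204.GX
open T4

/-- `pull P` as a continuous linear map -/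
noncomputable def pullL (P : M4) : L2 →L[ℝ] L2 :=
  LinearMap.toContinuousLinearMap
    { toFun := fun A => pull P A
      map_add' := fun A B => pull_add P A B
      map_smul' := fun c A => pull_smul P c A }

theorem pullL_apply (P : M4) (A : L2) : pullL P A = pull P A := rfl

/-- `copp · P` as a continuous linear map -/
noncomputable def coppL (P : M4) : V4 →L[ℝ] V4 :=
  LinearMap.toContinuousLinearMap
    { toFun := fun A => copp A P
      map_add' := fun A B => copp_add A B P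
      map_smul' := fun c A => copp_smul c A P }

theorem contDiff_pullL : ContDiff ℝ ∞ pullL := by
  rw [contDiff_clm_apply_iff]
  intro A
  exact ContDiff.comp (g := fun p : M4 × L2 => pull p.1 p.2) (f := fun P : M4 => (P, A))
    contDiff_pull (contDiff_id.prodMk contDiff_const)

theorem pullL_one : pullL oneM = ContinuousLinearMap.id ℝ L2 := by
  ext A i; rw [pullL_apply, pull_one]; rfl

theorem cont_pull {S : Type} [TopologicalSpace S] {f : S → M4} {g : S → L2} (hf : Continuous f)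
    (hg : Continuous g) : Continuous fun z => pull (f z) (g z) :=
  Continuous.comp (g := fun p : M4 × L2 => pull p.1 p.2) (f := fun z => (f z, g z))
    continuous_pull (hf.prodMk hg)

theorem cont_copp {S : Type} [TopologicalSpace S] {f : S → M4} {g : S → V4} (hf : Continuous f)
    (hg : Continuous g) : Continuous fun z => copp (g z) (f z) :=
  Continuous.comp (g := fun p : V4 × M4 => copp p.1 p.2) (f := fun z => (g z, f z))
    contDiff_copp.continuous (hg.prodMk hf)

/-- joint smoothness of the Jacobian of a family -/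
theorem contDiff_Dm_family {Z : Type} [NormedAddCommGroup Z] [NormedSpace ℝ Z]
    {H : Z → V4 → V4} (hH : ContDiff ℝ ∞ (Function.uncurry H)) :
    ContDiff ℝ ∞ (fun p : Z × V4 => Dm (H p.1) p.2) := by
  rw [contDiff_pi]; intro i
  rw [contDiff_pi]; intro j
  have h1 : ContDiff ℝ ∞ (Function.uncurry fun (z : Z) (y : V4) => H z y i) := by
    have := (contDiff_pi.1 hH) i
    exact this
  have h2 : ContDiff ℝ ∞ fun p : Z × V4 => fderiv ℝ (fun y => H p.1 y i) p.2 := by
    refine ContDiff.fderiv (f := fun (p : Z × V4) (y : V4) => H p.1 y i)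
      (g := fun p : Z × V4 => p.2) (n := ∞) (m := ∞) ?_ contDiff_snd (by norm_num)
    exact h1.comp ((contDiff_fst.comp contDiff_fst).prodMk contDiff_snd)
  exact h2.clm_apply contDiff_const

namespace CM
variable {X : Type} [MetricSpace X] (M : CM X)

/-- the averaging bump on the parameter space -/
noncomputable def rb : ContDiffBump (0 : M.A → V4) := ⟨1 / 2, 1, by norm_num1, by norm_num⟩

/-- normalised -/
noncomputable def rr : (M.A → V4) → ℝ := M.rb.normed volume

theorem bump_rr : Bump M.rr where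
  smooth := M.rb.contDiff_normed
  supp := fun z hz => by
    have h : z ∉ Function.support M.rr := by
      unfold rr
      rw [M.rb.support_normed_eq]
      simp only [Metric.mem_ball, dist_zero_right, not_lt]
      exact hz.le
    exact Function.notMem_support.1 h
  nonneg := fun z => M.rb.nonneg_normed z
  int := M.rb.integral_normed

theorem rr_zero {z : M.A → V4} (hz : z ∉ Metric.closedBall (0 : M.A → V4) 1) : M.rr z = 0 := by
  apply M.bump_rr.supp
  simpa only [Metric.mem_closedBall, dist_zero_right, not_le] using hz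

theorem integral_rr {E : Type} [NormedAddCommGroup E] [NormedSpace ℝ E] (f : (M.A → V4) → E) :
    ∫ z, M.rr z • f z = ∫ z in Metric.closedBall (0 : M.A → V4) 1, M.rr z • f z := by
  rw [setIntegral_eq_integral_of_forall_compl_eq_zero]
  intro z hz
  rw [M.rr_zero hz, zero_smul]

theorem integral_rr_congr {E : Type} [NormedAddCommGroup E] [NormedSpace ℝ E]
    {f g : (M.A → V4) → E} (h : ∀ z, ‖z‖ ≤ 1 → f z = g z) :
    ∫ z, M.rr z • f z = ∫ z, M.rr z • g z := by
  refine integral_congr_ae (Filter.Eventually.of_forall fun z => ?_)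
  by_cases hz : ‖z‖ ≤ 1
  · show M.rr z • f z = M.rr z • g z
    rw [h z hz]
  · show M.rr z • f z = M.rr z • g z
    rw [M.rr_zero (by simpa only [Metric.mem_closedBall, dist_zero_right, not_le] using hz), zero_smul, zero_smul]

theorem hasCompactSupport_rr : HasCompactSupport M.rr := M.rb.hasCompactSupport_normed

theorem integrable_rr_smul {E : Type} [NormedAddCommGroup E] [NormedSpace ℝ E]
    {f g : (M.A → V4) → E} (hg : Continuous g) (h : ∀ z, ‖z‖ ≤ 1 → f z = g z) :
    Integrable (fun z => M.rr z • f z) := by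
  have h1 : (fun z => M.rr z • f z) = fun z => M.rr z • g z := by
    funext z
    by_cases hz : ‖z‖ ≤ 1
    · rw [h z hz]
    · rw [M.rr_zero (by simpa only [Metric.mem_closedBall, dist_zero_right, not_le] using hz), zero_smul, zero_smul]
  rw [h1]
  exact (M.bump_rr.smooth.continuous.smul hg).integrable_of_hasCompactSupport
    M.hasCompactSupport_rr.smul_right

/-- The chart reading of `U (δ z) b`. -/
noncomputable def ker (a : M.A) (b : X → L2) (w : M.A → V4) (y : V4) : L2 :=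
  pull (Dm (M.HH a w) y) (M.cf a b (M.HH a w y))

noncomputable def ker1 (a : M.A) (b : X → V4) (w : M.A → V4) (y : V4) : V4 :=
  copp (M.cf1 a b (M.HH a w y)) (Dm (M.HH a w) y)

theorem contDiff_DHH (a : M.A) : ContDiff ℝ ∞ fun p : (M.A → V4) × V4 => Dm (M.HH a p.1) p.2 :=
  contDiff_Dm_family (M.contDiff_HH a)

theorem contDiff_ker (a : M.A) {b : X → L2} (hb : b ∈ M.Om) :
    ContDiff ℝ ∞ (Function.uncurry (M.ker a b)) := by
  have h1 : ContDiff ℝ ∞ fun p : (M.A → V4) × V4 => M.cf a b (M.HH a p.1 p.2) :=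
    (hb a).comp (M.contDiff_HH a)
  exact ContDiff.comp (g := fun p : M4 × L2 => pull p.1 p.2)
    (f := fun p : (M.A → V4) × V4 => (Dm (M.HH a p.1) p.2, M.cf a b (M.HH a p.1 p.2)))
    contDiff_pull ((M.contDiff_DHH a).prodMk h1)

theorem continuous_ker (a : M.A) {b : X → L2} (hb : Continuous (M.cf a b)) :
    Continuous (Function.uncurry (M.ker a b)) := by
  have h1 : Continuous fun p : (M.A → V4) × V4 => M.cf a b (M.HH a p.1 p.2) :=
    hb.comp (M.contDiff_HH a).continuous
  exact Continuous.comp (g := fun p : M4 × L2 => pull p.1 p.2)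
    (f := fun p : (M.A → V4) × V4 => (Dm (M.HH a p.1) p.2, M.cf a b (M.HH a p.1 p.2)))
    continuous_pull ((M.contDiff_DHH a).continuous.prodMk h1)

theorem contDiff_ker1 (a : M.A) {b : X → V4} (hb : M.Sm1 b) :
    ContDiff ℝ ∞ (Function.uncurry (M.ker1 a b)) := by
  have h1 : ContDiff ℝ ∞ fun p : (M.A → V4) × V4 => M.cf1 a b (M.HH a p.1 p.2) :=
    (hb a).comp (M.contDiff_HH a)
  exact ContDiff.comp (g := fun p : V4 × M4 => copp p.1 p.2)
    (f := fun p : (M.A → V4) × V4 => (M.cf1 a b (M.HH a p.1 p.2), Dm (M.HH a p.1) p.2))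
    contDiff_copp (h1.prodMk (M.contDiff_DHH a))

/-- The averaging operator on two-forms. -/
noncomputable def S0 (δ : ℝ) (b : X → L2) (x : X) : L2 := ∫ z, M.rr z • M.U (δ • z) b x

/-- The averaging operator on one-forms. -/
noncomputable def S1 (δ : ℝ) (b : X → V4) (x : X) : V4 := ∫ z, M.rr z • M.U1 (δ • z) b x

theorem norm_smul_le_z1 {δ : ℝ} (h0 : 0 ≤ δ) (h1 : δ ≤ M.z1) {z : M.A → V4} (hz : ‖z‖ ≤ 1) :
    ‖δ • z‖ ≤ M.z1 := by
  rw [norm_smul, Real.norm_eq_abs, abs_of_nonneg h0]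
  calc δ * ‖z‖ ≤ δ * 1 := by gcongr
    _ ≤ M.z1 := by linarith only [h1]

theorem continuous_smul_param (δ : ℝ) : Continuous fun z : M.A → V4 => δ • z :=
  continuous_const_smul δ

theorem integrable_S0 {δ : ℝ} (h0 : 0 ≤ δ) (h1 : δ ≤ M.z1) {b : X → L2}
    (hb : ∀ a, Continuous (M.cf a b)) (x : X) :
    Integrable (fun z => M.rr z • M.U (δ • z) b x) := by
  have h2 : Continuous fun z => pull (M.m' (M.ch x) (M.cy x))
      (M.ker (M.ch x) b (δ • z) (M.cy x)) := by
    have h3 : Continuous fun z => M.ker (M.ch x) b (δ • z) (M.cy x) :=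
      Continuous.comp (g := Function.uncurry (M.ker (M.ch x) b)) (f := fun z => (δ • z, M.cy x))
        (M.continuous_ker (M.ch x) (hb _)) ((M.continuous_smul_param δ).prodMk continuous_const)
    exact cont_pull continuous_const h3
  refine M.integrable_rr_smul (f := fun z => M.U (δ • z) b x) h2 fun z hz => ?_
  have h4 := M.eq_pull_m' (M.U (δ • z) b) (M.ch x) (M.cy x)
  rw [M.ψ_cy] at h4
  have h5 := M.cf_U (M.ch x) (M.norm_smul_le_z1 h0 h1 hz) b (y := M.cy x)
    (by have := M.norm_cy x; linarith only [this])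
  rw [h5] at h4
  exact h4

theorem integrable_S1 {δ : ℝ} (h0 : 0 ≤ δ) (h1 : δ ≤ M.z1) {b : X → V4} (hb : M.Sm1 b) (x : X) :
    Integrable (fun z => M.rr z • M.U1 (δ • z) b x) := by
  have h2 : Continuous fun z => copp (M.ker1 (M.ch x) b (δ • z) (M.cy x))
      (M.m' (M.ch x) (M.cy x)) := by
    have h3 : Continuous fun z => M.ker1 (M.ch x) b (δ • z) (M.cy x) :=
      Continuous.comp (g := Function.uncurry (M.ker1 (M.ch x) b)) (f := fun z => (δ • z, M.cy x))
        (M.contDiff_ker1 (M.ch x) hb).continuous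
        ((M.continuous_smul_param δ).prodMk continuous_const)
    exact cont_copp continuous_const h3
  refine M.integrable_rr_smul (f := fun z => M.U1 (δ • z) b x) h2 fun z hz => ?_
  have h4 := M.eq_copp_m' (M.U1 (δ • z) b) (M.ch x) (M.cy x)
  rw [M.ψ_cy] at h4
  have h5 := M.cf1_U1 (M.ch x) (M.norm_smul_le_z1 h0 h1 hz) b (y := M.cy x)
    (by have := M.norm_cy x; linarith only [this])
  rw [h5] at h4
  exact h4

/-- Chart formula for `S0`. -/
theorem cf_S0 (a : M.A) {δ : ℝ} (h0 : 0 ≤ δ) (h1 : δ ≤ M.z1) {b : X → L2}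
    (hb : ∀ a, Continuous (M.cf a b)) {y : V4} (hy : ‖y‖ ≤ 6) :
    M.cf a (M.S0 δ b) y = ∫ z, M.rr z • M.ker a b (δ • z) y := by
  have h2 : M.cf a (M.S0 δ b) y = ∫ z, M.rr z • M.cf a (M.U (δ • z) b) y := by
    have h3 := (pullL (M.m a y)).integral_comp_comm (M.integrable_S0 h0 h1 hb (M.ψ a y))
    have h4 : M.cf a (M.S0 δ b) y
        = pullL (M.m a y) (∫ z, M.rr z • M.U (δ • z) b (M.ψ a y)) := rfl
    rw [h4, ← h3]
    refine integral_congr_ae (Filter.Eventually.of_forall fun z => ?_)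
    show pullL (M.m a y) (M.rr z • M.U (δ • z) b (M.ψ a y)) = _
    rw [map_smul]; rfl
  rw [h2]
  refine M.integral_rr_congr fun z hz => ?_
  exact M.cf_U a (M.norm_smul_le_z1 h0 h1 hz) b hy

theorem cf1_S1 (a : M.A) {δ : ℝ} (h0 : 0 ≤ δ) (h1 : δ ≤ M.z1) {b : X → V4}
    (hb : M.Sm1 b) {y : V4} (hy : ‖y‖ ≤ 6) :
    M.cf1 a (M.S1 δ b) y = ∫ z, M.rr z • M.ker1 a b (δ • z) y := by
  have h2 : M.cf1 a (M.S1 δ b) y = ∫ z, M.rr z • M.cf1 a (M.U1 (δ • z) b) y := by
    have h3 := (coppL (M.m a y)).integral_comp_comm (M.integrable_S1 h0 h1 hb (M.ψ a y))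
    have h4 : M.cf1 a (M.S1 δ b) y
        = coppL (M.m a y) (∫ z, M.rr z • M.U1 (δ • z) b (M.ψ a y)) := rfl
    rw [h4, ← h3]
    refine integral_congr_ae (Filter.Eventually.of_forall fun z => ?_)
    show coppL (M.m a y) (M.rr z • M.U1 (δ • z) b (M.ψ a y)) = _
    rw [map_smul]; rfl
  rw [h2]
  refine M.integral_rr_congr fun z hz => ?_
  exact M.cf1_U1 a (M.norm_smul_le_z1 h0 h1 hz) b hy

theorem compl_null : (volume.restrict (Metric.closedBall (0 : M.A → V4) 1))
    (Metric.closedBall (0 : M.A → V4) 1)ᶜ = 0 := by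
  rw [Measure.restrict_apply Metric.isClosed_closedBall.measurableSet.compl]
  simp only [compl_inter_self, measure_empty]

instance : IsFiniteMeasure (volume.restrict (Metric.closedBall (0 : M.A → V4) 1)) :=
  ⟨by rw [Measure.restrict_apply_univ]; exact (isCompact_closedBall _ _).measure_lt_top⟩

theorem contDiff_int_ker (a : M.A) (δ : ℝ) {b : X → L2} (hb : b ∈ M.Om) :
    ContDiff ℝ ∞ fun y => ∫ z, M.rr z • M.ker a b (δ • z) y := by
  simp only [M.integral_rr]
  refine contDiff_integral_param (volume.restrict (Metric.closedBall (0 : M.A → V4) 1))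
    (isCompact_closedBall (0 : M.A → V4) 1) M.compl_null (f := fun z y =>
      M.rr z • M.ker a b (δ • z) y) ?_
  have h1 : ContDiff ℝ ∞ fun p : (M.A → V4) × V4 => M.ker a b (δ • p.1) p.2 :=
    ContDiff.comp (g := Function.uncurry (M.ker a b))
      (f := fun p : (M.A → V4) × V4 => (δ • p.1, p.2)) (M.contDiff_ker a hb)
      ((contDiff_fst.const_smul δ).prodMk contDiff_snd)
  exact (M.bump_rr.smooth.comp contDiff_fst).smul h1

theorem contDiff_int_ker1 (a : M.A) (δ : ℝ) {b : X → V4} (hb : M.Sm1 b) :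
    ContDiff ℝ ∞ fun y => ∫ z, M.rr z • M.ker1 a b (δ • z) y := by
  simp only [M.integral_rr]
  refine contDiff_integral_param (volume.restrict (Metric.closedBall (0 : M.A → V4) 1))
    (isCompact_closedBall (0 : M.A → V4) 1) M.compl_null (f := fun z y =>
      M.rr z • M.ker1 a b (δ • z) y) ?_
  have h1 : ContDiff ℝ ∞ fun p : (M.A → V4) × V4 => M.ker1 a b (δ • p.1) p.2 :=
    ContDiff.comp (g := Function.uncurry (M.ker1 a b))
      (f := fun p : (M.A → V4) × V4 => (δ • p.1, p.2)) (M.contDiff_ker1 a hb)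
      ((contDiff_fst.const_smul δ).prodMk contDiff_snd)
  exact (M.bump_rr.smooth.comp contDiff_fst).smul h1

/-- A form smooth on the unit balls of all charts is smooth. -/
theorem mem_Om_of_ball {u : X → L2} (h : ∀ c, ∀ y : V4, ‖y‖ < 1 →
    ContDiffAt ℝ ∞ (M.cf c u) y) : u ∈ M.Om := by
  intro a
  rw [contDiff_iff_contDiffAt]
  intro y
  set c := M.ch (M.ψ a y) with hc
  have hO : y ∈ M.O a c := M.mem_O_ch a y
  have h1 : ContDiffAt ℝ ∞ (fun z => pull (M.Dt a c z) (M.cf c u (M.τ a c z))) y := by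
    refine contDiffAt_pull (M.contDiffAt_Dt hO) ?_
    refine ContDiffAt.comp (g := M.cf c u) (f := M.τ a c) y (h c _ ?_) (M.contDiffAt_τ hO)
    rw [hc, M.τ_ch]; exact M.norm_cy _
  refine h1.congr_of_eventuallyEq ?_
  filter_upwards [(M.isOpen_O a c).mem_nhds hO] with z hz
  exact M.cf_compat u hz

theorem sm1_of_ball {u : X → V4} (h : ∀ c, ∀ y : V4, ‖y‖ < 1 →
    ContDiffAt ℝ ∞ (M.cf1 c u) y) : M.Sm1 u := by
  intro a
  rw [contDiff_iff_contDiffAt]
  intro y
  set c := M.ch (M.ψ a y) with hc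
  have hO : y ∈ M.O a c := M.mem_O_ch a y
  have h1 : ContDiffAt ℝ ∞ (fun z => copp (M.cf1 c u (M.τ a c z)) (M.Dt a c z)) y := by
    refine contDiffAt_copp (M.contDiffAt_Dt hO) ?_
    refine ContDiffAt.comp (g := M.cf1 c u) (f := M.τ a c) y (h c _ ?_) (M.contDiffAt_τ hO)
    rw [hc, M.τ_ch]; exact M.norm_cy _
  refine h1.congr_of_eventuallyEq ?_
  filter_upwards [(M.isOpen_O a c).mem_nhds hO] with z hz
  exact M.cf1_compat u hz

theorem S0_mem_Om {δ : ℝ} (h0 : 0 ≤ δ) (h1 : δ ≤ M.z1) {b : X → L2} (hb : b ∈ M.Om) :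
    M.S0 δ b ∈ M.Om := by
  refine M.mem_Om_of_ball fun c y hy => ?_
  refine (M.contDiff_int_ker c δ hb).contDiffAt.congr_of_eventuallyEq ?_
  have : {z : V4 | ‖z‖ < 1} ∈ 𝓝 y := (isOpen_lt continuous_norm continuous_const).mem_nhds hy
  filter_upwards [this] with z hz
  exact M.cf_S0 c h0 h1 (fun a => (hb a).continuous) (by
    have : ‖z‖ < 1 := hz
    linarith only [hz])

theorem S1_sm1 {δ : ℝ} (h0 : 0 ≤ δ) (h1 : δ ≤ M.z1) {b : X → V4} (hb : M.Sm1 b) :
    M.Sm1 (M.S1 δ b) := by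
  refine M.sm1_of_ball fun c y hy => ?_
  refine (M.contDiff_int_ker1 c δ hb).contDiffAt.congr_of_eventuallyEq ?_
  have : {z : V4 | ‖z‖ < 1} ∈ 𝓝 y := (isOpen_lt continuous_norm continuous_const).mem_nhds hy
  filter_upwards [this] with z hz
  exact M.cf1_S1 c h0 h1 hb (by
    have : ‖z‖ < 1 := hz
    linarith only [hz])

theorem S0_add {δ : ℝ} (h0 : 0 ≤ δ) (h1 : δ ≤ M.z1) {b b' : X → L2} (hb : b ∈ M.Om)
    (hb' : b' ∈ M.Om) : M.S0 δ (b + b') = M.S0 δ b + M.S0 δ b' := by
  funext x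
  show ∫ z, M.rr z • M.U (δ • z) (b + b') x = _
  have h2 : ∀ z, M.rr z • M.U (δ • z) (b + b') x
      = M.rr z • M.U (δ • z) b x + M.rr z • M.U (δ • z) b' x := by
    intro z; rw [M.U_add, Pi.add_apply, smul_add]
  simp only [h2]
  exact integral_add (M.integrable_S0 h0 h1 (fun a => (hb a).continuous) x)
    (M.integrable_S0 h0 h1 (fun a => (hb' a).continuous) x)

theorem S0_smul (δ : ℝ) (r : ℝ) (b : X → L2) : M.S0 δ (r • b) = r • M.S0 δ b := by
  funext x
  show ∫ z, M.rr z • M.U (δ • z) (r • b) x = r • ∫ z, M.rr z • M.U (δ • z) b x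
  rw [← integral_smul]
  refine integral_congr_ae (Filter.Eventually.of_forall fun z => ?_)
  show M.rr z • M.U (δ • z) (r • b) x = r • (M.rr z • M.U (δ • z) b x)
  rw [M.U_smul, Pi.smul_apply, smul_comm]

/-- `d1` of a parameter integral -/
theorem d1_integral {f : (M.A → V4) → V4 → V4} (hf : ContDiff ℝ ∞ (Function.uncurry f)) (y : V4) :
    d1 (fun y => ∫ z in Metric.closedBall (0 : M.A → V4) 1, f z y) y
      = ∫ z in Metric.closedBall (0 : M.A → V4) 1, d1 (f z) y := by
  set ν := volume.restrict (Metric.closedBall (0 : M.A → V4) 1) with hν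
  have hint : ∀ {E : Type} [NormedAddCommGroup E] [NormedSpace ℝ E] {g : (M.A → V4) → E},
      Continuous g → Integrable g ν := by
    intro E _ _ g hg
    exact hg.continuousOn.integrableOn_compact (isCompact_closedBall _ _)
  have hcomp : ∀ j : Fin 4, ContDiff ℝ ∞ (Function.uncurry fun z y => f z y j) := fun j =>
    (contDiff_pi.1 hf) j
  have hpd : ∀ i j : Fin 4, pd i (fun y => (∫ z, f z y ∂ν) j) y = ∫ z, pd i (fun y => f z y j) y ∂ν := by
    intro i j
    have h1 : (fun y => (∫ z, f z y ∂ν) j) = fun y => ∫ z, f z y j ∂ν := by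
      funext w
      have h2 := (ContinuousLinearMap.proj (R := ℝ) (φ := fun _ : Fin 4 => ℝ) j).integral_comp_comm
        (hint (g := fun z => f z w)
          (hf.continuous.comp (continuous_id.prodMk continuous_const)))
      exact h2.symm
    have h3 := hasFDerivAt_integral_param ν (isCompact_closedBall (0 : M.A → V4) 1)
      M.compl_null (f := fun z y => f z y j) (hcomp j) y
    unfold pd
    rw [h1, h3.fderiv]
    have h4 : Continuous fun z => fderiv ℝ (fun y => f z y j) y :=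
      (contDiff_fderiv_snd (hcomp j)).continuous.comp (continuous_id.prodMk continuous_const)
    exact (ContinuousLinearMap.integral_apply (hint h4) _)
  have hdc : Continuous fun z => d1 (f z) y := by
    have h5 : ∀ i j : Fin 4, Continuous fun z => pd i (fun y => f z y j) y := by
      intro i j
      have h4 : Continuous fun z => fderiv ℝ (fun y => f z y j) y :=
        (contDiff_fderiv_snd (hcomp j)).continuous.comp (continuous_id.prodMk continuous_const)
      exact h4.clm_apply continuous_const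
    have h6 : Continuous fun z => ((fun i j => pd i (fun y => f z y j) y
        - pd j (fun y => f z y i) y) : M4) :=
      continuous_pi fun i => continuous_pi fun j => (h5 i j).sub (h5 j i)
    exact contDiff_ofEnt.continuous.comp h6
  rw [← ofEnt_ent (d1 (fun y => ∫ z, f z y ∂ν) y), ← ofEnt_ent (∫ z, d1 (f z) y ∂ν)]
  apply ofEnt_congr
  intro i j
  have h7 : ent (∫ z, d1 (f z) y ∂ν) i j = ∫ z, ent (d1 (f z) y) i j ∂ν := by
    set ℓ : L2 →L[ℝ] ℝ := LinearMap.toContinuousLinearMap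
      { toFun := fun A => ent A i j
        map_add' := fun A B => ent_add A B i j
        map_smul' := fun c A => ent_smul c A i j } with hℓ
    exact (ℓ.integral_comp_comm (hint hdc)).symm
  rw [h7, ent_d1, hpd, hpd]
  simp only [ent_d1]
  have h8 : ∀ i j : Fin 4, Integrable (fun z => pd i (fun y => f z y j) y) ν := by
    intro i j
    have h4 : Continuous fun z => fderiv ℝ (fun y => f z y j) y :=
      (contDiff_fderiv_snd (hcomp j)).continuous.comp (continuous_id.prodMk continuous_const)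
    exact hint (h4.clm_apply continuous_const)
  rw [integral_sub (h8 i j) (h8 j i)]

/-- `S0` commutes with `d`. -/
theorem S0_dX {δ : ℝ} (h0 : 0 ≤ δ) (h1 : δ ≤ M.z1) {η : X → V4} (hη : M.Sm1 η) :
    M.S0 δ (M.dX η) = M.dX (M.S1 δ η) := by
  have hO := M.dX_mem_Om hη
  apply M.ext_cf; intro a y hy
  rw [M.cf_dX (M.S1_sm1 h0 h1 hη), M.cf_S0 a h0 h1 (fun a => (hO a).continuous) (by linarith only [hy])]
  have h2 : M.cf1 a (M.S1 δ η) =ᶠ[𝓝 y] fun y => ∫ z, M.rr z • M.ker1 a η (δ • z) y := by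
    have : {z : V4 | ‖z‖ < 1} ∈ 𝓝 y := (isOpen_lt continuous_norm continuous_const).mem_nhds hy
    filter_upwards [this] with z hz
    exact M.cf1_S1 a h0 h1 hη (by
      have : ‖z‖ < 1 := hz
      linarith)
  rw [d1_congr h2]
  simp only [M.integral_rr]
  have h3 : ContDiff ℝ ∞ (Function.uncurry fun (z : M.A → V4) (y : V4) =>
      M.rr z • M.ker1 a η (δ • z) y) := by
    have h1 : ContDiff ℝ ∞ fun p : (M.A → V4) × V4 => M.ker1 a η (δ • p.1) p.2 :=
      ContDiff.comp (g := Function.uncurry (M.ker1 a η))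
        (f := fun p : (M.A → V4) × V4 => (δ • p.1, p.2)) (M.contDiff_ker1 a hη)
        ((contDiff_fst.const_smul δ).prodMk contDiff_snd)
    exact (M.bump_rr.smooth.comp contDiff_fst).smul h1
  rw [M.d1_integral h3 y]
  refine setIntegral_congr_fun Metric.isClosed_closedBall.measurableSet fun z hz => ?_
  have hz' : ‖z‖ ≤ 1 := by simpa only [Metric.mem_closedBall, dist_zero_right] using hz
  have h4 : ContDiff ℝ ∞ (M.ker1 a η (δ • z)) :=
    (M.contDiff_ker1 a hη).comp (contDiff_const.prodMk contDiff_id)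
  have h5 : d1 (fun y => M.rr z • M.ker1 a η (δ • z) y) y
      = M.rr z • d1 (M.ker1 a η (δ • z)) y := d1_smul _ (h4.differentiable (by simp)) y
  show _ = d1 (fun y => M.rr z • M.ker1 a η (δ • z) y) y
  rw [h5]
  congr 1
  have h6 := congrFun (M.cf_dX (M.U1_sm1 (δ • z) hη) a) y
  rw [← M.U_dX (δ • z) hη, M.cf_U a (M.norm_smul_le_z1 h0 h1 hz') _ (by linarith only [hy])] at h6
  show M.ker a (M.dX η) (δ • z) y = _
  refine h6.trans ?_
  apply d1_congr
  have : {z : V4 | ‖z‖ < 1} ∈ 𝓝 y := (isOpen_lt continuous_norm continuous_const).mem_nhds hy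
  filter_upwards [this] with w hw
  exact M.cf1_U1 a (M.norm_smul_le_z1 h0 h1 hz') _ (by
    have : ‖w‖ < 1 := hw
    linarith only [hw])

end CM
end Vale.Agent.P204.GX
end

section
set_option linter.all false
/-! Elementary properties of the `ℝ≥0∞`-valued norms `sob`, `supn` (statements of `KSkel`), and the bridge to
the real valued norms `rsob`, `rsupn`. -/
open MeasureTheory Set Metric
open scoped ContDiff ENNReal NNReal

namespace Vale.Agent.P204.GX
open Vale.Agent.P204.T4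

section norms
variable {E F : Type} [NormedAddCommGroup E] [NormedSpace ℝ E] [NormedAddCommGroup F]
  [NormedSpace ℝ F]

theorem contDiff_pdv {f : V4 → E} (hf : ContDiff ℝ ∞ f) (i : Fin 4) : ContDiff ℝ ∞ (pdv i f) := pv_smooth hf i

theorem sob_succ (m : ℕ) (δ : ℝ) (K : Set V4) (f : V4 → E) : sob m δ K f ≤ sob (m + 1) δ K f :=
  le_self_add

theorem sob_add (m : ℕ) (δ : ℝ) (K : Set V4) {f g : V4 → E} (hf : ContDiff ℝ ∞ f)
    (hg : ContDiff ℝ ∞ g) : sob m δ K (fun y => f y + g y) ≤ sob m δ K f + sob m δ K g := by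
  induction m generalizing f g with
  | zero =>
    exact eLpNorm_add_le hf.continuous.aestronglyMeasurable hg.continuous.aestronglyMeasurable (by norm_num)
  | succ m ih =>
    have h1 : ∀ i, pdv i (fun y => f y + g y) = fun y => pdv i f y + pdv i g y := fun i =>
      pv_add (hf.differentiable (by simp)) (hg.differentiable (by simp)) i
    calc sob (m + 1) δ K (fun y => f y + g y)
        = sob m δ K (fun y => f y + g y) + ENNReal.ofReal δ * ∑ i, sob m δ K (fun y => pdv i f y + pdv i g y) := by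
          simp only [sob, h1]
      _ ≤ (sob m δ K f + sob m δ K g) + ENNReal.ofReal δ * ∑ i, (sob m δ K (pdv i f) + sob m δ K (pdv i g)) :=
          add_le_add (ih hf hg) (mul_le_mul_right (Finset.sum_le_sum fun i _ =>
            ih (contDiff_pdv hf i) (contDiff_pdv hg i)) _)
      _ = _ := by
          simp only [sob, Finset.sum_add_distrib]
          ring

theorem sob_smul (m : ℕ) (δ : ℝ) (K : Set V4) (c : ℝ) {f : V4 → E} (hf : ContDiff ℝ ∞ f) :
    sob m δ K (fun y => c • f y) = ENNReal.ofReal |c| * sob m δ K f := by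
  induction m generalizing f with
  | zero =>
    have h := eLpNorm_const_smul c f 2 (volume.restrict K)
    have h2 : ‖c‖ₑ = ENNReal.ofReal |c| := by
      rw [← Real.norm_eq_abs, ofReal_norm_eq_enorm]
    rw [← h2]
    exact h
  | succ m ih =>
    have h1 : ∀ i, pdv i (fun y => c • f y) = fun y => c • pdv i f y := fun i =>
      pv_const_smul c (hf.differentiable (by simp)) i
    simp only [sob, h1]
    rw [ih hf, Finset.sum_congr rfl fun i _ => ih (contDiff_pdv hf i), ← Finset.mul_sum]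
    ring

theorem pdv_congr {f g : V4 → E} {K : Set V4} (hK : IsOpen K) (h : EqOn f g K) (i : Fin 4) :
    EqOn (pdv i f) (pdv i g) K := fun y hy => pv_congr hK h i y hy

theorem sob_congr (m : ℕ) (δ : ℝ) {K : Set V4} (hK : IsOpen K) {f g : V4 → E}
    (h : EqOn f g K) : sob m δ K f = sob m δ K g := by
  induction m generalizing f g with
  | zero =>
    apply eLpNorm_congr_ae
    filter_upwards [ae_restrict_mem hK.measurableSet] with y hy
    exact h hy
  | succ m ih =>
    simp only [sob]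
    rw [ih h, Finset.sum_congr rfl fun i _ => ih (pdv_congr hK h i)]

theorem supn_succ (m : ℕ) (K : Set V4) (f : V4 → E) : supn m K f ≤ supn (m + 1) K f := le_self_add

theorem supn_le_supn {m n : ℕ} (h : m ≤ n) (K : Set V4) (f : V4 → E) : supn m K f ≤ supn n K f :=
  monotone_nat_of_le_succ (fun m => supn_succ m K f) h

theorem enorm_le_supn (m : ℕ) {K : Set V4} {y : V4} (hy : y ∈ K) (f : V4 → E) : ‖f y‖ₑ ≤ supn m K f :=
  (le_biSup (fun y => ‖f y‖ₑ) hy).trans (supn_le_supn (Nat.zero_le m) K f)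

theorem supn_add (m : ℕ) (K : Set V4) {f g : V4 → E} (hf : ContDiff ℝ ∞ f)
    (hg : ContDiff ℝ ∞ g) : supn m K (fun y => f y + g y) ≤ supn m K f + supn m K g := by
  induction m generalizing f g with
  | zero =>
    refine iSup₂_le fun y hy => ?_
    exact (enorm_add_le _ _).trans (add_le_add (enorm_le_supn 0 hy f) (enorm_le_supn 0 hy g))
  | succ m ih =>
    have h1 : ∀ i, pdv i (fun y => f y + g y) = fun y => pdv i f y + pdv i g y := fun i =>
      pv_add (hf.differentiable (by simp)) (hg.differentiable (by simp)) i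
    calc supn (m + 1) K (fun y => f y + g y)
        = supn m K (fun y => f y + g y) + ∑ i, supn m K (fun y => pdv i f y + pdv i g y) := by
          simp only [supn, h1]
      _ ≤ (supn m K f + supn m K g) + ∑ i, (supn m K (pdv i f) + supn m K (pdv i g)) :=
          add_le_add (ih hf hg) (Finset.sum_le_sum fun i _ =>
            ih (contDiff_pdv hf i) (contDiff_pdv hg i))
      _ = _ := by
          simp only [supn, Finset.sum_add_distrib]
          ring

theorem supn_smul (m : ℕ) (K : Set V4) (c : ℝ) {f : V4 → E} (hf : ContDiff ℝ ∞ f) :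
    supn m K (fun y => c • f y) = ENNReal.ofReal |c| * supn m K f := by
  induction m generalizing f with
  | zero =>
    have h2 : ‖c‖ₑ = ENNReal.ofReal |c| := by
      rw [← Real.norm_eq_abs, ofReal_norm_eq_enorm]
    simp only [supn, enorm_smul, h2, ENNReal.mul_iSup]
  | succ m ih =>
    have h1 : ∀ i, pdv i (fun y => c • f y) = fun y => c • pdv i f y := fun i =>
      pv_const_smul c (hf.differentiable (by simp)) i
    simp only [supn, h1]
    rw [ih hf, Finset.sum_congr rfl fun i _ => ih (contDiff_pdv hf i), ← Finset.mul_sum]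
    ring

theorem supn_lt_top (m : ℕ) {K : Set V4} (hK : Bornology.IsBounded K) {f : V4 → E}
    (hf : ContDiff ℝ ∞ f) : supn m K f < ⊤ := by
  induction m generalizing f with
  | zero =>
    refine lt_of_le_of_lt (iSup₂_le fun y hy => ?_ : supn 0 K f ≤ ENNReal.ofReal (rsupn 0 1 K f))
      ENNReal.ofReal_lt_top
    rw [← ofReal_norm_eq_enorm]
    exact ENNReal.ofReal_le_ofReal (le_ssup hf.continuous hK hy)
  | succ m ih =>
    exact ENNReal.add_lt_top.2 ⟨ih hf, ENNReal.sum_lt_top.2 fun i _ => ih (contDiff_pdv hf i)⟩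

theorem supn_congr (m : ℕ) {K : Set V4} (hK : IsOpen K) {f g : V4 → E}
    (h : EqOn f g K) : supn m K f = supn m K g := by
  induction m generalizing f g with
  | zero =>
    simp only [supn]
    exact iSup_congr fun y => iSup_congr fun hy => by rw [h hy]
  | succ m ih =>
    simp only [supn]
    rw [ih h, Finset.sum_congr rfl fun i _ => ih (pdv_congr hK h i)]

/-! ### the bridge -/

theorem sob_eq_ofReal (m : ℕ) {δ : ℝ} (hδ : 0 ≤ δ) {K : Set V4} (hK : Bornology.IsBounded K) {f : V4 → E}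
    (hf : ContDiff ℝ ∞ f) : sob m δ K f = ENNReal.ofReal (rsob m δ K f) := by
  induction m generalizing f with
  | zero =>
    have h := memLp_of_continuous hf.continuous hK
    rw [rsob_zero_eq h, ENNReal.ofReal_toReal h.eLpNorm_ne_top]
    rfl
  | succ m ih =>
    rw [rsob_succ_def, ENNReal.ofReal_add (rsob_nonneg hδ m K f) (mul_nonneg hδ (Finset.sum_nonneg fun i _ =>
      rsob_nonneg hδ m K _)), ENNReal.ofReal_mul hδ, ENNReal.ofReal_sum_of_nonneg fun i _ => rsob_nonneg hδ m K _]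
    simp only [sob]
    rw [ih hf, Finset.sum_congr rfl fun i _ => ih (contDiff_pdv hf i)]
    rfl

theorem supn_eq_ofReal (m : ℕ) {K : Set V4} (hK : Bornology.IsBounded K) {f : V4 → E}
    (hf : ContDiff ℝ ∞ f) : supn m K f = ENNReal.ofReal (rsupn m 1 K f) := by
  induction m generalizing f with
  | zero =>
    apply le_antisymm
    · refine iSup₂_le fun y hy => ?_
      rw [← ofReal_norm_eq_enorm]
      exact ENNReal.ofReal_le_ofReal (le_ssup hf.continuous hK hy)
    · apply ENNReal.ofReal_le_of_le_toReal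
      refine ssup_le ENNReal.toReal_nonneg fun y hy => ?_
      have h1 := enorm_le_supn 0 hy f
      have h2 := ENNReal.toReal_mono (supn_lt_top 0 hK hf).ne h1
      rwa [toReal_enorm] at h2
  | succ m ih =>
    rw [rsupn_succ_def, one_mul, ENNReal.ofReal_add (rsupn_nonneg zero_le_one m K f) (Finset.sum_nonneg fun i _ =>
      rsupn_nonneg zero_le_one m K _), ENNReal.ofReal_sum_of_nonneg fun i _ => rsupn_nonneg zero_le_one m K _]
    simp only [supn]
    rw [ih hf, Finset.sum_congr rfl fun i _ => ih (contDiff_pdv hf i)]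
    rfl

/-! ### KC: composition with one fixed map, multiplication -/

end norms
end Vale.Agent.P204.GX
end

section

/-!
`S0` as a linear map on smooth forms, its chart reading as `TT`, and the pairing formula.
-/

open scoped BigOperators ContDiff Topology
open MeasureTheory Set

namespace Vale.Agent.P204.GX
open T4

namespace CM
variable {X : Type} [MetricSpace X] (M : CM X)

open Classical in
/-- The averaging operator as a linear map on smooth forms (zero outside `0 ≤ δ ≤ z1`). -/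
noncomputable def S0L (δ : ℝ) : M.Om →ₗ[ℝ] M.Om :=
  if h : 0 ≤ δ ∧ δ ≤ M.z1 then
    { toFun := fun b => ⟨M.S0 δ b, M.S0_mem_Om h.1 h.2 b.2⟩
      map_add' := fun b b' => Subtype.ext (M.S0_add h.1 h.2 b.2 b'.2)
      map_smul' := fun r b => Subtype.ext (M.S0_smul δ r b) }
  else 0

theorem S0L_coe {δ : ℝ} (h0 : 0 ≤ δ) (h1 : δ ≤ M.z1) (b : M.Om) :
    (M.S0L δ b : X → L2) = M.S0 δ b := by
  unfold S0L
  rw [dif_pos ⟨h0, h1⟩]
  rfl

theorem S0L_Ex {δ : ℝ} (h0 : 0 ≤ δ) (h1 : δ ≤ M.z1) {e : M.Om} (he : e ∈ M.Ex) :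
    M.S0L δ e ∈ M.Ex := by
  obtain ⟨η, hη, h2⟩ := M.exists_dX he
  have h3 : M.S0L δ e = ⟨M.dX (M.S1 δ η), M.dX_mem_Om (M.S1_sm1 h0 h1 hη)⟩ := by
    apply Subtype.ext
    rw [M.S0L_coe h0 h1, h2, M.S0_dX h0 h1 hη]
  rw [h3]
  exact M.dX_mem_Ex (M.S1_sm1 h0 h1 hη)

/-- near-identity operator `P z y = pull (Dm (HH a z) y)` of the chart `a` -/
noncomputable def PP (a : M.A) (z : M.A → V4) (y : V4) : L2 →L[ℝ] L2 := pullL (Dm (M.HH a z) y)

theorem contDiff_PP (a : M.A) : ContDiff ℝ ∞ (Function.uncurry (M.PP a)) :=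
  ContDiff.comp (g := pullL) (f := fun p : (M.A → V4) × V4 => Dm (M.HH a p.1) p.2)
    contDiff_pullL (M.contDiff_DHH a)

theorem PP_zero (a : M.A) (y : V4) : M.PP a 0 y = ContinuousLinearMap.id ℝ L2 := by
  unfold PP
  have : M.HH a 0 = fun y => y := funext fun y => M.HH_zero a y
  rw [this, Dm_id, pullL_one]

theorem ker_eq (a : M.A) (b : X → L2) (w : M.A → V4) (y : V4) :
    M.ker a b w y = M.PP a w y (M.cf a b (M.HH a w y)) := rfl

/-- The chart reading of `S0` in the form used by the kernel calculus. -/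
theorem cf_S0_TT (a : M.A) {δ : ℝ} (h0 : 0 ≤ δ) (h1 : δ ≤ M.z1) {b : X → L2}
    (hb : ∀ a, Continuous (M.cf a b)) {y : V4} (hy : ‖y‖ ≤ 6) :
    M.cf a (M.S0 δ b) y
      = TT (fun δ z y => M.rr z • M.PP a (δ • z) y) (M.HH a) δ (M.cf a b) y := by
  rw [M.cf_S0 a h0 h1 hb hy]
  rfl

theorem contDiff_scale : ContDiff ℝ ∞ fun p : ℝ × (M.A → V4) × V4 => (p.1 • p.2.1, p.2.2) := by
  have hs : ContDiff ℝ ∞ fun p : ℝ × (M.A → V4) × V4 => p.1 • p.2.1 :=
    contDiff_fst.smul contDiff_snd.fst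
  exact hs.prodMk contDiff_snd.snd

theorem contDiff_PPscale (a : M.A) :
    ContDiff ℝ ∞ fun p : ℝ × (M.A → V4) × V4 => M.PP a (p.1 • p.2.1) p.2.2 :=
  ContDiff.comp (g := Function.uncurry (M.PP a))
    (f := fun p : ℝ × (M.A → V4) × V4 => (p.1 • p.2.1, p.2.2)) (M.contDiff_PP a) M.contDiff_scale

theorem contDiff_rrscale : ContDiff ℝ ∞ fun p : ℝ × (M.A → V4) × V4 => M.rr p.2.1 :=
  ContDiff.comp (g := M.rr) (f := fun p : ℝ × (M.A → V4) × V4 => p.2.1)
    M.bump_rr.smooth contDiff_snd.fst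

theorem amp_PP (a : M.A) : Amp (fun (δ : ℝ) z y => M.rr z • M.PP a (δ • z) y) where
  smooth := M.contDiff_rrscale.smul (M.contDiff_PPscale a)
  supp := fun δ z y hz => by
    have := M.bump_rr.supp z hz
    simp only [this, zero_smul]

/-- `e w = Pi.single a w` as a continuous linear map -/
noncomputable def eL (a : M.A) : V4 →L[ℝ] (M.A → V4) :=
  LinearMap.toContinuousLinearMap (LinearMap.single ℝ (fun _ : M.A => V4) a)

theorem HH_eL (a : M.A) {y : V4} (hy : ‖y‖ ≤ 4) :
    ∀ᶠ w in 𝓝 (0 : V4), M.HH a (M.eL a w) y = y + w := M.HH_single_eventually a hy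

/-- `U z` on the smooth forms read on the ball of radius 6, continuity in the parameter. -/
theorem continuous_U_Om {u : X → L2} (hu : u ∈ M.Om) (z : M.A → V4) (a : M.A) :
    Continuous (M.cf a (M.U z u)) := (M.U_mem_Om z hu a).continuous

section meas
variable [MeasurableSpace X] [BorelSpace X]

theorem pr_chart {e u : X → L2} {z : M.A → V4} (hz : ‖z‖ ≤ M.z1)
    (he : ∀ a, Continuous (M.cf a e)) (hu : u ∈ M.Om) :
    M.pr e (M.U z u) = ∑ a, ∫ y, Q (M.cut e a y) (M.ker a u z y) := by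
  rw [M.pr_eq_sum he (fun a => M.continuous_U_Om hu z a)]
  refine Finset.sum_congr rfl fun a _ => integral_congr_ae (Filter.Eventually.of_forall fun y => ?_)
  show Q (M.cut e a y) (M.cf a (M.U z u) y) = Q (M.cut e a y) (M.ker a u z y)
  by_cases hy : y ∈ Metric.ball (0 : V4) 2
  · rw [M.cf_U a hz u (by
      rw [Metric.mem_ball, dist_zero_right] at hy; linarith only [hy])]
    rfl
  · have : M.cut e a y = 0 := by unfold cut; rw [M.zl_eq_zero a hy, zero_smul]
    rw [this]; simp [Q]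

/-- Pairing with the average. -/
theorem pr_S0 {δ : ℝ} (h0 : 0 ≤ δ) (h1 : δ ≤ M.z1) {e b : X → L2}
    (he : ∀ a, Continuous (M.cf a e)) (hb : b ∈ M.Om) :
    M.pr e (M.S0 δ b) = ∫ z, M.rr z * M.pr e (M.U (δ • z) b) := by
  have hcut : ∀ a, Continuous (M.cut e a) := fun a =>
    (M.contDiff_zl a).continuous.smul (he a)
  have hker : ∀ a, Continuous fun p : V4 × (M.A → V4) => M.ker a b (δ • p.2) p.1 := fun a =>
    Continuous.comp (g := Function.uncurry (M.ker a b))
      (f := fun p : V4 × (M.A → V4) => (δ • p.2, p.1)) (M.contDiff_ker a hb).continuous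
      ((continuous_snd.const_smul δ).prodMk continuous_fst)
  -- joint integrability
  have hint : ∀ a, Integrable (fun p : V4 × (M.A → V4) =>
      M.rr p.2 * Q (M.cut e a p.1) (M.ker a b (δ • p.2) p.1)) (volume.prod volume) := by
    intro a
    have hc : Continuous fun p : V4 × (M.A → V4) =>
        M.rr p.2 * Q (M.cut e a p.1) (M.ker a b (δ • p.2) p.1) :=
      (M.bump_rr.smooth.continuous.comp continuous_snd).mul
        (continuous_Q.comp (((hcut a).comp continuous_fst).prodMk (hker a)))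
    refine hc.integrable_of_hasCompactSupport ?_
    refine HasCompactSupport.intro ((isCompact_closedBall (0 : V4) 2).prod
      (isCompact_closedBall (0 : M.A → V4) 1)) fun p hp => ?_
    by_cases h2 : p.1 ∈ Metric.closedBall (0 : V4) 2
    · have h3 : p.2 ∉ Metric.closedBall (0 : M.A → V4) 1 := fun h => hp ⟨h2, h⟩
      rw [M.rr_zero h3, zero_mul]
    · have : M.cut e a p.1 = 0 := by
        unfold cut
        rw [M.zl_eq_zero a (fun h => h2 (Metric.ball_subset_closedBall h)), zero_smul]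
      rw [this]; simp [Q]
  have hS := fun a => (M.S0_mem_Om h0 h1 hb a).continuous
  rw [M.pr_eq_sum he hS]
  have hL : ∀ a, ∫ y, Q (M.cut e a y) (M.cf a (M.S0 δ b) y)
      = ∫ z, ∫ y, M.rr z * Q (M.cut e a y) (M.ker a b (δ • z) y) := by
    intro a
    rw [integral_integral_swap (f := fun z y => M.rr z * Q (M.cut e a y) (M.ker a b (δ • z) y))]
    · refine integral_congr_ae (Filter.Eventually.of_forall fun y => ?_)
      show Q (M.cut e a y) (M.cf a (M.S0 δ b) y)
        = ∫ z, M.rr z * Q (M.cut e a y) (M.ker a b (δ • z) y)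
      by_cases hy : y ∈ Metric.ball (0 : V4) 2
      · rw [M.cf_S0 a h0 h1 (fun a => (hb a).continuous) (by
          rw [Metric.mem_ball, dist_zero_right] at hy; linarith only [hy])]
        set ℓ : L2 →L[ℝ] ℝ := LinearMap.toContinuousLinearMap
          { toFun := fun A => Q (M.cut e a y) A
            map_add' := fun A B => Q_add_right _ A B
            map_smul' := fun c A => Q_smul_right c _ A } with hℓ
        have hi : Integrable (fun z => M.rr z • M.ker a b (δ • z) y) := by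
          refine M.integrable_rr_smul (f := fun z => M.ker a b (δ • z) y)
            (g := fun z => M.ker a b (δ • z) y) ?_ fun z _ => rfl
          exact Continuous.comp (g := Function.uncurry (M.ker a b))
            (f := fun z : M.A → V4 => (δ • z, y)) (M.contDiff_ker a hb).continuous
            ((continuous_const_smul δ).prodMk continuous_const)
        have h3 := ℓ.integral_comp_comm hi
        have h4 : ℓ (∫ z, M.rr z • M.ker a b (δ • z) y)
            = Q (M.cut e a y) (∫ z, M.rr z • M.ker a b (δ • z) y) := rfl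
        rw [← h4, ← h3]
        refine integral_congr_ae (Filter.Eventually.of_forall fun z => ?_)
        exact Q_smul_right _ _ _
      · have : M.cut e a y = 0 := by unfold cut; rw [M.zl_eq_zero a hy, zero_smul]
        rw [this]
        have hQ0 : ∀ A : L2, Q 0 A = 0 := fun A => by simp only [Q, Pi.zero_apply, Fin.isValue, zero_mul, sub_self, add_zero]
        simp only [hQ0, mul_zero, integral_zero]
    · exact (hint a).swap
  simp only [hL]
  rw [← integral_finsetSum]
  · refine integral_congr_ae (Filter.Eventually.of_forall fun z => ?_)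
    show ∑ a, ∫ y, M.rr z * Q (M.cut e a y) (M.ker a b (δ • z) y) = M.rr z * M.pr e (M.U (δ • z) b)
    by_cases hz : ‖z‖ ≤ 1
    · rw [M.pr_chart (M.norm_smul_le_z1 h0 h1 hz) he hb, Finset.mul_sum]
      exact Finset.sum_congr rfl fun a _ => integral_const_mul _ _
    · rw [M.rr_zero (by simpa only [Metric.mem_closedBall, dist_zero_right, not_le] using hz)]
      simp only [zero_mul, integral_zero, Finset.sum_const_zero]
  · intro a _
    exact (hint a).swap.integral_prod_left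

end meas

end CM
end Vale.Agent.P204.GX
end

section
/-! The operators `TT`: smoothness and derivative formulas. -/
open MeasureTheory Set Metric Filter
open scoped ContDiff ENNReal NNReal Topology

namespace Vale.Agent.P204.GX
open Vale.Agent.P204.T4

section
variable {Z : Type} [NormedAddCommGroup Z] [NormedSpace ℝ Z] [FiniteDimensional ℝ Z]
  [MeasureSpace Z] [BorelSpace Z] [(volume : Measure Z).IsAddHaarMeasure]

omit [(volume : Measure Z).IsAddHaarMeasure] [BorelSpace Z] [FiniteDimensional ℝ Z] in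
theorem TT_eq_setIntegral {G : ℝ → Z → V4 → (L2 →L[ℝ] L2)} (hG : Amp G) (H : Z → V4 → V4)
    (δ : ℝ) (b : V4 → L2) (y : V4) :
    TT G H δ b y = ∫ z in closedBall (0 : Z) 1, G δ z y (b (H (δ • z) y)) := by
  rw [TT, setIntegral_eq_integral_of_forall_compl_eq_zero]
  intro z hz
  have : 1 < ‖z‖ := by simpa only [mem_closedBall, dist_zero_right, not_le] using hz
  rw [hG.supp δ z y this]
  simp

omit [FiniteDimensional ℝ Z] [MeasureSpace Z] [BorelSpace Z]
  [(volume : Measure Z).IsAddHaarMeasure] in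
/-- joint smoothness of the integrand -/
theorem contDiff_integrand {G : ℝ → Z → V4 → (L2 →L[ℝ] L2)}
    (hG : ContDiff ℝ ∞ (fun p : ℝ × Z × V4 => G p.1 p.2.1 p.2.2)) {H : Z → V4 → V4}
    (hH : ContDiff ℝ ∞ (Function.uncurry H)) {b : V4 → L2} (hb : ContDiff ℝ ∞ b) :
    ContDiff ℝ ∞ (fun p : ℝ × Z × V4 => G p.1 p.2.1 p.2.2 (b (H (p.1 • p.2.1) p.2.2))) := by
  have h1 : ContDiff ℝ ∞ (fun p : ℝ × Z × V4 => (p.1 • p.2.1, p.2.2)) :=
    (contDiff_fst.smul (contDiff_fst.comp contDiff_snd)).prodMk (contDiff_snd.comp contDiff_snd)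
  have h2 : ContDiff ℝ ∞ (fun p : ℝ × Z × V4 => H (p.1 • p.2.1) p.2.2) := hH.comp h1
  exact hG.clm_apply (hb.comp h2)

theorem contDiff_TT {G : ℝ → Z → V4 → (L2 →L[ℝ] L2)} (hG : Amp G) {H : Z → V4 → V4}
    (hH : ContDiff ℝ ∞ (Function.uncurry H)) {b : V4 → L2} (hb : ContDiff ℝ ∞ b) :
    ContDiff ℝ ∞ (fun p : ℝ × V4 => TT G H p.1 b p.2) := by
  have h : (fun p : ℝ × V4 => TT G H p.1 b p.2) = fun p : ℝ × V4 =>
      ∫ z in closedBall (0 : Z) 1, G p.1 z p.2 (b (H (p.1 • z) p.2)) := by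
    funext p; exact TT_eq_setIntegral hG H p.1 b p.2
  rw [h]
  have : IsFiniteMeasure (volume.restrict (closedBall (0 : Z) 1)) :=
    ⟨by rw [Measure.restrict_apply_univ]; exact (isCompact_closedBall _ _).measure_lt_top⟩
  refine contDiff_integral_param (S := Z) (F := ℝ × V4) (volume.restrict (closedBall (0 : Z) 1))
    (K := closedBall (0 : Z) 1) (isCompact_closedBall _ _) ?_ (f := fun z p =>
      G p.1 z p.2 (b (H (p.1 • z) p.2))) ?_
  · rw [Measure.restrict_apply measurableSet_closedBall.compl]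
    simp only [compl_inter_self, measure_empty]
  · exact (contDiff_integrand hG.smooth hH hb).comp
      ((contDiff_fst.comp contDiff_snd).prodMk (contDiff_fst.prodMk
        (contDiff_snd.comp contDiff_snd)))

theorem contDiff_TT_right {G : ℝ → Z → V4 → (L2 →L[ℝ] L2)} (hG : Amp G) {H : Z → V4 → V4}
    (hH : ContDiff ℝ ∞ (Function.uncurry H)) {b : V4 → L2} (hb : ContDiff ℝ ∞ b) (δ : ℝ) :
    ContDiff ℝ ∞ (TT G H δ b) :=
  (contDiff_TT hG hH hb).comp (contDiff_const.prodMk contDiff_id)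

/-- integrability of the integrand -/
theorem integrable_TT {G : ℝ → Z → V4 → (L2 →L[ℝ] L2)} (hG : Amp G) {H : Z → V4 → V4}
    (hH : ContDiff ℝ ∞ (Function.uncurry H)) {b : V4 → L2} (hb : Continuous b)
    (δ : ℝ) (y : V4) : Integrable fun z => G δ z y (b (H (δ • z) y)) := by
  have hc : Continuous fun z => G δ z y (b (H (δ • z) y)) := by
    have h1 : Continuous fun z : Z => G δ z y :=
      hG.smooth.continuous.comp (continuous_const.prodMk (continuous_id.prodMk continuous_const))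
    have h2 : Continuous fun z : Z => H (δ • z) y :=
      hH.continuous.comp ((continuous_const_smul δ).prodMk continuous_const)
    exact h1.clm_apply (hb.comp h2)
  refine hc.integrable_of_hasCompactSupport ?_
  refine HasCompactSupport.intro (isCompact_closedBall (0 : Z) 1) fun z hz => ?_
  have : 1 < ‖z‖ := by simpa only [mem_closedBall, dist_zero_right, not_le] using hz
  rw [hG.supp δ z y this]
  simp

omit [FiniteDimensional ℝ Z] [MeasureSpace Z] [BorelSpace Z]
  [(volume : Measure Z).IsAddHaarMeasure] in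
theorem Amp.sub {G G' : ℝ → Z → V4 → (L2 →L[ℝ] L2)} (hG : Amp G) (hG' : Amp G') :
    Amp (fun δ z y => G δ z y - G' δ z y) :=
  ⟨hG.smooth.sub hG'.smooth, fun δ z y h => by simp only [hG.supp δ z y h, hG'.supp δ z y h, sub_zero]⟩

omit [FiniteDimensional ℝ Z] [MeasureSpace Z] [BorelSpace Z]
  [(volume : Measure Z).IsAddHaarMeasure] in
theorem Amp.sum {ι : Type*} (s : Finset ι) {G : ι → ℝ → Z → V4 → (L2 →L[ℝ] L2)}
    (hG : ∀ i ∈ s, Amp (G i)) : Amp (fun δ z y => ∑ i ∈ s, G i δ z y) :=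
  ⟨ContDiff.sum fun i hi => (hG i hi).smooth, fun δ z y h =>
    Finset.sum_eq_zero fun i hi => (hG i hi).supp δ z y h⟩

omit [FiniteDimensional ℝ Z] [MeasureSpace Z] [BorelSpace Z]
  [(volume : Measure Z).IsAddHaarMeasure] in
/-- multiplication by a smooth scalar function -/
theorem Amp.smul {G : ℝ → Z → V4 → (L2 →L[ℝ] L2)} (hG : Amp G) {c : ℝ → Z → V4 → ℝ}
    (hc : ContDiff ℝ ∞ (fun p : ℝ × Z × V4 => c p.1 p.2.1 p.2.2)) :
    Amp (fun δ z y => c δ z y • G δ z y) :=
  ⟨hc.smul hG.smooth, fun δ z y h => by simp only [hG.supp δ z y h, smul_zero]⟩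

omit [FiniteDimensional ℝ Z] [MeasureSpace Z] [BorelSpace Z]
  [(volume : Measure Z).IsAddHaarMeasure] in
/-- directional derivatives of amplitudes in a direction depending smoothly on the point -/
theorem Amp.dir {G : ℝ → Z → V4 → (L2 →L[ℝ] L2)} (hG : Amp G)
    {v : ℝ × Z × V4 → ℝ × Z × V4} (hv : ContDiff ℝ ∞ v) :
    Amp (fun δ z y => fderiv ℝ (fun p : ℝ × Z × V4 => G p.1 p.2.1 p.2.2) (δ, z, y)
      (v (δ, z, y))) := by
  constructor
  · exact (hG.smooth.fderiv_right (m := ∞) (by norm_num)).clm_apply hv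
  · intro δ z y h
    have h1 : (fun p : ℝ × Z × V4 => G p.1 p.2.1 p.2.2) =ᶠ[𝓝 (δ, z, y)] fun _ => 0 := by
      have ho : IsOpen {p : ℝ × Z × V4 | 1 < ‖p.2.1‖} :=
        isOpen_lt continuous_const (continuous_norm.comp (continuous_fst.comp continuous_snd))
      filter_upwards [ho.mem_nhds h] with p hp
      exact hG.supp _ _ _ hp
    have h2 := h1.fderiv_eq (𝕜 := ℝ)
    have h3 : fderiv ℝ (fun p : ℝ × Z × V4 => G p.1 p.2.1 p.2.2) (δ, z, y) = 0 := by
      rw [h2]; simp only [fderiv_fun_const, Pi.zero_apply]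
    show (fderiv ℝ (fun p : ℝ × Z × V4 => G p.1 p.2.1 p.2.2) (δ, z, y)) (v (δ, z, y)) = 0
    rw [h3]
    rfl

/-! ### derivative formulas -/

/-- the derivative of the amplitude in the direction `e_i` of `y` -/
noncomputable def Gy (G : ℝ → Z → V4 → (L2 →L[ℝ] L2)) (i : Fin 4) (δ : ℝ) (z : Z) (y : V4) :
    L2 →L[ℝ] L2 :=
  fderiv ℝ (fun p : ℝ × Z × V4 => G p.1 p.2.1 p.2.2) (δ, z, y) (0, 0, Pi.single i 1)

omit [FiniteDimensional ℝ Z] [MeasureSpace Z] [BorelSpace Z]
  [(volume : Measure Z).IsAddHaarMeasure] in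
theorem Amp.Gy {G : ℝ → Z → V4 → (L2 →L[ℝ] L2)} (hG : Amp G) (i : Fin 4) :
    Amp (Gy G i) := hG.dir contDiff_const

/-- the derivative of the `k`-th component of `H` in `y`, as a function of `(δ, z, y)` -/
noncomputable def Hy (H : Z → V4 → V4) (i k : Fin 4) (δ : ℝ) (z : Z) (y : V4) : ℝ :=
  fderiv ℝ (Function.uncurry H) (δ • z, y) (0, Pi.single i 1) k

omit [FiniteDimensional ℝ Z] [MeasureSpace Z] [BorelSpace Z]
  [(volume : Measure Z).IsAddHaarMeasure] in
theorem contDiff_DH {H : Z → V4 → V4} (hH : ContDiff ℝ ∞ (Function.uncurry H))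
    {v : ℝ × Z × V4 → Z × V4} (hv : ContDiff ℝ ∞ v) (k : Fin 4) :
    ContDiff ℝ ∞ (fun p : ℝ × Z × V4 =>
      fderiv ℝ (Function.uncurry H) (p.1 • p.2.1, p.2.2) (v p) k) := by
  have h0 : ContDiff ℝ ∞ (fun p : ℝ × Z × V4 => (p.1 • p.2.1, p.2.2)) :=
    (contDiff_fst.smul (contDiff_fst.comp contDiff_snd)).prodMk (contDiff_snd.comp contDiff_snd)
  have h1 : ContDiff ℝ ∞ (fun p : ℝ × Z × V4 =>
      fderiv ℝ (Function.uncurry H) (p.1 • p.2.1, p.2.2)) :=
    (hH.fderiv_right (m := ∞) (by norm_num)).comp h0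
  exact (contDiff_apply ℝ ℝ k).comp (h1.clm_apply hv)

omit [FiniteDimensional ℝ Z] [MeasureSpace Z] [BorelSpace Z]
  [(volume : Measure Z).IsAddHaarMeasure] in
theorem contDiff_Hy {H : Z → V4 → V4} (hH : ContDiff ℝ ∞ (Function.uncurry H)) (i k : Fin 4) :
    ContDiff ℝ ∞ (fun p : ℝ × Z × V4 => Hy H i k p.1 p.2.1 p.2.2) :=
  contDiff_DH hH contDiff_const k

/-- a linear map applied to a vector, in coordinates -/
theorem clm_eq_sum (L : V4 →L[ℝ] L2) (v : V4) : L v = ∑ k, v k • L (Pi.single k 1) := by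
  have h : v = ∑ k, v k • (Pi.single k (1 : ℝ) : V4) := by
    funext j
    simp only [Finset.sum_apply, Pi.smul_apply, Pi.single_apply, smul_eq_mul, mul_ite, mul_one, mul_zero, Finset.sum_ite_eq, Finset.mem_univ, ↓reduceIte]
  conv_lhs => rw [h]
  rw [map_sum]
  simp

omit [FiniteDimensional ℝ Z] [MeasureSpace Z] [BorelSpace Z]
  [(volume : Measure Z).IsAddHaarMeasure] in
/-- the general directional derivative of the integrand -/
theorem hasFDerivAt_integrand {G : ℝ → Z → V4 → (L2 →L[ℝ] L2)}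
    (hG : ContDiff ℝ ∞ (fun p : ℝ × Z × V4 => G p.1 p.2.1 p.2.2)) {H : Z → V4 → V4}
    (hH : ContDiff ℝ ∞ (Function.uncurry H)) {b : V4 → L2} (hb : ContDiff ℝ ∞ b)
    (δ : ℝ) (z : Z) (y : V4) (v : ℝ × Z × V4) :
    fderiv ℝ (fun p : ℝ × Z × V4 => G p.1 p.2.1 p.2.2 (b (H (p.1 • p.2.1) p.2.2))) (δ, z, y) v =
      fderiv ℝ (fun p : ℝ × Z × V4 => G p.1 p.2.1 p.2.2) (δ, z, y) v (b (H (δ • z) y)) +
      ∑ k, fderiv ℝ (Function.uncurry H) (δ • z, y) (δ • v.2.1 + v.1 • z, v.2.2) k •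
        G δ z y (pdv k b (H (δ • z) y)) := by
  have h0 : ContDiff ℝ ∞ (fun p : ℝ × Z × V4 => (p.1 • p.2.1, p.2.2)) :=
    (contDiff_fst.smul (contDiff_fst.comp contDiff_snd)).prodMk (contDiff_snd.comp contDiff_snd)
  have hd0 : HasFDerivAt (fun p : ℝ × Z × V4 => (p.1 • p.2.1, p.2.2))
      (((ContinuousLinearMap.fst ℝ ℝ (Z × V4)).smulRight z +
        δ • (ContinuousLinearMap.fst ℝ Z V4 ∘L ContinuousLinearMap.snd ℝ ℝ (Z × V4))).prod
        (ContinuousLinearMap.snd ℝ Z V4 ∘L ContinuousLinearMap.snd ℝ ℝ (Z × V4)))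
      (δ, z, y) := by
    have e1 : HasFDerivAt (fun p : ℝ × Z × V4 => p.1) (ContinuousLinearMap.fst ℝ ℝ (Z × V4))
        (δ, z, y) := hasFDerivAt_fst
    have e2 : HasFDerivAt (fun p : ℝ × Z × V4 => p.2.1)
        (ContinuousLinearMap.fst ℝ Z V4 ∘L ContinuousLinearMap.snd ℝ ℝ (Z × V4)) (δ, z, y) :=
      hasFDerivAt_fst.comp _ hasFDerivAt_snd
    have e3 : HasFDerivAt (fun p : ℝ × Z × V4 => p.2.2)
        (ContinuousLinearMap.snd ℝ Z V4 ∘L ContinuousLinearMap.snd ℝ ℝ (Z × V4)) (δ, z, y) :=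
      hasFDerivAt_snd.comp _ hasFDerivAt_snd
    have e4 := (e1.smul e2).prodMk e3
    refine e4.congr_fderiv ?_
    ext v <;> simp only [add_comm, ContinuousLinearMap.comp_apply, ContinuousLinearMap.inl_apply, ContinuousLinearMap.prod_apply, add_apply, ContinuousLinearMap.smulRight_apply, ContinuousLinearMap.coe_fst', one_smul, smul_apply, ContinuousLinearMap.coe_snd', Prod.fst_zero, smul_zero, add_zero, Prod.snd_zero, Pi.zero_apply, ContinuousLinearMap.inr_apply, zero_smul]
  have hdH : HasFDerivAt (Function.uncurry H) (fderiv ℝ (Function.uncurry H) (δ • z, y))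
      (δ • z, y) := (hH.differentiable (by norm_num) _).hasFDerivAt
  have hdb : HasFDerivAt b (fderiv ℝ b (H (δ • z) y)) (H (δ • z) y) :=
    (hb.differentiable (by norm_num) _).hasFDerivAt
  have hd1 : HasFDerivAt (fun p : ℝ × Z × V4 => Function.uncurry H (p.1 • p.2.1, p.2.2)) _
      (δ, z, y) := HasFDerivAt.comp (δ, z, y) (g := Function.uncurry H) hdH hd0
  have hd2 : HasFDerivAt (fun p : ℝ × Z × V4 => b (Function.uncurry H (p.1 • p.2.1, p.2.2))) _
      (δ, z, y) := HasFDerivAt.comp (δ, z, y) (g := b) hdb hd1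
  have hdG : HasFDerivAt (fun p : ℝ × Z × V4 => G p.1 p.2.1 p.2.2)
      (fderiv ℝ (fun p : ℝ × Z × V4 => G p.1 p.2.1 p.2.2) (δ, z, y)) (δ, z, y) :=
    (hG.differentiable (by norm_num) _).hasFDerivAt
  have hd3 := hdG.clm_apply hd2
  have e := congrArg (fun L => L v) hd3.fderiv
  have e' : fderiv ℝ (fun p : ℝ × Z × V4 => G p.1 p.2.1 p.2.2 (b (H (p.1 • p.2.1) p.2.2)))
      (δ, z, y) v = _ := e
  rw [e']
  simp only [ContinuousLinearMap.add_apply, ContinuousLinearMap.comp_apply,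
    ContinuousLinearMap.flip_apply, Function.uncurry_apply_pair, ContinuousLinearMap.prod_apply,
    ContinuousLinearMap.smulRight_apply, ContinuousLinearMap.coe_fst',
    ContinuousLinearMap.coe_snd', ContinuousLinearMap.smul_apply]
  rw [add_comm]
  congr 1
  rw [clm_eq_sum (fderiv ℝ b (H (δ • z) y)), map_sum, add_comm (v.1 • z)]
  refine Finset.sum_congr rfl fun k _ => ?_
  rw [map_smul]
  rfl

/-- derivative of `TT` in a direction `(s, w)` of `(δ, y)` -/
theorem fderiv_TT {G : ℝ → Z → V4 → (L2 →L[ℝ] L2)} (hG : Amp G) {H : Z → V4 → V4}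
    (hH : ContDiff ℝ ∞ (Function.uncurry H)) {b : V4 → L2} (hb : ContDiff ℝ ∞ b)
    (δ : ℝ) (y : V4) (s : ℝ) (w : V4) :
    fderiv ℝ (fun p : ℝ × V4 => TT G H p.1 b p.2) (δ, y) (s, w) =
      TT (fun δ z y => fderiv ℝ (fun p : ℝ × Z × V4 => G p.1 p.2.1 p.2.2) (δ, z, y) (s, 0, w))
        H δ b y +
      ∑ k, TT (fun δ z y => fderiv ℝ (Function.uncurry H) (δ • z, y) (s • z, w) k • G δ z y)
        H δ (pdv k b) y := by
  have hfin : IsFiniteMeasure (volume.restrict (closedBall (0 : Z) 1)) :=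
    ⟨by rw [Measure.restrict_apply_univ]; exact (isCompact_closedBall _ _).measure_lt_top⟩
  have hnull : (volume.restrict (closedBall (0 : Z) 1)) (closedBall (0 : Z) 1)ᶜ = 0 := by
    rw [Measure.restrict_apply measurableSet_closedBall.compl]
    simp only [compl_inter_self, measure_empty]
  set f : Z → ℝ × V4 → L2 := fun z p => G p.1 z p.2 (b (H (p.1 • z) p.2)) with hf
  have hfs : ContDiff ℝ ∞ (Function.uncurry f) :=
    (contDiff_integrand hG.smooth hH hb).comp
      ((contDiff_fst.comp contDiff_snd).prodMk (contDiff_fst.prodMk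
        (contDiff_snd.comp contDiff_snd)))
  have h1 := hasFDerivAt_integral_param (S := Z) (F := ℝ × V4)
    (volume.restrict (closedBall (0 : Z) 1)) (isCompact_closedBall _ _) hnull hfs (δ, y)
  have h2 : (fun p : ℝ × V4 => TT G H p.1 b p.2) = fun p : ℝ × V4 =>
      ∫ z in closedBall (0 : Z) 1, f z p := by
    funext p; exact TT_eq_setIntegral hG H p.1 b p.2
  have hint : Integrable (fun z => fderiv ℝ (f z) (δ, y)) (volume.restrict (closedBall (0 : Z) 1)) := by
    have hc : Continuous fun z => fderiv ℝ (f z) (δ, y) :=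
      (contDiff_fderiv_snd hfs).continuous.comp (continuous_id.prodMk continuous_const)
    exact hc.continuousOn.integrableOn_compact (isCompact_closedBall _ _)
  rw [h2, h1.fderiv, ContinuousLinearMap.integral_apply hint]
  have hsa : Amp (fun δ z y => fderiv ℝ (fun p : ℝ × Z × V4 => G p.1 p.2.1 p.2.2) (δ, z, y)
      (s, 0, w)) := hG.dir contDiff_const
  have hsk : ∀ k, Amp (fun δ z y =>
      fderiv ℝ (Function.uncurry H) (δ • z, y) (s • z, w) k • G δ z y) := fun k =>
    hG.smul (c := fun δ z y => fderiv ℝ (Function.uncurry H) (δ • z, y) (s • z, w) k)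
      (contDiff_DH hH (v := fun p : ℝ × Z × V4 => (s • p.2.1, w))
        ((contDiff_const.smul (contDiff_fst.comp contDiff_snd)).prodMk contDiff_const) k)
  have hbk : ∀ k, Continuous (pdv k b) := fun k =>
    ((hb.fderiv_right (m := ∞) (by norm_num)).clm_apply contDiff_const).continuous
  rw [TT_eq_setIntegral hsa]
  have e3 : ∀ k ∈ Finset.univ, TT (fun δ z y => fderiv ℝ (Function.uncurry H) (δ • z, y)
      (s • z, w) k • G δ z y) H δ (pdv k b) y = ∫ z in closedBall (0 : Z) 1,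
      (fderiv ℝ (Function.uncurry H) (δ • z, y) (s • z, w) k • G δ z y)
        (pdv k b (H (δ • z) y)) := fun k _ => TT_eq_setIntegral (hsk k) H δ _ y
  rw [Finset.sum_congr rfl e3, ← integral_finset_sum _ (fun k _ =>
    (integrable_TT (hsk k) hH (hbk k) δ y).integrableOn), ← integral_add
    (integrable_TT hsa hH hb.continuous δ y).integrableOn
    (integrable_finset_sum _ fun k _ => (integrable_TT (hsk k) hH (hbk k) δ y).integrableOn)]
  refine integral_congr_ae (Eventually.of_forall fun z => ?_)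
  have h4 : f z = (fun p : ℝ × Z × V4 => G p.1 p.2.1 p.2.2 (b (H (p.1 • p.2.1) p.2.2))) ∘
      (fun p : ℝ × V4 => (p.1, z, p.2)) := rfl
  have h5 : HasFDerivAt (fun p : ℝ × V4 => (p.1, z, p.2))
      ((ContinuousLinearMap.fst ℝ ℝ V4).prod ((0 : ℝ × V4 →L[ℝ] Z).prod
        (ContinuousLinearMap.snd ℝ ℝ V4))) (δ, y) :=
    hasFDerivAt_fst.prodMk ((hasFDerivAt_const z _).prodMk hasFDerivAt_snd)
  have h6 : HasFDerivAt (fun p : ℝ × Z × V4 => G p.1 p.2.1 p.2.2 (b (H (p.1 • p.2.1) p.2.2)))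
      (fderiv ℝ (fun p : ℝ × Z × V4 => G p.1 p.2.1 p.2.2 (b (H (p.1 • p.2.1) p.2.2))) (δ, z, y))
      ((fun p : ℝ × V4 => (p.1, z, p.2)) (δ, y)) :=
    ((contDiff_integrand hG.smooth hH hb).differentiable (by norm_num) _).hasFDerivAt
  have h7 := (HasFDerivAt.comp (δ, y) h6 h5).fderiv
  simp only
  rw [h4, h7]
  have h8 := hasFDerivAt_integrand hG.smooth hH hb δ z y (s, 0, w)
  simp only [smul_zero, zero_add] at h8
  simpa only [ContinuousLinearMap.comp_apply, ContinuousLinearMap.prod_apply, ContinuousLinearMap.coe_fst', zero_apply, ContinuousLinearMap.coe_snd', smul_apply] using h8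

/-- derivative of `TT` in `y` -/
theorem pdv_TT {G : ℝ → Z → V4 → (L2 →L[ℝ] L2)} (hG : Amp G) {H : Z → V4 → V4}
    (hH : ContDiff ℝ ∞ (Function.uncurry H)) {b : V4 → L2} (hb : ContDiff ℝ ∞ b)
    (δ : ℝ) (i : Fin 4) :
    pdv i (TT G H δ b) = fun y => TT (Gy G i) H δ b y +
      ∑ k, TT (fun δ z y => Hy H i k δ z y • G δ z y) H δ (pdv k b) y := by
  funext y
  have h := fderiv_TT hG hH hb δ y 0 (Pi.single i 1)
  simp only [zero_smul] at h
  rw [pdv]
  have h5 : HasFDerivAt (fun y : V4 => (δ, y))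
      ((0 : V4 →L[ℝ] ℝ).prod (ContinuousLinearMap.id ℝ V4)) y :=
    (hasFDerivAt_const δ _).prodMk (hasFDerivAt_id y)
  have h6 : HasFDerivAt (fun p : ℝ × V4 => TT G H p.1 b p.2)
      (fderiv ℝ (fun p : ℝ × V4 => TT G H p.1 b p.2) (δ, y)) ((fun y : V4 => (δ, y)) y) :=
    ((contDiff_TT hG hH hb).differentiable (by norm_num) _).hasFDerivAt
  have h7 := HasFDerivAt.comp y (g := fun p : ℝ × V4 => TT G H p.1 b p.2) h6 h5
  have h8 : ((fun p : ℝ × V4 => TT G H p.1 b p.2) ∘ fun y : V4 => (δ, y)) = TT G H δ b := rfl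
  rw [h8] at h7
  rw [h7.fderiv]
  have h9 : ((fderiv ℝ (fun p : ℝ × V4 => TT G H p.1 b p.2) (δ, y)) ∘L
      ((0 : V4 →L[ℝ] ℝ).prod (ContinuousLinearMap.id ℝ V4))) (Pi.single i 1) =
      (fderiv ℝ (fun p : ℝ × V4 => TT G H p.1 b p.2) (δ, y)) (0, Pi.single i 1) := rfl
  rw [h9, h]
  rfl

end
end Vale.Agent.P204.GX
end

section
/-! Minkowski inequality for the norms `sob`, `supn`, and (O1). -/
open MeasureTheory Set Metric Filter
open scoped ContDiff ENNReal NNReal Topology

namespace Vale.Agent.P204.GX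
open Vale.Agent.P204.T4

theorem fderiv_eq_sum_pdv {E : Type} [NormedAddCommGroup E] [NormedSpace ℝ E] {f : V4 → E}
    (y v : V4) : fderiv ℝ f y v = ∑ i, v i • pdv i f y := fderiv_eq_sum_pv y v

theorem eLpNorm_two_sq {α E : Type*} [MeasurableSpace α] [NormedAddCommGroup E] (f : α → E)
    (μ : Measure α) : eLpNorm f 2 μ ^ 2 = ∫⁻ x, ‖f x‖ₑ ^ 2 ∂μ := by
  rw [eLpNorm_eq_lintegral_rpow_enorm_toReal (by norm_num) (by norm_num)]
  rw [← ENNReal.rpow_natCast, ← ENNReal.rpow_mul]
  simp only [ENNReal.toReal_ofNat, ENNReal.rpow_ofNat, one_div, Nat.cast_ofNat, ne_eq, OfNat.ofNat_ne_zero, not_false_eq_true, inv_mul_cancel₀, ENNReal.rpow_one]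

theorem lintegral_sq_le {α : Type*} [MeasurableSpace α] (ν : Measure α) {g : α → ℝ≥0∞}
    (hg : AEMeasurable g ν) : (∫⁻ x, g x ∂ν) ^ 2 ≤ ν univ * ∫⁻ x, g x ^ 2 ∂ν := by
  have h := ENNReal.lintegral_mul_le_Lp_mul_Lq ν Real.HolderConjugate.two_two
    (f := fun _ => (1 : ℝ≥0∞)) (g := g) aemeasurable_const hg
  simp only [Pi.mul_apply, one_mul, ENNReal.one_rpow, lintegral_const] at h
  have h2 := pow_le_pow_left' h 2
  refine h2.trans (le_of_eq ?_)
  rw [mul_pow, ← ENNReal.rpow_natCast, ← ENNReal.rpow_natCast, ← ENNReal.rpow_mul,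
    ← ENNReal.rpow_mul]
  simp only [one_div, Nat.cast_ofNat, ne_eq, OfNat.ofNat_ne_zero, not_false_eq_true, inv_mul_cancel₀, ENNReal.rpow_one, ENNReal.rpow_ofNat]

/-- Minkowski / Jensen -/
theorem eLpNorm_integral_le {S E : Type} [NormedAddCommGroup S] [NormedSpace ℝ S]
    [MeasurableSpace S] [BorelSpace S] [SecondCountableTopology S]
    [NormedAddCommGroup E] [NormedSpace ℝ E] (ν : Measure S) [IsFiniteMeasure ν] {K : Set V4}
    {F : S → V4 → E} (hF : Continuous (Function.uncurry F)) {c : ℝ≥0∞}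
    (h : ∀ᵐ s ∂ν, eLpNorm (F s) 2 (volume.restrict K) ≤ c) :
    eLpNorm (fun y => ∫ s, F s y ∂ν) 2 (volume.restrict K) ≤ ν univ * c := by
  rw [← ENNReal.pow_le_pow_left_iff two_ne_zero, eLpNorm_two_sq]
  have hm : Measurable (Function.uncurry fun (y : V4) (s : S) => ‖F s y‖ₑ ^ 2) := by
    have : Continuous fun p : V4 × S => ‖Function.uncurry F (p.2, p.1)‖ₑ :=
      continuous_enorm.comp (hF.comp (continuous_snd.prodMk continuous_fst))
    exact this.measurable.pow_const 2
  calc ∫⁻ y in K, ‖∫ s, F s y ∂ν‖ₑ ^ 2 ≤ ∫⁻ y in K, ν univ * ∫⁻ s, ‖F s y‖ₑ ^ 2 ∂ν := by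
        refine lintegral_mono fun y => ?_
        refine (pow_le_pow_left' (enorm_integral_le_lintegral_enorm _) 2).trans ?_
        refine lintegral_sq_le ν ?_
        have : Continuous fun s : S => ‖F s y‖ₑ :=
          continuous_enorm.comp (hF.comp (continuous_id.prodMk continuous_const))
        exact this.measurable.aemeasurable
    _ = ν univ * ∫⁻ y in K, ∫⁻ s, ‖F s y‖ₑ ^ 2 ∂ν := by
        rw [lintegral_const_mul' _ _ (measure_ne_top _ _)]
    _ = ν univ * ∫⁻ s, (∫⁻ y in K, ‖F s y‖ₑ ^ 2) ∂ν := by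
        rw [lintegral_lintegral_swap hm.aemeasurable]
    _ ≤ ν univ * ∫⁻ _, c ^ 2 ∂ν := by
        gcongr ν univ * ?_
        refine lintegral_mono_ae ?_
        filter_upwards [h] with s hs
        rw [← eLpNorm_two_sq]
        exact pow_le_pow_left' hs 2
    _ = (ν univ * c) ^ 2 := by
        rw [lintegral_const]; ring

section
variable {S E : Type} [NormedAddCommGroup S] [NormedSpace ℝ S] [MeasurableSpace S] [BorelSpace S]
  [SecondCountableTopology S] [NormedAddCommGroup E] [NormedSpace ℝ E]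

theorem pdv_integral [CompleteSpace E] (ν : Measure S) [IsFiniteMeasure ν] {K0 : Set S}
    (hK0 : IsCompact K0)
    (hν : ν K0ᶜ = 0) {F : S → V4 → E} (hF : ContDiff ℝ ∞ (Function.uncurry F)) (i : Fin 4) :
    pdv i (fun y => ∫ s, F s y ∂ν) = fun y => ∫ s, pdv i (F s) y ∂ν := by
  funext y
  have h := hasFDerivAt_integral_param ν hK0 hν hF y
  rw [pdv, h.fderiv, ContinuousLinearMap.integral_apply]
  · rfl
  · have hc : Continuous fun s => fderiv ℝ (F s) y :=
      (contDiff_fderiv_snd hF).continuous.comp (continuous_id.prodMk continuous_const)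
    obtain ⟨C, hC⟩ := hK0.exists_bound_of_continuousOn hc.continuousOn
    refine Integrable.of_bound hc.aestronglyMeasurable C ?_
    have hae : ∀ᵐ s ∂ν, s ∈ K0 := by rw [ae_iff]; exact hν
    filter_upwards [hae] with s hs using hC s hs

omit [MeasurableSpace S] [BorelSpace S] [SecondCountableTopology S] in
theorem contDiff_pv_param {F : S → V4 → E} (hF : ContDiff ℝ ∞ (Function.uncurry F))
    (i : Fin 4) : ContDiff ℝ ∞ (Function.uncurry fun s => pdv i (F s)) :=
  (contDiff_fderiv_snd hF).clm_apply contDiff_const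

/-- Minkowski inequality for the scaled Sobolev norms -/
theorem sob_integral_le [CompleteSpace E] (ν : Measure S) [IsFiniteMeasure ν] {K0 : Set S}
    (hK0 : IsCompact K0) (hν : ν K0ᶜ = 0) {K : Set V4} (δ' : ℝ) (m : ℕ) :
    ∀ {F : S → V4 → E}, ContDiff ℝ ∞ (Function.uncurry F) → ∀ {c : ℝ≥0∞},
    (∀ s ∈ K0, sob m δ' K (F s) ≤ c) →
    sob m δ' K (fun y => ∫ s, F s y ∂ν) ≤ 5 ^ m * (ν univ * c) := by
  have hae : ∀ᵐ s ∂ν, s ∈ K0 := by rw [ae_iff]; exact hν
  induction m with
  | zero =>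
    intro F hF c h
    rw [pow_zero, one_mul]
    refine eLpNorm_integral_le ν hF.continuous ?_
    filter_upwards [hae] with s hs using h s hs
  | succ m ih =>
    intro F hF c h
    have h1 : sob m δ' K (fun y => ∫ s, F s y ∂ν) ≤ 5 ^ m * (ν univ * c) :=
      ih hF fun s hs => (le_self_add).trans (h s hs)
    have h2 : ∀ i : Fin 4, ENNReal.ofReal δ' * sob m δ' K (pdv i (fun y => ∫ s, F s y ∂ν)) ≤
        5 ^ m * (ν univ * c) := by
      intro i
      rw [pdv_integral ν hK0 hν hF i]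
      rcases eq_or_ne (ENNReal.ofReal δ') 0 with h0 | h0
      · rw [h0, zero_mul]; exact bot_le
      have h3 : ∀ s ∈ K0, sob m δ' K (pdv i (F s)) ≤ c / ENNReal.ofReal δ' := by
        intro s hs
        rw [ENNReal.le_div_iff_mul_le (Or.inl h0) (Or.inl ENNReal.ofReal_ne_top), mul_comm]
        refine le_trans ?_ ((le_add_self).trans (h s hs))
        gcongr
        exact Finset.single_le_sum (f := fun i => sob m δ' K (pdv i (F s)))
          (fun _ _ => bot_le) (Finset.mem_univ i)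
      calc _ ≤ ENNReal.ofReal δ' * (5 ^ m * (ν univ * (c / ENNReal.ofReal δ'))) := by
            gcongr
            exact ih (contDiff_pv_param hF i) h3
        _ = 5 ^ m * (ν univ * (ENNReal.ofReal δ' * (c / ENNReal.ofReal δ'))) := by ring
        _ = _ := by rw [ENNReal.mul_div_cancel h0 ENNReal.ofReal_ne_top]
    calc sob m δ' K (fun y => ∫ s, F s y ∂ν) +
          ENNReal.ofReal δ' * ∑ i : Fin 4, sob m δ' K (pdv i (fun y => ∫ s, F s y ∂ν))
        = sob m δ' K (fun y => ∫ s, F s y ∂ν) +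
          ∑ i : Fin 4, ENNReal.ofReal δ' * sob m δ' K (pdv i (fun y => ∫ s, F s y ∂ν)) := by
          rw [Finset.mul_sum]
      _ ≤ 5 ^ m * (ν univ * c) + ∑ _i : Fin 4, 5 ^ m * (ν univ * c) :=
          add_le_add h1 (Finset.sum_le_sum fun i _ => h2 i)
      _ = 5 ^ (m + 1) * (ν univ * c) := by
          rw [Finset.sum_const, Finset.card_univ, Fintype.card_fin, pow_succ]
          simp only [nsmul_eq_mul, Nat.cast_ofNat]
          ring

/-- Minkowski inequality for the `C^m` norms -/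
theorem supn_integral_le [CompleteSpace E] (ν : Measure S) [IsFiniteMeasure ν] {K0 : Set S}
    (hK0 : IsCompact K0) (hν : ν K0ᶜ = 0) {K : Set V4} (m : ℕ) :
    ∀ {F : S → V4 → E}, ContDiff ℝ ∞ (Function.uncurry F) → ∀ {c : ℝ≥0∞},
    (∀ s ∈ K0, supn m K (F s) ≤ c) →
    supn m K (fun y => ∫ s, F s y ∂ν) ≤ 5 ^ m * (ν univ * c) := by
  have hae : ∀ᵐ s ∂ν, s ∈ K0 := by rw [ae_iff]; exact hν
  induction m with
  | zero =>
    intro F hF c h
    rw [pow_zero, one_mul]
    refine iSup₂_le fun y hy => ?_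
    refine (enorm_integral_le_lintegral_enorm _).trans ?_
    rw [mul_comm, ← lintegral_const]
    refine lintegral_mono_ae ?_
    filter_upwards [hae] with s hs
    exact (le_iSup₂ (f := fun y (_ : y ∈ K) => ‖F s y‖ₑ) y hy).trans (h s hs)
  | succ m ih =>
    intro F hF c h
    have h1 : supn m K (fun y => ∫ s, F s y ∂ν) ≤ 5 ^ m * (ν univ * c) :=
      ih hF fun s hs => (le_self_add).trans (h s hs)
    have h2 : ∀ i : Fin 4, supn m K (pdv i (fun y => ∫ s, F s y ∂ν)) ≤
        5 ^ m * (ν univ * c) := by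
      intro i
      rw [pdv_integral ν hK0 hν hF i]
      refine ih (contDiff_pv_param hF i) fun s hs => ?_
      refine le_trans ?_ ((le_add_self).trans (h s hs))
      exact Finset.single_le_sum (f := fun i => supn m K (pdv i (F s)))
        (fun _ _ => bot_le) (Finset.mem_univ i)
    calc supn m K (fun y => ∫ s, F s y ∂ν) +
          ∑ i : Fin 4, supn m K (pdv i (fun y => ∫ s, F s y ∂ν))
        ≤ 5 ^ m * (ν univ * c) + ∑ _i : Fin 4, 5 ^ m * (ν univ * c) :=
          add_le_add h1 (Finset.sum_le_sum fun i _ => h2 i)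
      _ = 5 ^ (m + 1) * (ν univ * c) := by
          rw [Finset.sum_const, Finset.card_univ, Fintype.card_fin, pow_succ]
          simp only [nsmul_eq_mul, Nat.cast_ofNat]
          ring

end

section
variable {Z : Type} [NormedAddCommGroup Z] [NormedSpace ℝ Z] [FiniteDimensional ℝ Z]
  [MeasureSpace Z] [BorelSpace Z] [(volume : Measure Z).IsAddHaarMeasure]

omit [MeasureSpace Z] [BorelSpace Z] [(volume : Measure Z).IsAddHaarMeasure] in
/-- amplitudes are bounded on compact sets of `(δ, z, y)` -/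
theorem Amp.bound {G : ℝ → Z → V4 → (L2 →L[ℝ] L2)} (hG : Amp G) (δ0 : ℝ) {K : Set V4}
    (hKb : Bornology.IsBounded K) : ∃ C : ℝ≥0, ∀ δ : ℝ, 0 ≤ δ → δ ≤ δ0 → ∀ z, ∀ y ∈ K,
      ‖G δ z y‖ₑ ≤ C := by
  have hc : IsCompact (Icc (0 : ℝ) δ0 ×ˢ (closedBall (0 : Z) 1 ×ˢ closure K)) :=
    isCompact_Icc.prod ((isCompact_closedBall _ _).prod hKb.isCompact_closure)
  obtain ⟨C, hC⟩ := hc.exists_bound_of_continuousOn hG.smooth.continuous.continuousOn
  refine ⟨C.toNNReal, fun δ h0 h1 z y hy => ?_⟩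
  by_cases hz : ‖z‖ ≤ 1
  · have h2 := hC (δ, z, y) ⟨⟨h0, h1⟩, by simpa only [mem_closedBall, dist_zero_right] using hz, subset_closure hy⟩
    have hC0 : 0 ≤ C := (norm_nonneg _).trans h2
    rw [← ofReal_norm_eq_enorm, ← ENNReal.ofReal_coe_nnreal, Real.coe_toNNReal _ hC0]
    exact ENNReal.ofReal_le_ofReal h2
  · rw [hG.supp δ z y (not_le.1 hz)]
    simp only [enorm_le_coe, nnnorm_zero, zero_le]

omit [FiniteDimensional ℝ Z] [MeasureSpace Z] [BorelSpace Z]
  [(volume : Measure Z).IsAddHaarMeasure] in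
theorem lintegral_comp_le' {H : Z → V4 → V4} {δ0 : ℝ} {K K' : Set V4} (h : Fam H δ0 K K')
    (hK : IsOpen K) (z : Z) (hz : ‖z‖ ≤ δ0) (f : V4 → ℝ≥0∞) :
    ∫⁻ y in K, f (H z y) ≤ 2 * ∫⁻ y in K', f y := by
  have hs : ContDiff ℝ ∞ (H z) := h.smooth.comp (contDiff_const.prodMk contDiff_id)
  have hd : ∀ y ∈ K, HasFDerivWithinAt (H z) (fderiv ℝ (H z) y) K y := fun y _ =>
    ((hs.differentiable (by norm_num) y).hasFDerivAt).hasFDerivWithinAt
  have h1 := lintegral_image_eq_lintegral_abs_det_fderiv_mul volume hK.measurableSet hd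
    (h.inj z hz) f
  have h2 : ∫⁻ y in H z '' K, f y ≤ ∫⁻ y in K', f y :=
    lintegral_mono_set (h.maps z hz).image_subset
  rw [h1] at h2
  calc ∫⁻ y in K, f (H z y) ≤ ∫⁻ y in K, 2 *
        (ENNReal.ofReal |(fderiv ℝ (H z) y).det| * f (H z y)) := by
        refine setLIntegral_mono' hK.measurableSet fun y hy => ?_
        have h3 := h.det z hz y hy
        have h4 : (1 : ℝ≥0∞) ≤ 2 * ENNReal.ofReal |(fderiv ℝ (H z) y).det| := by
          calc (1 : ℝ≥0∞) = 2 * ENNReal.ofReal (1 / 2) := by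
                rw [ENNReal.ofReal_div_of_pos (by norm_num)]
                simp only [ENNReal.ofReal_one, ENNReal.ofReal_ofNat, one_div, ne_eq, OfNat.ofNat_ne_zero, not_false_eq_true, ENNReal.ofNat_ne_top, ENNReal.mul_inv_cancel]
            _ ≤ _ := by gcongr
        calc f (H z y) = 1 * f (H z y) := (one_mul _).symm
          _ ≤ 2 * ENNReal.ofReal |(fderiv ℝ (H z) y).det| * f (H z y) := by gcongr
          _ = _ := mul_assoc _ _ _
    _ = 2 * ∫⁻ y in K, ENNReal.ofReal |(fderiv ℝ (H z) y).det| * f (H z y) :=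
        lintegral_const_mul' _ _ (by norm_num)
    _ ≤ _ := by gcongr

omit [FiniteDimensional ℝ Z] [MeasureSpace Z] [BorelSpace Z]
  [(volume : Measure Z).IsAddHaarMeasure] in
theorem eLpNorm_comp_le {H : Z → V4 → V4} {δ0 : ℝ} {K K' : Set V4} (h : Fam H δ0 K K')
    (hK : IsOpen K) (z : Z) (hz : ‖z‖ ≤ δ0) {C : ℝ≥0} {g : V4 → (L2 →L[ℝ] L2)}
    (hg : ∀ y ∈ K, ‖g y‖ₑ ≤ C) (b : V4 → L2) :
    eLpNorm (fun y => g y (b (H z y))) 2 (volume.restrict K) ≤
      C * 2 * eLpNorm b 2 (volume.restrict K') := by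
  rw [← ENNReal.pow_le_pow_left_iff two_ne_zero, eLpNorm_two_sq, mul_pow, eLpNorm_two_sq]
  calc ∫⁻ y in K, ‖g y (b (H z y))‖ₑ ^ 2 ≤ ∫⁻ y in K, (C : ℝ≥0∞) ^ 2 * ‖b (H z y)‖ₑ ^ 2 := by
        refine setLIntegral_mono' hK.measurableSet fun y hy => ?_
        rw [← mul_pow]
        refine pow_le_pow_left' (((g y).le_opENorm _).trans ?_) 2
        gcongr
        exact hg y hy
    _ = (C : ℝ≥0∞) ^ 2 * ∫⁻ y in K, ‖b (H z y)‖ₑ ^ 2 := lintegral_const_mul' _ _ (by simp only [ne_eq, ENNReal.pow_eq_top_iff, ENNReal.coe_ne_top, OfNat.ofNat_ne_zero, not_false_eq_true, and_true])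
    _ ≤ (C : ℝ≥0∞) ^ 2 * (2 * ∫⁻ y in K', ‖b y‖ₑ ^ 2) := by
        gcongr
        exact lintegral_comp_le' h hK z hz (fun y => ‖b y‖ₑ ^ 2)
    _ ≤ (C * 2) ^ 2 * ∫⁻ y in K', ‖b y‖ₑ ^ 2 := by
        rw [← mul_assoc]
        gcongr
        rw [mul_pow]
        gcongr
        norm_num

theorem vol_ball_ne_top : (volume.restrict (closedBall (0 : Z) 1)) univ ≠ ⊤ := by
  rw [Measure.restrict_apply_univ]; exact (isCompact_closedBall _ _).measure_lt_top.ne

/-- the base case of (O1) -/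
theorem sob_zero_TT {H : Z → V4 → V4} {δ0 : ℝ} {K K' : Set V4} (h : Fam H δ0 K K')
    (hK : IsOpen K) (hKb : Bornology.IsBounded K) {G : ℝ → Z → V4 → (L2 →L[ℝ] L2)}
    (hG : Amp G) : ∃ C : ℝ≥0, ∀ δ δ' : ℝ, 0 ≤ δ → δ ≤ δ0 → ∀ b : V4 → L2, Continuous b →
      sob 0 δ' K (TT G H δ b) ≤ C * sob 0 δ' K' b := by
  obtain ⟨C, hC⟩ := hG.bound δ0 hKb
  set ν : Measure Z := volume.restrict (closedBall (0 : Z) 1) with hν
  have hνt : ν univ ≠ ⊤ := vol_ball_ne_top
  have : IsFiniteMeasure ν := ⟨lt_top_iff_ne_top.2 hνt⟩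
  refine ⟨(ν univ).toNNReal * (C * 2), fun δ δ' h0 h1 b hb => ?_⟩
  have e : TT G H δ b = fun y => ∫ z, G δ z y (b (H (δ • z) y)) ∂ν := by
    funext y; exact TT_eq_setIntegral hG H δ b y
  have hcont : Continuous (Function.uncurry fun z y => G δ z y (b (H (δ • z) y))) := by
    have c1 : Continuous fun p : Z × V4 => G δ p.1 p.2 :=
      hG.smooth.continuous.comp (continuous_const.prodMk (continuous_fst.prodMk continuous_snd))
    have c2 : Continuous fun p : Z × V4 => H (δ • p.1) p.2 :=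
      h.smooth.continuous.comp ((continuous_fst.const_smul δ).prodMk continuous_snd)
    exact c1.clm_apply (hb.comp c2)
  change eLpNorm (TT G H δ b) 2 (volume.restrict K) ≤ _ * eLpNorm b 2 (volume.restrict K')
  rw [e]
  have hae : ∀ᵐ z ∂ν, z ∈ closedBall (0 : Z) 1 := ae_restrict_mem measurableSet_closedBall
  refine (eLpNorm_integral_le ν hcont (c := C * 2 * eLpNorm b 2 (volume.restrict K')) ?_).trans
    (le_of_eq ?_)
  · filter_upwards [hae] with z hz
    have hz' : ‖z‖ ≤ 1 := by simpa only [mem_closedBall, dist_zero_right] using hz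
    refine eLpNorm_comp_le h hK (δ • z) ?_ (fun y hy => hC δ h0 h1 z y hy) b
    rw [norm_smul, Real.norm_of_nonneg h0]
    linarith only [mul_nonneg (sub_nonneg.2 h0) (sub_nonneg.2 hz'), h1]
  · rw [ENNReal.coe_mul, ENNReal.coe_mul, ENNReal.coe_toNNReal hνt]
    push_cast
    ring

/-- finite sums for `sob` -/
theorem sob_sum {ι : Type*} (s : Finset ι) (m : ℕ) (δ : ℝ) (K : Set V4) {f : ι → V4 → L2}
    (hf : ∀ i ∈ s, ContDiff ℝ ∞ (f i)) :
    sob m δ K (fun y => ∑ i ∈ s, f i y) ≤ ∑ i ∈ s, sob m δ K (f i) := by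
  classical
  induction s using Finset.induction_on with
  | empty =>
    simp only [Finset.sum_empty]
    have h := sob_smul m δ K (0 : ℝ) (f := fun _ : V4 => (0 : L2)) contDiff_const
    simp only [smul_zero, abs_zero, ENNReal.ofReal_zero, zero_mul] at h
    rw [h]
  | insert a s ha ih =>
    simp only [Finset.sum_insert ha]
    refine (sob_add m δ K (hf a (Finset.mem_insert_self _ _))
      (ContDiff.sum fun i hi => hf i (Finset.mem_insert_of_mem hi))).trans ?_
    gcongr
    exact ih fun i hi => hf i (Finset.mem_insert_of_mem hi)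

theorem supn_sum {ι : Type*} (s : Finset ι) (m : ℕ) (K : Set V4) {f : ι → V4 → L2}
    (hf : ∀ i ∈ s, ContDiff ℝ ∞ (f i)) :
    supn m K (fun y => ∑ i ∈ s, f i y) ≤ ∑ i ∈ s, supn m K (f i) := by
  classical
  induction s using Finset.induction_on with
  | empty =>
    simp only [Finset.sum_empty]
    have h := supn_smul m K (0 : ℝ) (f := fun _ : V4 => (0 : L2)) contDiff_const
    simp only [smul_zero, abs_zero, ENNReal.ofReal_zero, zero_mul] at h
    rw [h]
  | insert a s ha ih =>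
    simp only [Finset.sum_insert ha]
    refine (supn_add m K (hf a (Finset.mem_insert_self _ _))
      (ContDiff.sum fun i hi => hf i (Finset.mem_insert_of_mem hi))).trans ?_
    gcongr
    exact ih fun i hi => hf i (Finset.mem_insert_of_mem hi)

/-- (O1) -/
theorem sob_TT' {H : Z → V4 → V4} {δ0 : ℝ} {K K' : Set V4} (h : Fam H δ0 K K') (hK : IsOpen K)
    (hKb : Bornology.IsBounded K) (m : ℕ) : ∀ {G : ℝ → Z → V4 → (L2 →L[ℝ] L2)}, Amp G →
    ∃ C : ℝ≥0, ∀ δ δ' : ℝ, 0 ≤ δ → δ ≤ δ0 → δ' ≤ 1 → ∀ b : V4 → L2, ContDiff ℝ ∞ b →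
      sob m δ' K (TT G H δ b) ≤ C * sob m δ' K' b := by
  induction m with
  | zero =>
    intro G hG
    obtain ⟨C, hC⟩ := sob_zero_TT h hK hKb hG
    exact ⟨C, fun δ δ' h0 h1 _ b hb => hC δ δ' h0 h1 b hb.continuous⟩
  | succ m ih =>
    intro G hG
    obtain ⟨C0, hC0⟩ := ih hG
    have hA : ∀ i, Amp (Gy G i) := fun i => hG.Gy i
    have hB : ∀ i k, Amp (fun δ z y => Hy H i k δ z y • G δ z y) := fun i k =>
      hG.smul (contDiff_Hy h.smooth i k)
    choose C1 hC1 using fun i => ih (hA i)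
    choose C2 hC2 using fun i k => ih (hB i k)
    refine ⟨C0 + ∑ i, (C1 i + ∑ k, C2 i k), fun δ δ' h0 h1 h2 b hb => ?_⟩
    have hbk : ∀ k, ContDiff ℝ ∞ (pdv k b) := contDiff_pdv hb
    have hsm : sob m δ' K' b ≤ sob (m + 1) δ' K' b := le_self_add
    have hsk : ∀ k, ENNReal.ofReal δ' * sob m δ' K' (pdv k b) ≤ sob (m + 1) δ' K' b := by
      intro k
      refine le_trans ?_ le_add_self
      gcongr
      exact Finset.single_le_sum (f := fun i => sob m δ' K' (pdv i b))
        (fun _ _ => bot_le) (Finset.mem_univ k)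
    have hδ1 : ENNReal.ofReal δ' ≤ 1 := by
      rw [← ENNReal.ofReal_one]; exact ENNReal.ofReal_le_ofReal h2
    have hi : ∀ i, ENNReal.ofReal δ' * sob m δ' K (pdv i (TT G H δ b)) ≤
        (C1 i + ∑ k, C2 i k) * sob (m + 1) δ' K' b := by
      intro i
      rw [pdv_TT hG h.smooth hb δ i]
      have s1 := contDiff_TT_right (hA i) h.smooth hb δ
      have s2 : ∀ k, ContDiff ℝ ∞ (TT (fun δ z y => Hy H i k δ z y • G δ z y) H δ (pdv k b)) :=
        fun k => contDiff_TT_right (hB i k) h.smooth (hbk k) δ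
      calc _ ≤ ENNReal.ofReal δ' * (sob m δ' K (TT (Gy G i) H δ b) +
            ∑ k, sob m δ' K (TT (fun δ z y => Hy H i k δ z y • G δ z y) H δ (pdv k b))) := by
            gcongr
            refine (sob_add m δ' K s1 (ContDiff.sum fun k _ => s2 k)).trans ?_
            gcongr
            exact sob_sum _ m δ' K fun k _ => s2 k
        _ ≤ ENNReal.ofReal δ' * (C1 i * sob m δ' K' b + ∑ k, C2 i k * sob m δ' K' (pdv k b)) := by
            gcongr with k
            · exact hC1 i δ δ' h0 h1 h2 b hb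
            · exact hC2 i k δ δ' h0 h1 h2 _ (hbk k)
        _ = C1 i * (ENNReal.ofReal δ' * sob m δ' K' b) +
            ∑ k, C2 i k * (ENNReal.ofReal δ' * sob m δ' K' (pdv k b)) := by
            rw [mul_add, Finset.mul_sum]
            congr 1
            · ring
            · exact Finset.sum_congr rfl fun k _ => by ring
        _ ≤ C1 i * sob (m + 1) δ' K' b + ∑ k, C2 i k * sob (m + 1) δ' K' b := by
            gcongr with k
            · calc _ ≤ 1 * sob m δ' K' b := by gcongr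
                _ ≤ _ := by rw [one_mul]; exact hsm
            · exact hsk k
        _ = _ := by push_cast; rw [add_mul, Finset.sum_mul]
    calc sob m δ' K (TT G H δ b) + ENNReal.ofReal δ' * ∑ i : Fin 4, sob m δ' K (pdv i (TT G H δ b))
        = sob m δ' K (TT G H δ b) +
          ∑ i : Fin 4, ENNReal.ofReal δ' * sob m δ' K (pdv i (TT G H δ b)) := by
          rw [Finset.mul_sum]
      _ ≤ C0 * sob (m + 1) δ' K' b +
          ∑ i, ((C1 i + ∑ k, C2 i k : ℝ≥0) : ℝ≥0∞) * sob (m + 1) δ' K' b :=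
          add_le_add ((hC0 δ δ' h0 h1 h2 b hb).trans (by gcongr))
            (Finset.sum_le_sum fun i _ => by
              refine (hi i).trans (le_of_eq ?_)
              push_cast
              rfl)
      _ = _ := by
          rw [← Finset.sum_mul, ← add_mul]
          push_cast
          rfl

theorem supn_TT' {H : Z → V4 → V4} {δ0 : ℝ} {K K' : Set V4} (h : Fam H δ0 K K')
    (hKb : Bornology.IsBounded K) (m : ℕ) : ∀ {G : ℝ → Z → V4 → (L2 →L[ℝ] L2)}, Amp G →
    ∃ C : ℝ≥0, ∀ δ : ℝ, 0 ≤ δ → δ ≤ δ0 → ∀ b : V4 → L2, ContDiff ℝ ∞ b →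
      supn m K (TT G H δ b) ≤ C * supn m K' b := by
  induction m with
  | zero =>
    intro G hG
    obtain ⟨C, hC⟩ := hG.bound δ0 hKb
    set ν : Measure Z := volume.restrict (closedBall (0 : Z) 1) with hν
    have hνt : ν univ ≠ ⊤ := vol_ball_ne_top
    refine ⟨(ν univ).toNNReal * C, fun δ h0 h1 b hb => iSup₂_le fun y hy => ?_⟩
    rw [TT_eq_setIntegral hG]
    refine (enorm_integral_le_lintegral_enorm _).trans ?_
    have hae : ∀ᵐ z ∂ν, z ∈ closedBall (0 : Z) 1 := ae_restrict_mem measurableSet_closedBall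
    calc _ ≤ ∫⁻ _, C * supn 0 K' b ∂ν := by
          refine lintegral_mono_ae ?_
          filter_upwards [hae] with z hz
          have hz' : ‖z‖ ≤ 1 := by simpa only [mem_closedBall, dist_zero_right] using hz
          refine ((G δ z y).le_opENorm _).trans ?_
          gcongr
          · exact hC δ h0 h1 z y hy
          · have hm : H (δ • z) y ∈ K' := h.maps (δ • z) (by
              rw [norm_smul, Real.norm_of_nonneg h0]; linarith only [mul_nonneg (sub_nonneg.2 h0) (sub_nonneg.2 hz'), h1]) hy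
            exact le_iSup₂ (f := fun y (_ : y ∈ K') => ‖b y‖ₑ) _ hm
      _ = _ := by
          rw [lintegral_const, ENNReal.coe_mul, ENNReal.coe_toNNReal hνt]; ring
  | succ m ih =>
    intro G hG
    obtain ⟨C0, hC0⟩ := ih hG
    have hA : ∀ i, Amp (Gy G i) := fun i => hG.Gy i
    have hB : ∀ i k, Amp (fun δ z y => Hy H i k δ z y • G δ z y) := fun i k =>
      hG.smul (contDiff_Hy h.smooth i k)
    choose C1 hC1 using fun i => ih (hA i)
    choose C2 hC2 using fun i k => ih (hB i k)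
    refine ⟨C0 + ∑ i, (C1 i + ∑ k, C2 i k), fun δ h0 h1 b hb => ?_⟩
    have hbk : ∀ k, ContDiff ℝ ∞ (pdv k b) := contDiff_pdv hb
    have hsm : supn m K' b ≤ supn (m + 1) K' b := le_self_add
    have hsk : ∀ k, supn m K' (pdv k b) ≤ supn (m + 1) K' b := by
      intro k
      refine le_trans ?_ le_add_self
      exact Finset.single_le_sum (f := fun i => supn m K' (pdv i b))
        (fun _ _ => bot_le) (Finset.mem_univ k)
    have hi : ∀ i, supn m K (pdv i (TT G H δ b)) ≤
        (C1 i + ∑ k, C2 i k) * supn (m + 1) K' b := by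
      intro i
      rw [pdv_TT hG h.smooth hb δ i]
      have s1 := contDiff_TT_right (hA i) h.smooth hb δ
      have s2 : ∀ k, ContDiff ℝ ∞ (TT (fun δ z y => Hy H i k δ z y • G δ z y) H δ (pdv k b)) :=
        fun k => contDiff_TT_right (hB i k) h.smooth (hbk k) δ
      calc _ ≤ supn m K (TT (Gy G i) H δ b) +
            ∑ k, supn m K (TT (fun δ z y => Hy H i k δ z y • G δ z y) H δ (pdv k b)) := by
            refine (supn_add m K s1 (ContDiff.sum fun k _ => s2 k)).trans ?_
            gcongr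
            exact supn_sum _ m K fun k _ => s2 k
        _ ≤ C1 i * supn m K' b + ∑ k, C2 i k * supn m K' (pdv k b) := by
            gcongr with k
            · exact hC1 i δ h0 h1 b hb
            · exact hC2 i k δ h0 h1 _ (hbk k)
        _ ≤ C1 i * supn (m + 1) K' b + ∑ k, C2 i k * supn (m + 1) K' b := by
            gcongr with k
            exact hsk k
        _ = _ := by push_cast; rw [add_mul, Finset.sum_mul]
    calc supn m K (TT G H δ b) + ∑ i : Fin 4, supn m K (pdv i (TT G H δ b))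
        ≤ C0 * supn (m + 1) K' b +
          ∑ i, ((C1 i + ∑ k, C2 i k : ℝ≥0) : ℝ≥0∞) * supn (m + 1) K' b :=
          add_le_add ((hC0 δ h0 h1 b hb).trans (by gcongr))
            (Finset.sum_le_sum fun i _ => by
              refine (hi i).trans (le_of_eq ?_)
              push_cast
              rfl)
      _ = _ := by
          rw [← Finset.sum_mul, ← add_mul]
          push_cast
          rfl

end
end Vale.Agent.P204.GX
end

section
/-! (O2): `b - S_δ b` gains `δ / δ'` with the loss of one derivative. -/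
open MeasureTheory Set Metric Filter
open scoped ContDiff ENNReal NNReal Topology

namespace Vale.Agent.P204.GX
open Vale.Agent.P204.T4

section
variable {Z : Type} [NormedAddCommGroup Z] [NormedSpace ℝ Z] [FiniteDimensional ℝ Z]
  [MeasureSpace Z] [BorelSpace Z] [(volume : Measure Z).IsAddHaarMeasure]

/-- the derivative of the amplitude in `δ` -/
noncomputable def Gs (G : ℝ → Z → V4 → (L2 →L[ℝ] L2)) (δ : ℝ) (z : Z) (y : V4) :
    L2 →L[ℝ] L2 :=
  fderiv ℝ (fun p : ℝ × Z × V4 => G p.1 p.2.1 p.2.2) (δ, z, y) (1, 0, 0)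

/-- the derivative of the `k`-th component of `H (δ • z) y` in `δ` -/
noncomputable def Hs (H : Z → V4 → V4) (k : Fin 4) (δ : ℝ) (z : Z) (y : V4) : ℝ :=
  fderiv ℝ (Function.uncurry H) (δ • z, y) (z, 0) k

omit [FiniteDimensional ℝ Z] [MeasureSpace Z] [BorelSpace Z]
  [(volume : Measure Z).IsAddHaarMeasure] in
theorem Amp.Gs {G : ℝ → Z → V4 → (L2 →L[ℝ] L2)} (hG : Amp G) : Amp (Gs G) :=
  hG.dir contDiff_const

omit [FiniteDimensional ℝ Z] [MeasureSpace Z] [BorelSpace Z]
  [(volume : Measure Z).IsAddHaarMeasure] in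
theorem contDiff_Hs {H : Z → V4 → V4} (hH : ContDiff ℝ ∞ (Function.uncurry H)) (k : Fin 4) :
    ContDiff ℝ ∞ (fun p : ℝ × Z × V4 => Hs H k p.1 p.2.1 p.2.2) :=
  contDiff_DH hH (v := fun p : ℝ × Z × V4 => (p.2.1, (0 : V4)))
    ((contDiff_fst.comp contDiff_snd).prodMk contDiff_const) k

/-- the derivative of `TT` in `δ` -/
noncomputable def DT (G : ℝ → Z → V4 → (L2 →L[ℝ] L2)) (H : Z → V4 → V4) (b : V4 → L2)
    (s : ℝ) (y : V4) : L2 :=
  TT (Gs G) H s b y + ∑ k, TT (fun δ z y => Hs H k δ z y • G δ z y) H s (pdv k b) y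

theorem contDiff_DT {G : ℝ → Z → V4 → (L2 →L[ℝ] L2)} (hG : Amp G) {H : Z → V4 → V4}
    (hH : ContDiff ℝ ∞ (Function.uncurry H)) {b : V4 → L2} (hb : ContDiff ℝ ∞ b) :
    ContDiff ℝ ∞ (Function.uncurry (DT G H b)) := by
  have h1 := contDiff_TT hG.Gs hH hb
  have h2 : ∀ k, ContDiff ℝ ∞ (fun p : ℝ × V4 =>
      TT (fun δ z y => Hs H k δ z y • G δ z y) H p.1 (pdv k b) p.2) := fun k =>
    contDiff_TT (hG.smul (contDiff_Hs hH k)) hH (contDiff_pdv hb k)
  exact h1.add (ContDiff.sum fun k _ => h2 k)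

theorem hasDerivAt_TT {G : ℝ → Z → V4 → (L2 →L[ℝ] L2)} (hG : Amp G) {H : Z → V4 → V4}
    (hH : ContDiff ℝ ∞ (Function.uncurry H)) {b : V4 → L2} (hb : ContDiff ℝ ∞ b)
    (s : ℝ) (y : V4) : HasDerivAt (fun s => TT G H s b y) (DT G H b s y) s := by
  have h := fderiv_TT hG hH hb s y 1 0
  simp only [one_smul] at h
  have h5 : HasDerivAt (fun s : ℝ => (s, y)) ((1 : ℝ), (0 : V4)) s :=
    (hasDerivAt_id s).prodMk (hasDerivAt_const s y)
  have h6 : HasFDerivAt (fun p : ℝ × V4 => TT G H p.1 b p.2)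
      (fderiv ℝ (fun p : ℝ × V4 => TT G H p.1 b p.2) (s, y)) ((fun s : ℝ => (s, y)) s) :=
    ((contDiff_TT hG hH hb).differentiable (by norm_num) _).hasFDerivAt
  have h7 := HasFDerivAt.comp_hasDerivAt s h6 h5
  rw [h] at h7
  exact h7

theorem TT_sub_eq {G : ℝ → Z → V4 → (L2 →L[ℝ] L2)} (hG : Amp G) {H : Z → V4 → V4}
    (hH : ContDiff ℝ ∞ (Function.uncurry H)) {b : V4 → L2} (hb : ContDiff ℝ ∞ b)
    {δ : ℝ} (hδ : 0 ≤ δ) (y : V4) :
    TT G H δ b y - TT G H 0 b y = ∫ s in Ioc 0 δ, DT G H b s y := by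
  rw [← intervalIntegral.integral_of_le hδ]
  have hc : Continuous fun s => DT G H b s y :=
    (contDiff_DT hG hH hb).continuous.comp (continuous_id.prodMk continuous_const)
  rw [intervalIntegral.integral_eq_sub_of_hasDerivAt (fun s _ => hasDerivAt_TT hG hH hb s y)
    (hc.intervalIntegrable _ _)]

/-- the amplitude of the normalised smoothing operator -/
noncomputable def GP (ρ : Z → ℝ) (P : Z → V4 → (L2 →L[ℝ] L2)) (δ : ℝ) (z : Z) (y : V4) :
    L2 →L[ℝ] L2 := ρ z • P (δ • z) y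

omit [FiniteDimensional ℝ Z] [BorelSpace Z] [(volume : Measure Z).IsAddHaarMeasure] in
theorem Amp.GP {ρ : Z → ℝ} (hρ : Bump ρ) {P : Z → V4 → (L2 →L[ℝ] L2)}
    (hP : ContDiff ℝ ∞ (Function.uncurry P)) : Amp (GP ρ P) := by
  constructor
  · have h0 : ContDiff ℝ ∞ (fun p : ℝ × Z × V4 => (p.1 • p.2.1, p.2.2)) :=
      (contDiff_fst.smul (contDiff_fst.comp contDiff_snd)).prodMk
        (contDiff_snd.comp contDiff_snd)
    exact (hρ.smooth.comp (contDiff_fst.comp contDiff_snd)).smul (hP.comp h0)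
  · intro δ z y hz
    show ρ z • P (δ • z) y = 0
    rw [hρ.supp z hz, zero_smul]

omit [FiniteDimensional ℝ Z] [BorelSpace Z] [(volume : Measure Z).IsAddHaarMeasure] in
theorem TT_GP_zero {ρ : Z → ℝ} (hρ : Bump ρ) {P : Z → V4 → (L2 →L[ℝ] L2)}
    (hP0 : ∀ y, P 0 y = ContinuousLinearMap.id ℝ L2) {H : Z → V4 → V4}
    (h0 : ∀ y, H 0 y = y) (b : V4 → L2) (y : V4) : TT (GP ρ P) H 0 b y = b y := by
  have h : ∀ z, (GP ρ P 0 z y) (b (H ((0 : ℝ) • z) y)) = ρ z • b y := by
    intro z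
    rw [GP, zero_smul, h0, hP0]
    simp
  rw [TT, integral_congr_ae (Eventually.of_forall h), integral_smul_const, hρ.int, one_smul]

theorem sob_TT_sub {H : Z → V4 → V4} {δ0 : ℝ} {K K' : Set V4} (h : Fam H δ0 K K')
    (hK : IsOpen K) (hKb : Bornology.IsBounded K) {G : ℝ → Z → V4 → (L2 →L[ℝ] L2)}
    (hG : Amp G) (m : ℕ) :
    ∃ C : ℝ≥0, ∀ δ δ' : ℝ, 0 ≤ δ → δ ≤ δ0 → 0 < δ' → δ' ≤ 1 → ∀ b : V4 → L2, ContDiff ℝ ∞ b →
      sob m δ' K (fun y => TT G H δ b y - TT G H 0 b y) ≤
        C * ENNReal.ofReal (δ / δ') * sob (m + 1) δ' K' b := by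
  obtain ⟨C0, hC0⟩ := sob_TT' h hK hKb m hG.Gs
  choose C1 hC1 using fun k => sob_TT' h hK hKb m (hG.smul (contDiff_Hs h.smooth k))
  refine ⟨5 ^ m * (C0 + ∑ k, C1 k), fun δ δ' h0 h1 h2 h3 b hb => ?_⟩
  have hbk : ∀ k, ContDiff ℝ ∞ (pdv k b) := contDiff_pdv hb
  have e : (fun y => TT G H δ b y - TT G H 0 b y) = fun y => ∫ s in Ioc 0 δ, DT G H b s y := by
    funext y; exact TT_sub_eq hG h.smooth hb h0 y
  rw [e]
  have hfin : IsFiniteMeasure (volume.restrict (Ioc 0 δ)) :=
    ⟨by rw [Measure.restrict_apply_univ]; exact measure_Ioc_lt_top⟩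
  have hν : (volume.restrict (Ioc 0 δ)) (Icc 0 δ)ᶜ = 0 := by
    rw [Measure.restrict_apply measurableSet_Icc.compl]
    have : (Icc 0 δ)ᶜ ∩ Ioc 0 δ = ∅ := by
      ext x; simp only [mem_inter_iff, mem_compl_iff, mem_Icc, mem_Ioc, mem_empty_iff_false,
        iff_false]
      rintro ⟨a1, a2, a3⟩; exact a1 ⟨a2.le, a3⟩
    rw [this, measure_empty]
  set A := sob (m + 1) δ' K' b with hA
  have hδ0 : ENNReal.ofReal δ' ≠ 0 := by simpa only [ne_eq, ENNReal.ofReal_eq_zero, not_le] using h2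
  have hδt : ENNReal.ofReal δ' ≠ ⊤ := ENNReal.ofReal_ne_top
  have hδ1 : ENNReal.ofReal δ' ≤ 1 := by
    rw [← ENNReal.ofReal_one]; exact ENNReal.ofReal_le_ofReal h3
  have ha0 : sob m δ' K' b ≤ A / ENNReal.ofReal δ' := by
    rw [ENNReal.le_div_iff_mul_le (Or.inl hδ0) (Or.inl hδt)]
    calc _ ≤ sob m δ' K' b * 1 := by gcongr
      _ ≤ A := by rw [mul_one]; exact sob_succ m δ' K' b
  have hak : ∀ k, sob m δ' K' (pdv k b) ≤ A / ENNReal.ofReal δ' := by
    intro k
    rw [ENNReal.le_div_iff_mul_le (Or.inl hδ0) (Or.inl hδt), mul_comm]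
    refine le_trans ?_ le_add_self
    gcongr
    exact Finset.single_le_sum (f := fun i => sob m δ' K' (pdv i b))
      (fun _ _ => bot_le) (Finset.mem_univ k)
  have hb1 : ∀ s ∈ Icc 0 δ, sob m δ' K (DT G H b s) ≤
      (C0 + ∑ k, C1 k : ℝ≥0) * (A / ENNReal.ofReal δ') := by
    intro s hs
    have s1 := contDiff_TT_right hG.Gs h.smooth hb s
    have s2 : ∀ k, ContDiff ℝ ∞ (TT (fun δ z y => Hs H k δ z y • G δ z y) H s (pdv k b)) :=
      fun k => contDiff_TT_right (hG.smul (contDiff_Hs h.smooth k)) h.smooth (hbk k) s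
    have hsδ : s ≤ δ0 := hs.2.trans h1
    calc sob m δ' K (DT G H b s) ≤ sob m δ' K (TT (Gs G) H s b) +
          ∑ k, sob m δ' K (TT (fun δ z y => Hs H k δ z y • G δ z y) H s (pdv k b)) := by
          refine (sob_add m δ' K s1 (ContDiff.sum fun k _ => s2 k)).trans ?_
          gcongr
          exact sob_sum _ m δ' K fun k _ => s2 k
      _ ≤ C0 * (A / ENNReal.ofReal δ') + ∑ k, C1 k * (A / ENNReal.ofReal δ') := by
          refine add_le_add ?_ (Finset.sum_le_sum fun k _ => ?_)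
          · exact (hC0 s δ' hs.1 hsδ h3 b hb).trans (by gcongr)
          · exact (hC1 k s δ' hs.1 hsδ h3 _ (hbk k)).trans (by gcongr; exact hak k)
      _ = _ := by
          push_cast
          rw [add_mul, Finset.sum_mul]
  have h5 := sob_integral_le (volume.restrict (Ioc 0 δ)) isCompact_Icc hν δ' m
    (contDiff_DT hG h.smooth hb) hb1
  refine h5.trans (le_of_eq ?_)
  rw [Measure.restrict_apply_univ, Real.volume_Ioc, sub_zero, ENNReal.ofReal_div_of_pos h2]
  push_cast
  simp only [div_eq_mul_inv]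
  ring

theorem supn_TT_sub {H : Z → V4 → V4} {δ0 : ℝ} {K K' : Set V4} (h : Fam H δ0 K K')
    (hKb : Bornology.IsBounded K) {G : ℝ → Z → V4 → (L2 →L[ℝ] L2)}
    (hG : Amp G) (m : ℕ) :
    ∃ C : ℝ≥0, ∀ δ : ℝ, 0 ≤ δ → δ ≤ δ0 → ∀ b : V4 → L2, ContDiff ℝ ∞ b →
      supn m K (fun y => TT G H δ b y - TT G H 0 b y) ≤
        C * ENNReal.ofReal δ * supn (m + 1) K' b := by
  obtain ⟨C0, hC0⟩ := supn_TT' h hKb m hG.Gs
  choose C1 hC1 using fun k => supn_TT' h hKb m (hG.smul (contDiff_Hs h.smooth k))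
  refine ⟨5 ^ m * (C0 + ∑ k, C1 k), fun δ h0 h1 b hb => ?_⟩
  have hbk : ∀ k, ContDiff ℝ ∞ (pdv k b) := contDiff_pdv hb
  have e : (fun y => TT G H δ b y - TT G H 0 b y) = fun y => ∫ s in Ioc 0 δ, DT G H b s y := by
    funext y; exact TT_sub_eq hG h.smooth hb h0 y
  rw [e]
  have hfin : IsFiniteMeasure (volume.restrict (Ioc 0 δ)) :=
    ⟨by rw [Measure.restrict_apply_univ]; exact measure_Ioc_lt_top⟩
  have hν : (volume.restrict (Ioc 0 δ)) (Icc 0 δ)ᶜ = 0 := by
    rw [Measure.restrict_apply measurableSet_Icc.compl]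
    have : (Icc 0 δ)ᶜ ∩ Ioc 0 δ = ∅ := by
      ext x; simp only [mem_inter_iff, mem_compl_iff, mem_Icc, mem_Ioc, mem_empty_iff_false,
        iff_false]
      rintro ⟨a1, a2, a3⟩; exact a1 ⟨a2.le, a3⟩
    rw [this, measure_empty]
  set A := supn (m + 1) K' b with hA
  have ha0 : supn m K' b ≤ A := supn_succ m K' b
  have hak : ∀ k, supn m K' (pdv k b) ≤ A := by
    intro k
    refine le_trans ?_ le_add_self
    exact Finset.single_le_sum (f := fun i => supn m K' (pdv i b))
      (fun _ _ => bot_le) (Finset.mem_univ k)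
  have hb1 : ∀ s ∈ Icc 0 δ, supn m K (DT G H b s) ≤ (C0 + ∑ k, C1 k : ℝ≥0) * A := by
    intro s hs
    have s1 := contDiff_TT_right hG.Gs h.smooth hb s
    have s2 : ∀ k, ContDiff ℝ ∞ (TT (fun δ z y => Hs H k δ z y • G δ z y) H s (pdv k b)) :=
      fun k => contDiff_TT_right (hG.smul (contDiff_Hs h.smooth k)) h.smooth (hbk k) s
    have hsδ : s ≤ δ0 := hs.2.trans h1
    calc supn m K (DT G H b s) ≤ supn m K (TT (Gs G) H s b) +
          ∑ k, supn m K (TT (fun δ z y => Hs H k δ z y • G δ z y) H s (pdv k b)) := by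
          refine (supn_add m K s1 (ContDiff.sum fun k _ => s2 k)).trans ?_
          gcongr
          exact supn_sum _ m K fun k _ => s2 k
      _ ≤ C0 * A + ∑ k, C1 k * A := by
          refine add_le_add ?_ (Finset.sum_le_sum fun k _ => ?_)
          · exact (hC0 s hs.1 hsδ b hb).trans (by gcongr)
          · exact (hC1 k s hs.1 hsδ _ (hbk k)).trans (by gcongr; exact hak k)
      _ = _ := by
          push_cast
          rw [add_mul, Finset.sum_mul]
  have h5 := supn_integral_le (volume.restrict (Ioc 0 δ)) isCompact_Icc hν m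
    (contDiff_DT hG h.smooth hb) hb1
  refine h5.trans (le_of_eq ?_)
  rw [Measure.restrict_apply_univ, Real.volume_Ioc, sub_zero]
  push_cast
  ring

/-- (O2) -/
theorem sob_sub_TT {H : Z → V4 → V4} {δ0 : ℝ} {K K' : Set V4} (h : Fam H δ0 K K')
    (hK : IsOpen K) (hKb : Bornology.IsBounded K) (h0 : ∀ y, H 0 y = y)
    {P : Z → V4 → (L2 →L[ℝ] L2)}
    (hP : ContDiff ℝ ∞ (Function.uncurry P)) (hP0 : ∀ y, P 0 y = ContinuousLinearMap.id ℝ L2)
    {ρ : Z → ℝ} (hρ : Bump ρ) (m : ℕ) :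
    ∃ C : ℝ≥0, ∀ δ δ' : ℝ, 0 ≤ δ → δ ≤ δ0 → 0 < δ' → δ' ≤ 1 → ∀ b : V4 → L2, ContDiff ℝ ∞ b →
      sob m δ' K (fun y => b y - TT (GP ρ P) H δ b y) ≤
        C * ENNReal.ofReal (δ / δ') * sob (m + 1) δ' K' b := by
  obtain ⟨C, hC⟩ := sob_TT_sub h hK hKb (Amp.GP hρ hP) m
  refine ⟨C, fun δ δ' a1 a2 a3 a4 b hb => ?_⟩
  have e : (fun y => b y - TT (GP ρ P) H δ b y) =
      fun y => (-1 : ℝ) • (TT (GP ρ P) H δ b y - TT (GP ρ P) H 0 b y) := by
    funext y
    rw [TT_GP_zero hρ hP0 h0]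
    simp only [neg_smul, one_smul, neg_sub]
  have hs := (contDiff_TT_right (Amp.GP hρ hP) h.smooth hb δ).sub
    (contDiff_TT_right (Amp.GP hρ hP) h.smooth hb 0)
  rw [e, sob_smul m δ' K (-1) hs]
  simpa only [abs_neg, abs_one, ENNReal.ofReal_one, one_mul, ge_iff_le] using hC δ δ' a1 a2 a3 a4 b hb

theorem supn_sub_TT {H : Z → V4 → V4} {δ0 : ℝ} {K K' : Set V4} (h : Fam H δ0 K K')
    (hKb : Bornology.IsBounded K) (h0 : ∀ y, H 0 y = y)
    {P : Z → V4 → (L2 →L[ℝ] L2)}
    (hP : ContDiff ℝ ∞ (Function.uncurry P)) (hP0 : ∀ y, P 0 y = ContinuousLinearMap.id ℝ L2)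
    {ρ : Z → ℝ} (hρ : Bump ρ) (m : ℕ) :
    ∃ C : ℝ≥0, ∀ δ : ℝ, 0 ≤ δ → δ ≤ δ0 → ∀ b : V4 → L2, ContDiff ℝ ∞ b →
      supn m K (fun y => b y - TT (GP ρ P) H δ b y) ≤
        C * ENNReal.ofReal δ * supn (m + 1) K' b := by
  obtain ⟨C, hC⟩ := supn_TT_sub h hKb (Amp.GP hρ hP) m
  refine ⟨C, fun δ a1 a2 b hb => ?_⟩
  have e : (fun y => b y - TT (GP ρ P) H δ b y) =
      fun y => (-1 : ℝ) • (TT (GP ρ P) H δ b y - TT (GP ρ P) H 0 b y) := by
    funext y
    rw [TT_GP_zero hρ hP0 h0]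
    simp
  have hs := (contDiff_TT_right (Amp.GP hρ hP) h.smooth hb δ).sub
    (contDiff_TT_right (Amp.GP hρ hP) h.smooth hb 0)
  rw [e, supn_smul m K (-1) hs]
  simpa only [abs_neg, abs_one, ENNReal.ofReal_one, one_mul, ge_iff_le] using hC δ a1 a2 b hb

end
end Vale.Agent.P204.GX
end

section
/-! (SS): smoothing by integration by parts in the parameter. -/
open MeasureTheory Set Metric Filter
open scoped ContDiff ENNReal NNReal Topology

namespace Vale.Agent.P204.GX
open Vale.Agent.P204.T4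

section
variable {Z : Type} [NormedAddCommGroup Z] [NormedSpace ℝ Z] [FiniteDimensional ℝ Z]
  [MeasureSpace Z] [BorelSpace Z] [(volume : Measure Z).IsAddHaarMeasure]

/-- the entry `Θ_{ji}` at `(δ z, y)` -/
noncomputable def Th (Θ : Z → V4 → (V4 →L[ℝ] V4)) (j i : Fin 4) (δ : ℝ) (z : Z) (y : V4) : ℝ :=
  Θ (δ • z) y (Pi.single i 1) j

omit [FiniteDimensional ℝ Z] [MeasureSpace Z] [BorelSpace Z]
  [(volume : Measure Z).IsAddHaarMeasure] in
theorem contDiff_Th {Θ : Z → V4 → (V4 →L[ℝ] V4)} (h : ContDiff ℝ ∞ (Function.uncurry Θ))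
    (j i : Fin 4) : ContDiff ℝ ∞ (fun p : ℝ × Z × V4 => Th Θ j i p.1 p.2.1 p.2.2) := by
  have h0 : ContDiff ℝ ∞ (fun p : ℝ × Z × V4 => (p.1 • p.2.1, p.2.2)) :=
    (contDiff_fst.smul (contDiff_fst.comp contDiff_snd)).prodMk (contDiff_snd.comp contDiff_snd)
  have h1 : ContDiff ℝ ∞ (fun p : ℝ × Z × V4 => Θ (p.1 • p.2.1) p.2.2) := h.comp h0
  exact (contDiff_apply ℝ ℝ j).comp (h1.clm_apply contDiff_const)

/-- derivative in the direction `e (single j 1)` of `Θ_{ji} G` -/
noncomputable def Gz (Θ : Z → V4 → (V4 →L[ℝ] V4)) (e : V4 →L[ℝ] Z)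
    (G : ℝ → Z → V4 → (L2 →L[ℝ] L2)) (i j : Fin 4) (δ : ℝ) (z : Z) (y : V4) : L2 →L[ℝ] L2 :=
  fderiv ℝ (fun p : ℝ × Z × V4 => Th Θ j i p.1 p.2.1 p.2.2 • G p.1 p.2.1 p.2.2) (δ, z, y)
    (0, e (Pi.single j 1), 0)

/-- the new amplitude -/
noncomputable def GI (Θ : Z → V4 → (V4 →L[ℝ] V4)) (e : V4 →L[ℝ] Z)
    (G : ℝ → Z → V4 → (L2 →L[ℝ] L2)) (i : Fin 4) (δ : ℝ) (z : Z) (y : V4) : L2 →L[ℝ] L2 :=
  δ • Gy G i δ z y - ∑ j, Gz Θ e G i j δ z y

omit [FiniteDimensional ℝ Z] [MeasureSpace Z] [BorelSpace Z]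
  [(volume : Measure Z).IsAddHaarMeasure] in
theorem Amp.Gz {Θ : Z → V4 → (V4 →L[ℝ] V4)} (hΘ : ContDiff ℝ ∞ (Function.uncurry Θ))
    (e : V4 →L[ℝ] Z) {G : ℝ → Z → V4 → (L2 →L[ℝ] L2)} (hG : Amp G) (i j : Fin 4) :
    Amp (Gz Θ e G i j) :=
  (hG.smul (contDiff_Th hΘ j i)).dir contDiff_const

omit [FiniteDimensional ℝ Z] [MeasureSpace Z] [BorelSpace Z]
  [(volume : Measure Z).IsAddHaarMeasure] in
theorem Amp.GI {Θ : Z → V4 → (V4 →L[ℝ] V4)} (hΘ : ContDiff ℝ ∞ (Function.uncurry Θ))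
    (e : V4 →L[ℝ] Z) {G : ℝ → Z → V4 → (L2 →L[ℝ] L2)} (hG : Amp G) (i : Fin 4) :
    Amp (GI Θ e G i) := by
  have h1 : Amp (fun δ z y => δ • Vale.Agent.P204.GX.Gy G i δ z y) :=
    (hG.Gy i).smul (c := fun δ _ _ => δ) contDiff_fst
  exact h1.sub (Amp.sum Finset.univ fun j _ => hG.Gz hΘ e i j)

/-- the derivative in `z` of the transported function -/
theorem fderiv_w {H : Z → V4 → V4}
    (hH : ContDiff ℝ ∞ (Function.uncurry H)) {b : V4 → L2} (hb : ContDiff ℝ ∞ b)
    (δ : ℝ) (z : Z) (y : V4) (v : Z) :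
    fderiv ℝ (fun z : Z => b (H (δ • z) y)) z v =
      fderiv ℝ b (H (δ • z) y) (fderiv ℝ (Function.uncurry H) (δ • z, y) (δ • v, 0)) := by
  have h1 : HasFDerivAt (fun z : Z => (δ • z, y))
      ((δ • ContinuousLinearMap.id ℝ Z).prod (0 : Z →L[ℝ] V4)) z :=
    ((hasFDerivAt_id z).const_smul δ).prodMk (hasFDerivAt_const y z)
  have h2 : HasFDerivAt (Function.uncurry H) (fderiv ℝ (Function.uncurry H) (δ • z, y))
      (δ • z, y) := (hH.differentiable (by norm_num) _).hasFDerivAt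
  have h3 := HasFDerivAt.comp z (g := Function.uncurry H) h2 h1
  have h4 : HasFDerivAt b (fderiv ℝ b (H (δ • z) y)) (H (δ • z) y) :=
    (hb.differentiable (by norm_num) _).hasFDerivAt
  have h5 := HasFDerivAt.comp z (g := b) h4 h3
  have h6 : (b ∘ Function.uncurry H ∘ fun z : Z => (δ • z, y)) = fun z : Z => b (H (δ • z) y) :=
    rfl
  rw [h6] at h5
  rw [h5.fderiv]
  simp

omit [MeasureSpace Z] [BorelSpace Z] [(volume : Measure Z).IsAddHaarMeasure]
  [FiniteDimensional ℝ Z] in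
/-- the chain rule behind the integration by parts -/
theorem chain_sub {H : Z → V4 → V4} {δ0 : ℝ} {K : Set V4} {e : V4 →L[ℝ] Z}
    {Θ : Z → V4 → (V4 →L[ℝ] V4)} (hΘ : Sub H e Θ δ0 K)
    {δ : ℝ} {z : Z} (hz : ‖δ • z‖ ≤ δ0) {y : V4} (hy : y ∈ K) (i : Fin 4) :
    δ • fderiv ℝ (Function.uncurry H) (δ • z, y) (0, Pi.single i 1) =
      ∑ j, Th Θ j i δ z y •
        fderiv ℝ (Function.uncurry H) (δ • z, y) (δ • e (Pi.single j 1), 0) := by
  rw [← hΘ.eq (δ • z) hz y hy (Pi.single i 1)]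
  have h1 : Θ (δ • z) y (Pi.single i 1) = ∑ j, Th Θ j i δ z y • (Pi.single j 1 : V4) :=
    pi_eq_sum_single _
  have h2 : ((e (Θ (δ • z) y (Pi.single i 1)), (0 : V4)) : Z × V4) =
      ∑ j, Th Θ j i δ z y • ((e (Pi.single j 1), (0 : V4)) : Z × V4) := by
    conv_lhs => rw [h1, map_sum]
    rw [Prod.ext_iff]
    constructor
    · rw [Prod.fst_sum]; simp
    · rw [Prod.snd_sum]; simp only [Prod.smul_mk, smul_zero, Finset.sum_const_zero]
  rw [h2, map_sum, Finset.smul_sum]
  refine Finset.sum_congr rfl fun j _ => ?_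
  rw [map_smul, smul_comm]
  congr 1
  rw [← map_smul]
  simp only [Prod.smul_mk, smul_zero]

theorem ibp_TT {H : Z → V4 → V4} {δ0 : ℝ} {K : Set V4}
    (hH : ContDiff ℝ ∞ (Function.uncurry H)) {e : V4 →L[ℝ] Z}
    {Θ : Z → V4 → (V4 →L[ℝ] V4)} (hΘ : Sub H e Θ δ0 K)
    {G : ℝ → Z → V4 → (L2 →L[ℝ] L2)} (hG : Amp G) {b : V4 → L2} (hb : ContDiff ℝ ∞ b)
    {δ : ℝ} (h0 : 0 ≤ δ) (h1 : δ ≤ δ0) {y : V4} (hy : y ∈ K) (i : Fin 4) :
    δ • pdv i (TT G H δ b) y = TT (GI Θ e G i) H δ b y := by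
  rw [pdv_TT hG hH hb δ i]
  simp only
  have hA : ∀ k, Amp (fun δ z y => Hy H i k δ z y • G δ z y) := fun k =>
    hG.smul (contDiff_Hy hH i k)
  have hF : ∀ j, Amp (fun δ z y => Th Θ j i δ z y • G δ z y) := fun j =>
    hG.smul (contDiff_Th hΘ.smooth j i)
  -- the derivative of the transported function
  set w : Z → L2 := fun z => b (H (δ • z) y) with hw
  have hws : ContDiff ℝ ∞ w := hb.comp (hH.comp ((contDiff_const_smul δ).prodMk contDiff_const))
  have hwd : ∀ z, HasFDerivAt w (fderiv ℝ w z) z := fun z =>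
    (hws.differentiable (by norm_num) z).hasFDerivAt
  -- integration by parts for each `j`
  have hj : ∀ j, ∫ z, (Th Θ j i δ z y • G δ z y) (fderiv ℝ w z (e (Pi.single j 1))) =
      - ∫ z, (Gz Θ e G i j δ z y) (w z) := by
    intro j
    set f : Z → (L2 →L[ℝ] L2) := fun z => Th Θ j i δ z y • G δ z y with hf
    have hfd : ∀ z, HasFDerivAt f ((fderiv ℝ (fun p : ℝ × Z × V4 =>
        Th Θ j i p.1 p.2.1 p.2.2 • G p.1 p.2.1 p.2.2) (δ, z, y)) ∘L
        ((0 : Z →L[ℝ] ℝ).prod ((ContinuousLinearMap.id ℝ Z).prod (0 : Z →L[ℝ] V4)))) z := by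
      intro z
      have e1 : HasFDerivAt (fun z : Z => (δ, z, y))
          ((0 : Z →L[ℝ] ℝ).prod ((ContinuousLinearMap.id ℝ Z).prod (0 : Z →L[ℝ] V4))) z :=
        (hasFDerivAt_const δ z).prodMk ((hasFDerivAt_id z).prodMk (hasFDerivAt_const y z))
      have e2 : HasFDerivAt (fun p : ℝ × Z × V4 =>
          Th Θ j i p.1 p.2.1 p.2.2 • G p.1 p.2.1 p.2.2) (fderiv ℝ (fun p : ℝ × Z × V4 =>
          Th Θ j i p.1 p.2.1 p.2.2 • G p.1 p.2.1 p.2.2) (δ, z, y)) (δ, z, y) :=
        (((hF j).smooth).differentiable (by norm_num) _).hasFDerivAt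
      exact HasFDerivAt.comp z (g := fun p : ℝ × Z × V4 =>
          Th Θ j i p.1 p.2.1 p.2.2 • G p.1 p.2.1 p.2.2) e2 e1
    have hcs : HasCompactSupport f := by
      refine HasCompactSupport.intro (isCompact_closedBall (0 : Z) 1) fun z hz => ?_
      exact (hF j).supp δ z y (by simpa only [mem_closedBall, dist_zero_right, not_le] using hz)
    have hfc : Continuous f := continuous_iff_continuousAt.2 fun z => (hfd z).continuousAt
    have hdwc : Continuous fun z => fderiv ℝ w z (e (Pi.single j 1)) :=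
      ((hws.fderiv_right (m := ∞) (by norm_num)).clm_apply contDiff_const).continuous
    have hint1 := integrable_TT ((hG.Gz hΘ.smooth e i j)) hH hb.continuous δ y
    have hint3 := integrable_TT (hF j) hH hb.continuous δ y
    have hint2 : Integrable fun z => (f z) (fderiv ℝ w z (e (Pi.single j 1))) := by
      refine (hfc.clm_apply hdwc).integrable_of_hasCompactSupport ?_
      refine HasCompactSupport.intro (isCompact_closedBall (0 : Z) 1) fun z hz => ?_
      have : f z = 0 := (hF j).supp δ z y (by simpa only [mem_closedBall, dist_zero_right, not_le] using hz)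
      rw [this]; rfl
    have := integral_bilinear_hasFDerivAt_right_eq_neg_left_of_integrable (μ := volume)
      (f := f) (g := w) (g' := fderiv ℝ w) (v := e (Pi.single j 1))
      (B := ContinuousLinearMap.id ℝ (L2 →L[ℝ] L2))
      (f' := fun z => (fderiv ℝ (fun p : ℝ × Z × V4 =>
        Th Θ j i p.1 p.2.1 p.2.2 • G p.1 p.2.1 p.2.2) (δ, z, y)) ∘L
        ((0 : Z →L[ℝ] ℝ).prod ((ContinuousLinearMap.id ℝ Z).prod (0 : Z →L[ℝ] V4))))
      hint1 hint2 hint3 (fun z _ => hfd z) (fun z _ => hwd z)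
    exact this
  -- combine
  have hbk : ∀ k, Continuous (pdv k b) := fun k => (contDiff_pdv hb k).continuous
  have key : δ • ∑ k, TT (fun δ z y => Hy H i k δ z y • G δ z y) H δ (pdv k b) y =
      - ∑ j, ∫ z, (Gz Θ e G i j δ z y) (w z) := by
    rw [← Finset.sum_neg_distrib]
    rw [Finset.sum_congr rfl fun j _ => (hj j).symm]
    have hintk := fun k => integrable_TT (hA k) hH (hbk k) δ y
    have e1 : ∑ k, TT (fun δ z y => Hy H i k δ z y • G δ z y) H δ (pdv k b) y =
        ∫ z, ∑ k, (Hy H i k δ z y • G δ z y) (pdv k b (H (δ • z) y)) :=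
      (integral_finset_sum _ fun k _ => hintk k).symm
    have hintj : ∀ j, Integrable fun z =>
        (Th Θ j i δ z y • G δ z y) (fderiv ℝ w z (e (Pi.single j 1))) := by
      intro j
      have hdwc : Continuous fun z => fderiv ℝ w z (e (Pi.single j 1)) :=
        ((hws.fderiv_right (m := ∞) (by norm_num)).clm_apply contDiff_const).continuous
      have hfc : Continuous fun z => Th Θ j i δ z y • G δ z y :=
        (hF j).smooth.continuous.comp
          (continuous_const.prodMk (continuous_id.prodMk continuous_const))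
      refine (hfc.clm_apply hdwc).integrable_of_hasCompactSupport ?_
      refine HasCompactSupport.intro (isCompact_closedBall (0 : Z) 1) fun z hz => ?_
      have : Th Θ j i δ z y • G δ z y = 0 := (hF j).supp δ z y (by simpa only [mem_closedBall, dist_zero_right, not_le] using hz)
      rw [this]; rfl
    rw [e1, ← integral_smul, ← integral_finset_sum _ fun j _ => hintj j]
    refine integral_congr_ae (Eventually.of_forall fun z => ?_)
    simp only
    by_cases hz : ‖z‖ ≤ 1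
    · have hz' : ‖δ • z‖ ≤ δ0 := by
        rw [norm_smul, Real.norm_of_nonneg h0]; linarith only [mul_nonneg (sub_nonneg.2 h0) (sub_nonneg.2 hz), h1]
      have c1 : ∑ k, (Hy H i k δ z y • G δ z y) (pdv k b (H (δ • z) y)) =
          (G δ z y) (fderiv ℝ b (H (δ • z) y)
            (fderiv ℝ (Function.uncurry H) (δ • z, y) (0, Pi.single i 1))) := by
        rw [fderiv_eq_sum_pdv (f := b), map_sum]
        refine Finset.sum_congr rfl fun k _ => ?_
        rw [map_smul]; rfl
      rw [c1, ← map_smul, ← map_smul, chain_sub hΘ hz' hy i, map_sum, map_sum]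
      refine Finset.sum_congr rfl fun j _ => ?_
      rw [map_smul, map_smul, hw, fderiv_w hH hb]
      rfl
    · have hz' : G δ z y = 0 := hG.supp δ z y (not_le.1 hz)
      rw [hz']
      simp
  rw [smul_add, key]
  have hGI : TT (GI Θ e G i) H δ b y = δ • TT (Gy G i) H δ b y -
      ∑ j, ∫ z, (Gz Θ e G i j δ z y) (w z) := by
    have i1 := integrable_TT (hG.Gy i) hH hb.continuous δ y
    have i2 := fun j => integrable_TT (hG.Gz hΘ.smooth e i j) hH hb.continuous δ y
    have e1 : ∀ z, (GI Θ e G i δ z y) (b (H (δ • z) y)) =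
        δ • (Gy G i δ z y) (b (H (δ • z) y)) -
          ∑ j, (Gz Θ e G i j δ z y) (b (H (δ • z) y)) := by
      intro z
      rw [GI]
      simp only [sub_apply, smul_apply, sum_apply]
    have i1' : Integrable fun z => δ • (Gy G i δ z y) (b (H (δ • z) y)) := i1.smul δ
    rw [TT, integral_congr_ae (Eventually.of_forall e1), integral_sub i1'
      (integrable_finset_sum _ fun j _ => i2 j), integral_finset_sum _ fun j _ => i2 j,
      integral_smul]
    rfl
  rw [hGI, sub_eq_add_neg]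

/-- (SS) -/
theorem sob_TT_smoothing {H : Z → V4 → V4} {δ0 : ℝ} {K K' : Set V4}
    (h : Fam H δ0 K K')
    (hK : IsOpen K) (hKb : Bornology.IsBounded K) {e : V4 →L[ℝ] Z} {Θ : Z → V4 → (V4 →L[ℝ] V4)}
    (hΘ : Sub H e Θ δ0 K) (m : ℕ) : ∀ {G : ℝ → Z → V4 → (L2 →L[ℝ] L2)}, Amp G →
    ∃ C : ℝ≥0, ∀ δ : ℝ, 0 < δ → δ ≤ δ0 → ∀ b : V4 → L2, ContDiff ℝ ∞ b →
      sob m δ K (TT G H δ b) ≤ C * eLpNorm b 2 (volume.restrict K') := by
  induction m with
  | zero =>
    intro G hG
    obtain ⟨C, hC⟩ := sob_zero_TT h hK hKb hG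
    exact ⟨C, fun δ h0 h1 b hb => hC δ δ h0.le h1 b hb.continuous⟩
  | succ m ih =>
    intro G hG
    obtain ⟨C0, hC0⟩ := ih hG
    choose C1 hC1 using fun i => ih (hG.GI hΘ.smooth e i)
    refine ⟨C0 + ∑ i, C1 i, fun δ h0 h1 b hb => ?_⟩
    have hi : ∀ i, ENNReal.ofReal δ * sob m δ K (pdv i (TT G H δ b)) ≤
        C1 i * eLpNorm b 2 (volume.restrict K') := by
      intro i
      have e1 : ENNReal.ofReal δ * sob m δ K (pdv i (TT G H δ b)) =
          sob m δ K (fun y => δ • pdv i (TT G H δ b) y) := by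
        rw [sob_smul m δ K δ (contDiff_pdv (contDiff_TT_right hG h.smooth hb δ) i),
          abs_of_pos h0]
      rw [e1, sob_congr m δ hK (g := TT (GI Θ e G i) H δ b)
        (fun y hy => ibp_TT h.smooth hΘ hG hb h0.le h1 hy i)]
      exact hC1 i δ h0 h1 b hb
    calc sob m δ K (TT G H δ b) + ENNReal.ofReal δ * ∑ i : Fin 4, sob m δ K (pdv i (TT G H δ b))
        = sob m δ K (TT G H δ b) +
          ∑ i : Fin 4, ENNReal.ofReal δ * sob m δ K (pdv i (TT G H δ b)) := by
          rw [Finset.mul_sum]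
      _ ≤ C0 * eLpNorm b 2 (volume.restrict K') +
          ∑ i, C1 i * eLpNorm b 2 (volume.restrict K') :=
          add_le_add (hC0 δ h0 h1 b hb) (Finset.sum_le_sum fun i _ => hi i)
      _ = _ := by
          push_cast
          rw [← Finset.sum_mul, ← add_mul]

end
end Vale.Agent.P204.GX
end

section
/-! Hadamard lemma for families. -/
open MeasureTheory Set Metric Filter
open scoped ContDiff ENNReal NNReal Topology

namespace Vale.Agent.P204.GX
open Vale.Agent.P204.T4

section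
variable {Z : Type} [NormedAddCommGroup Z] [NormedSpace ℝ Z] [FiniteDimensional ℝ Z]

/-- Hadamard lemma (for (SC)) -/
theorem exists_hadamard {E : Type} [NormedAddCommGroup E] [NormedSpace ℝ E] [CompleteSpace E]
    {c : Z → V4 → E} (hc : ContDiff ℝ ∞ (Function.uncurry c)) (h0 : ∀ y, c 0 y = 0) :
    ∃ g : ℝ → Z → V4 → E, ContDiff ℝ ∞ (fun p : ℝ × Z × V4 => g p.1 p.2.1 p.2.2) ∧
      ∀ δ z y, c (δ • z) y = δ • g δ z y := by
  set f : ℝ → (ℝ × Z × V4) → E := fun t p =>
    fderiv ℝ (Function.uncurry c) (t • p.1 • p.2.1, p.2.2) (p.2.1, 0) with hf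
  have hfs : ContDiff ℝ ∞ (Function.uncurry f) := by
    have h1 : ContDiff ℝ ∞ (fun q : ℝ × (ℝ × Z × V4) => (q.1 • q.2.1 • q.2.2.1, q.2.2.2)) := by
      have a1 : ContDiff ℝ ∞ (fun q : ℝ × (ℝ × Z × V4) => q.1) := contDiff_fst
      have a2 : ContDiff ℝ ∞ (fun q : ℝ × (ℝ × Z × V4) => q.2.1) :=
        contDiff_fst.comp contDiff_snd
      have a3 : ContDiff ℝ ∞ (fun q : ℝ × (ℝ × Z × V4) => q.2.2.1) :=
        contDiff_fst.comp (contDiff_snd.comp contDiff_snd)
      have a4 : ContDiff ℝ ∞ (fun q : ℝ × (ℝ × Z × V4) => q.2.2.2) :=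
        contDiff_snd.comp (contDiff_snd.comp contDiff_snd)
      exact (a1.smul (a2.smul a3)).prodMk a4
    have h2 : ContDiff ℝ ∞ (fun q : ℝ × (ℝ × Z × V4) =>
        fderiv ℝ (Function.uncurry c) (q.1 • q.2.1 • q.2.2.1, q.2.2.2)) :=
      (hc.fderiv_right (m := ∞) (by norm_num)).comp h1
    exact h2.clm_apply ((contDiff_fst.comp (contDiff_snd.comp contDiff_snd)).prodMk
      contDiff_const)
  have hfin : IsFiniteMeasure (volume.restrict (Ioc (0 : ℝ) 1)) :=
    ⟨by rw [Measure.restrict_apply_univ]; exact measure_Ioc_lt_top⟩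
  have hν : (volume.restrict (Ioc (0 : ℝ) 1)) (Icc 0 1)ᶜ = 0 := by
    rw [Measure.restrict_apply measurableSet_Icc.compl]
    have : (Icc (0 : ℝ) 1)ᶜ ∩ Ioc 0 1 = ∅ := by
      ext x; simp only [mem_inter_iff, mem_compl_iff, mem_Icc, mem_Ioc, mem_empty_iff_false,
        iff_false]
      rintro ⟨a1, a2, a3⟩; exact a1 ⟨a2.le, a3⟩
    rw [this, measure_empty]
  refine ⟨fun δ z y => ∫ t in Ioc (0 : ℝ) 1, f t (δ, z, y), ?_, fun δ z y => ?_⟩
  · exact contDiff_integral_param (S := ℝ) (F := ℝ × Z × V4) (volume.restrict (Ioc (0 : ℝ) 1))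
      (isCompact_Icc (a := (0 : ℝ)) (b := 1)) hν hfs
  · have hd : ∀ t : ℝ, HasDerivAt (fun t : ℝ => c (t • δ • z) y) (δ • f t (δ, z, y)) t := by
      intro t
      have h1 : HasDerivAt (fun t : ℝ => (t • δ • z, y)) ((1 : ℝ) • δ • z, (0 : V4)) t :=
        ((hasDerivAt_id t).smul_const _).prodMk (hasDerivAt_const t y)
      have h2 : HasFDerivAt (Function.uncurry c)
          (fderiv ℝ (Function.uncurry c) (t • δ • z, y)) ((fun t : ℝ => (t • δ • z, y)) t) :=
        (hc.differentiable (by norm_num) _).hasFDerivAt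
      have h3 := HasFDerivAt.comp_hasDerivAt t h2 h1
      have h4 : (fderiv ℝ (Function.uncurry c) (t • δ • z, y)) ((1 : ℝ) • δ • z, 0) =
          δ • f t (δ, z, y) := by
        rw [hf, ← map_smul]; simp
      rw [h4] at h3
      exact h3
    have hcont : Continuous fun t : ℝ => δ • f t (δ, z, y) :=
      (hfs.continuous.comp (continuous_id.prodMk continuous_const)).const_smul δ
    have h5 := intervalIntegral.integral_eq_sub_of_hasDerivAt (fun t _ => hd t)
      (hcont.intervalIntegrable 0 1)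
    rw [intervalIntegral.integral_of_le zero_le_one, integral_smul] at h5
    rw [h5]
    simp [h0]

end
end Vale.Agent.P204.GX
end

section
/-! Existence of `Fam` and `Sub` data for near-identity families. -/
open MeasureTheory Set Metric Filter
open scoped ContDiff ENNReal NNReal Topology

namespace Vale.Agent.P204.GX
open Vale.Agent.P204.T4

section
variable {Z : Type} [NormedAddCommGroup Z] [NormedSpace ℝ Z]

/-- tube lemma around `{0} × closedBall 0 r` -/
theorem exists_tube {W : Set (Z × V4)} (hW : IsOpen W) {r : ℝ}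
    (h : ∀ y, ‖y‖ ≤ r → ((0 : Z), y) ∈ W) :
    ∃ ε > 0, ∀ z : Z, ‖z‖ < ε → ∀ y, ‖y‖ ≤ r → (z, y) ∈ W := by
  obtain ⟨u, v, hu, -, h0, hv, huv⟩ := generalized_tube_lemma (s := {(0 : Z)})
    isCompact_singleton (t := closedBall (0 : V4) r) (isCompact_closedBall _ _) hW (by
      rintro ⟨z, y⟩ ⟨hz, hy⟩
      rw [mem_singleton_iff] at hz
      simp only at hz
      subst hz
      exact h y (by simpa only [mem_closedBall, dist_zero_right] using hy))
  obtain ⟨ε, hε, hεu⟩ := Metric.isOpen_iff.1 hu 0 (h0 rfl)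
  refine ⟨ε, hε, fun z hz y hy => huv ⟨hεu (by simpa using hz), hv (by simpa only [mem_closedBall, dist_zero_right] using hy)⟩⟩

/-- a map whose derivative is close to the identity is injective on convex sets -/
theorem injOn_of_near_id {h : V4 → V4} (hd : Differentiable ℝ h) {s : Set V4} (hs : Convex ℝ s)
    (hb : ∀ y ∈ s, ‖fderiv ℝ h y - ContinuousLinearMap.id ℝ V4‖ ≤ 1 / 2) : InjOn h s := by
  intro x hx y hy hxy
  have hg : ∀ y ∈ s, ‖fderiv ℝ (fun y => h y - y) y‖ ≤ 1 / 2 := by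
    intro y hy
    have : fderiv ℝ (fun y => h y - y) y = fderiv ℝ h y - ContinuousLinearMap.id ℝ V4 := by
      rw [fderiv_fun_sub (hd y) differentiableAt_fun_id]
      simp
    rw [this]; exact hb y hy
  have h1 := hs.norm_image_sub_le_of_norm_fderiv_le (𝕜 := ℝ) (f := fun y => h y - y)
    (fun y _ => (hd y).sub differentiableAt_fun_id) hg hx hy
  simp only [hxy] at h1
  have h2 : h y - y - (h y - x) = x - y := by abel
  rw [h2, norm_sub_rev x y] at h1
  have h3 : ‖y - x‖ = 0 := by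
    have := norm_nonneg (y - x)
    linarith only [this, h1]
  exact (sub_eq_zero.1 (norm_eq_zero.1 h3)).symm

theorem continuous_det4 : Continuous fun A : V4 →L[ℝ] V4 => A.det :=
  ContinuousLinearMap.continuous_det

/-- near-identity families satisfy `Fam` for small parameters -/
theorem exists_Fam {H : Z → V4 → V4} (hs : ContDiff ℝ ∞ (Function.uncurry H))
    (h0 : ∀ y, H 0 y = y) {r r' : ℝ} (hr : r < r') :
    ∃ δ0 : ℝ, 0 < δ0 ∧ ∀ δ, δ ≤ δ0 → Fam H δ (ball 0 r) (ball 0 r') := by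
  have hf' := contDiff_fderiv_snd hs
  have hc1 : Continuous fun p : Z × V4 => ‖H p.1 p.2 - p.2‖ :=
    (hs.continuous.sub continuous_snd).norm
  have hc2 : Continuous fun p : Z × V4 =>
      ‖fderiv ℝ (H p.1) p.2 - ContinuousLinearMap.id ℝ V4‖ :=
    (hf'.continuous.sub continuous_const).norm
  have hc3 : Continuous fun p : Z × V4 => |(fderiv ℝ (H p.1) p.2).det| :=
    (continuous_det4.comp hf'.continuous).abs
  have hid : ∀ y, fderiv ℝ (H 0) y = ContinuousLinearMap.id ℝ V4 := by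
    intro y
    have : H 0 = id := funext h0
    rw [this, fderiv_id]
  obtain ⟨ε, hε, hW⟩ := exists_tube (Z := Z) (W := {p | ‖H p.1 p.2 - p.2‖ < r' - r ∧
      ‖fderiv ℝ (H p.1) p.2 - ContinuousLinearMap.id ℝ V4‖ < 1 / 2 ∧
      1 / 2 < |(fderiv ℝ (H p.1) p.2).det|})
    ((isOpen_lt hc1 continuous_const).inter ((isOpen_lt hc2 continuous_const).inter
      (isOpen_lt continuous_const hc3))) (r := r) (by
      intro y _
      refine ⟨?_, ?_, ?_⟩
      · simp only [h0, sub_self, norm_zero]; linarith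
      · simp only [hid, sub_self, norm_zero]; norm_num
      · simp only [hid, ContinuousLinearMap.det]
        norm_num)
  refine ⟨ε / 2, by positivity, fun δ hδ => ⟨hs, fun z hz y hy => ?_, fun z hz => ?_,
    fun z hz y hy => ?_⟩⟩
  · have hy' : ‖y‖ < r := by simpa using hy
    have h1 := (hW z (by linarith only [hε, hδ, hz]) y hy'.le).1
    have h2 : ‖H z y‖ < r' := by
      calc ‖H z y‖ = ‖(H z y - y) + y‖ := by rw [sub_add_cancel]
        _ ≤ ‖H z y - y‖ + ‖y‖ := norm_add_le _ _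
        _ < r' := by simp only at h1; linarith only [hy', h1]
    simpa using h2
  · have hd : Differentiable ℝ (H z) :=
      (hs.comp (contDiff_const.prodMk contDiff_id)).differentiable (by norm_num)
    refine injOn_of_near_id hd (convex_ball 0 r) fun y hy => ?_
    have hy' : ‖y‖ < r := by simpa using hy
    exact (hW z (by linarith only [hε, hδ, hz]) y hy'.le).2.1.le
  · have hy' : ‖y‖ < r := by simpa using hy
    exact (hW z (by linarith) y hy'.le).2.2.le

/-- `D_z H ∘ e` at `(0, y)` is the identity -/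
theorem DzH_eq_id {H : Z → V4 → V4} (hs : ContDiff ℝ ∞ (Function.uncurry H)) (e : V4 →L[ℝ] Z)
    {y : V4} (he : ∀ᶠ w in 𝓝 (0 : V4), H (e w) y = y + w) (v : V4) :
    fderiv ℝ (Function.uncurry H) ((0 : Z), y) (e v, 0) = v := by
  have h1 : HasFDerivAt (fun w : V4 => (e w, y)) (e.prod (0 : V4 →L[ℝ] V4)) 0 :=
    e.hasFDerivAt.prodMk (hasFDerivAt_const y 0)
  have h2 : HasFDerivAt (Function.uncurry H) (fderiv ℝ (Function.uncurry H) ((0 : Z), y))
      ((fun w : V4 => (e w, y)) 0) := by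
    simp only [map_zero]
    exact (hs.differentiable (by norm_num) _).hasFDerivAt
  have h3 := HasFDerivAt.comp (0 : V4) (g := Function.uncurry H) h2 h1
  have h4 : HasFDerivAt (fun w : V4 => y + w) (ContinuousLinearMap.id ℝ V4) 0 :=
    (hasFDerivAt_id (0 : V4)).const_add y
  have h5 : (Function.uncurry H ∘ fun w : V4 => (e w, y)) =ᶠ[𝓝 0] fun w => y + w := he
  have h6 := h3.unique (h4.congr_of_eventuallyEq h5)
  have h7 := congrArg (fun L : V4 →L[ℝ] V4 => L v) h6
  simpa using h7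

variable [FiniteDimensional ℝ Z]

/-- existence of `Θ`, from `H (e w) y = y + w` near `0` -/
theorem exists_Sub {H : Z → V4 → V4} (hs : ContDiff ℝ ∞ (Function.uncurry H)) (e : V4 →L[ℝ] Z)
    {r r' : ℝ} (hr0 : 0 < r) (hr : r < r')
    (he : ∀ y, ‖y‖ ≤ r' → ∀ᶠ w in 𝓝 (0 : V4), H (e w) y = y + w) :
    ∃ (δ0 : ℝ) (Θ : Z → V4 → (V4 →L[ℝ] V4)), 0 < δ0 ∧ Sub H e Θ δ0 (ball 0 r) := by
  -- the two partial derivatives
  set D : Z × V4 → (Z × V4 →L[ℝ] V4) := fderiv ℝ (Function.uncurry H) with hD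
  have hDs : ContDiff ℝ ∞ D := hs.fderiv_right (m := ∞) (by norm_num)
  set i1 : V4 →L[ℝ] Z × V4 := e.prod (0 : V4 →L[ℝ] V4) with hi1
  set i2 : V4 →L[ℝ] Z × V4 := (0 : V4 →L[ℝ] Z).prod (ContinuousLinearMap.id ℝ V4) with hi2
  set A : Z × V4 → (V4 →L[ℝ] V4) := fun p => (D p).comp i1 with hA
  set B : Z × V4 → (V4 →L[ℝ] V4) := fun p => (D p).comp i2 with hB
  have hAs : ContDiff ℝ ∞ A := hDs.clm_comp contDiff_const
  have hBs : ContDiff ℝ ∞ B := hDs.clm_comp contDiff_const
  have hA0 : ∀ y, ‖y‖ ≤ r' → A (0, y) = ContinuousLinearMap.id ℝ V4 := by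
    intro y hy
    ext1 v
    have := DzH_eq_id hs e (he y hy) v
    simpa only [hA, hD, hi1, ContinuousLinearMap.comp_apply, ContinuousLinearMap.prod_apply, zero_apply, ContinuousLinearMap.id_apply] using this
  set W : Set (Z × V4) := A ⁻¹' range ((↑) : (V4 ≃L[ℝ] V4) → (V4 →L[ℝ] V4)) with hW
  have hWo : IsOpen W := ContinuousLinearEquiv.isOpen.preimage hAs.continuous
  obtain ⟨ε, hε, hWε⟩ := exists_tube (Z := Z) hWo (r := (r + r') / 2) (by
    intro y hy
    refine ⟨ContinuousLinearEquiv.refl ℝ V4, ?_⟩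
    rw [hA0 y (by linarith only [hr, hy])]
    rfl)
  -- cut-off
  let φ1 : ContDiffBump (0 : Z) := ⟨ε / 4, ε / 2, by positivity, by linarith only [hε]⟩
  let φ2 : ContDiffBump (0 : V4) := ⟨r, (r + r') / 2, hr0, by linarith⟩
  set χ : Z × V4 → ℝ := fun p => φ1 p.1 * φ2 p.2 with hχ
  have hχs : ContDiff ℝ ∞ χ :=
    (φ1.contDiff.comp contDiff_fst).mul (φ2.contDiff.comp contDiff_snd)
  set Θ0 : Z × V4 → (V4 →L[ℝ] V4) := fun p => (ContinuousLinearMap.inverse (A p)).comp (B p)
    with hΘ0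
  set Θ : Z → V4 → (V4 →L[ℝ] V4) := fun z y => χ (z, y) • Θ0 (z, y) with hΘ
  refine ⟨ε / 4, Θ, by positivity, ?_, ?_⟩
  · have e1 : Function.uncurry Θ = fun p => χ p • Θ0 p := rfl
    rw [e1, contDiff_iff_contDiffAt]
    intro p
    by_cases hp : p ∈ W
    · obtain ⟨L, hL⟩ := hp
      have h1 : ContDiffAt ℝ ∞ (fun p => ContinuousLinearMap.inverse (A p)) p := by
        have h2 : ContDiffAt ℝ ∞ (ContinuousLinearMap.inverse : (V4 →L[ℝ] V4) → _) (A p) := by
          rw [← hL]; exact contDiffAt_map_inverse L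
        exact h2.comp p hAs.contDiffAt
      exact hχs.contDiffAt.smul (h1.clm_comp hBs.contDiffAt)
    · have h2 : χ =ᶠ[𝓝 p] fun _ => 0 := by
        have hne : ¬ (‖p.1‖ ≤ ε / 2 ∧ ‖p.2‖ ≤ (r + r') / 2) := fun hh =>
          hp (hWε p.1 (by linarith only [hε, hh.1]) p.2 hh.2)
        have hop : IsOpen {p : Z × V4 | ¬ (‖p.1‖ ≤ ε / 2 ∧ ‖p.2‖ ≤ (r + r') / 2)} := by
          have : IsClosed {p : Z × V4 | ‖p.1‖ ≤ ε / 2 ∧ ‖p.2‖ ≤ (r + r') / 2} :=
            (isClosed_le continuous_fst.norm continuous_const).inter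
              (isClosed_le continuous_snd.norm continuous_const)
          exact this.isOpen_compl
        filter_upwards [hop.mem_nhds hne] with q hq
        by_cases h3 : ‖q.1‖ ≤ ε / 2
        · have h4 : (r + r') / 2 < ‖q.2‖ := by
            by_contra h5
            exact hq ⟨h3, not_lt.1 h5⟩
          have : φ2 q.2 = 0 := φ2.zero_of_le_dist (by
            rw [dist_zero_right]; exact h4.le)
          simp [hχ, this]
        · have : φ1 q.1 = 0 := φ1.zero_of_le_dist (by
            rw [dist_zero_right]; exact (not_le.1 h3).le)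
          simp [hχ, this]
      have h3 : (fun p => χ p • Θ0 p) =ᶠ[𝓝 p] fun _ => 0 := by
        filter_upwards [h2] with q hq
        rw [hq, zero_smul]
      exact contDiffAt_const.congr_of_eventuallyEq h3
  · intro z hz y hy v
    have hy' : ‖y‖ < r := by simpa using hy
    have hχ1 : χ (z, y) = 1 := by
      have a1 : φ1 z = 1 := φ1.one_of_mem_closedBall (by simpa only [mem_closedBall, dist_zero_right] using hz)
      have a2 : φ2 y = 1 := φ2.one_of_mem_closedBall (by simpa only [mem_closedBall, dist_zero_right] using hy'.le)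
      simp [hχ, a1, a2]
    obtain ⟨L, hL⟩ := hWε z (by linarith only [hε, hz]) y (by linarith only [hr, hy'])
    have h1 : Θ z y v = L.symm (B (z, y) v) := by
      simp only [hΘ, hΘ0, hχ1, one_smul, ContinuousLinearMap.comp_apply]
      rw [← hL, ContinuousLinearMap.inverse_equiv]
      rfl
    have h2 : A (z, y) (Θ z y v) = B (z, y) v := by
      rw [h1, ← hL]
      exact L.apply_symm_apply _
    simpa only [hA, hi1, ContinuousLinearMap.comp_apply, ContinuousLinearMap.prod_apply, zero_apply, hB, hi2, ContinuousLinearMap.id_apply] using h2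

end
end Vale.Agent.P204.GX
end
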