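import Vale.Agent.P204.MathlibUsed
import Vale.Agent.P204.Bdl.B7
import Vale.Agent.P204.Bdl.B5
import Vale.Agent.P204.Bdl.B4
import Vale.Agent.P204.Bdl.B6
import Vale.Agent.P204.Bdl.B1
import Vale.Agent.P204.Bdl.B3
attribute [-instance] ProperSMul.toContinuousSMul IsTopologicalTorsor.toContinuousSMul IdemSemiring.toCanonicallyOrderedAdd IdemSemiring.toMulLeftMono IdemSemiring.toMulRightMono AddQuantale.instAddLeftMono AddQuantale.instAddRightMono Quantale.instMulLeftMono Quantale.instMulRightMono FiniteDimensional.rclike_to_real IsScalarTower.complexToReal FiniteDimensional.complexToReal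

set_option linter.all false

section

/-!
# P204: the statement `DC.Donaldson` follows from the statement on the concrete structure `CM`
-/

open scoped Manifold ContDiff Topology

namespace Vale.Agent.P204.DC

theorem donaldson_of_core0 (core : Mfd.CoreStatement) : Donaldson.{0} := by
  intro X _ _ _ _ _ _ J hJ hom
  obtain ⟨om, hom, hT⟩ := hom
  have h1 : Mfd.AlmostComplex (X := X) J := ⟨hJ.smooth, hJ.sq⟩
  obtain ⟨om', ho, hc⟩ := Mfd.donaldson_of_core core X J h1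
    ⟨om, ⟨hom.smooth, hom.closed, hom.nondegenerate⟩, hT⟩
  exact ⟨om', ⟨ho.smooth, ho.closed, ho.nondegenerate⟩, ⟨hc.tames, hc.invariant⟩⟩

theorem donaldson_of_core.{u} (core : Mfd.CoreStatement) : Donaldson.{u} :=
  donaldson_univ (donaldson_of_core0 core)

end Vale.Agent.P204.DC
end

section
set_option linter.all false
/-!
Function level interface, module G9: final theorems (all proved in G9a-G9e).
-/
open MeasureTheory Set
open scoped ContDiff InnerProductSpace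

namespace Vale.Agent.P204.GX
open Vale.Agent.P204.T4 _root_.P204.GX

namespace FnSys
variable {X : Type} [MetricSpace X] [CompactSpace X] [MeasurableSpace X] [BorelSpace X] (Z : FnSys X)

theorem en_le_dens {t : Measure X} [IsFiniteMeasure t] : ∃ C : ℝ, 0 ≤ C ∧ ∀ δ, 0 < δ → δ ≤ Z.Y.δ0 →
    Z.en t δ ≤ C * Z.dens t δ := Z.x_en_le_dens

theorem t1' {t : Measure X} {D : X → L2} (h : Cur t D) : ∃ C : ℝ, 0 ≤ C ∧ ∀ δ u, 0 < δ → δ ≤ Z.Y.δ0 →
    δ * |fn t D (Z.Y.S δ u : X → L2)| ≤ C * Real.sqrt (Z.en t δ) * ‖u‖ := Z.x_t1' h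

theorem t2' {t : Measure X} {D : X → L2} (h : Cur t D) : ∃ C : ℝ, 0 ≤ C ∧ ∀ δ u, 0 < δ → δ ≤ Z.Y.δ0 →
    |fn t D (Z.Y.S δ (Z.Y.pmH u) : X → L2)| ≤ C * Real.sqrt (Z.en t δ) * ‖u‖ := Z.x_t2' h

theorem sqrt_en_le {t : Measure X} [IsFiniteMeasure t] : ∃ C : ℝ, 0 ≤ C ∧ ∀ δ, 0 < δ → δ ≤ Z.Y.δ0 →
    Real.sqrt (Z.en t δ) ≤ C * Real.sqrt (Z.dens t δ) := by
  obtain ⟨C, hC, h⟩ := Z.en_le_dens (t := t)
  refine ⟨Real.sqrt C, Real.sqrt_nonneg _, fun δ h0 h1 => ?_⟩
  rw [← Real.sqrt_mul hC]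
  exact Real.sqrt_le_sqrt (h δ h0 h1)

theorem t1 {t : Measure X} {D : X → L2} (h : Cur t D) : ∃ C : ℝ, 0 ≤ C ∧ ∀ δ u, 0 < δ → δ ≤ Z.Y.δ0 →
    δ * |fn t D (Z.Y.S δ u : X → L2)| ≤ C * Real.sqrt (Z.dens t δ) * ‖u‖ := by
  have := h.fin
  obtain ⟨C, hC, h1⟩ := Z.t1' h
  obtain ⟨C', hC', h2⟩ := Z.sqrt_en_le (t := t)
  refine ⟨C * C', by positivity, fun δ u h0 hδ => (h1 δ u h0 hδ).trans ?_⟩
  have h3 := mul_le_mul_of_nonneg_left (h2 δ h0 hδ) hC
  calc C * Real.sqrt (Z.en t δ) * ‖u‖ ≤ (C * (C' * Real.sqrt (Z.dens t δ))) * ‖u‖ :=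
        mul_le_mul_of_nonneg_right h3 (norm_nonneg _)
    _ = C * C' * Real.sqrt (Z.dens t δ) * ‖u‖ := by ring

theorem t2 {t : Measure X} {D : X → L2} (h : Cur t D) : ∃ C : ℝ, 0 ≤ C ∧ ∀ δ u, 0 < δ → δ ≤ Z.Y.δ0 →
    |fn t D (Z.Y.S δ (Z.Y.pmH u) : X → L2)| ≤ C * Real.sqrt (Z.dens t δ) * ‖u‖ := by
  have := h.fin
  obtain ⟨C, hC, h1⟩ := Z.t2' h
  obtain ⟨C', hC', h2⟩ := Z.sqrt_en_le (t := t)
  refine ⟨C * C', by positivity, fun δ u h0 hδ => (h1 δ u h0 hδ).trans ?_⟩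
  have h3 := mul_le_mul_of_nonneg_left (h2 δ h0 hδ) hC
  calc C * Real.sqrt (Z.en t δ) * ‖u‖ ≤ (C * (C' * Real.sqrt (Z.dens t δ))) * ‖u‖ :=
        mul_le_mul_of_nonneg_right h3 (norm_nonneg _)
    _ = C * C' * Real.sqrt (Z.dens t δ) * ‖u‖ := by ring

/-- mutual positivity of two smoothed positive currents -/
theorem t3' {t p : Measure X} {D E : X → L2} (h : Cur t D) (h' : Cur p E) : ∃ C : ℝ, 0 ≤ C ∧
    ∀ δ (w w' : Lp E6 2 Z.μ), 0 < δ → δ ≤ Z.Y.δ0 →
    (∀ u, ⟪w, Z.Y.st u⟫_ℝ = fn t D (Z.Y.S δ u : X → L2)) →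
    (∀ u, ⟪w', Z.Y.st u⟫_ℝ = fn p E (Z.Y.S δ u : X → L2)) →
    -(C * Real.sqrt (Z.en t δ) * Real.sqrt (Z.en p δ)) ≤ ⟪w, Z.Y.st w'⟫_ℝ := Z.x_t3' h h'

/-- `TBound.t3` -/
theorem t3 {t : Measure X} {D : X → L2} (h : Cur t D) : ∃ C : ℝ, 0 ≤ C ∧
    ∀ δ (w : Lp E6 2 Z.μ), 0 < δ → δ ≤ Z.Y.δ0 →
    (∀ u, ⟪w, Z.Y.st u⟫_ℝ = fn t D (Z.Y.S δ u : X → L2)) →
    -(C * Z.dens t δ) ≤ ⟪w, Z.Y.st w⟫_ℝ := by
  have := h.fin
  obtain ⟨C, hC, h1⟩ := Z.t3' h h
  obtain ⟨C', hC', h2⟩ := Z.en_le_dens (t := t)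
  refine ⟨C * C', by positivity, fun δ w h0 hδ hw => le_trans ?_ (h1 δ w w h0 hδ hw hw)⟩
  have e : C * Real.sqrt (Z.en t δ) * Real.sqrt (Z.en t δ) = C * Z.en t δ := by
    rw [mul_assoc, Real.mul_self_sqrt (Z.en_nonneg t δ)]
  have h3 := mul_le_mul_of_nonneg_left (h2 δ h0 hδ) hC
  rw [e]
  linarith

/-- energy of the majorant at points of finite potential -/
theorem en_tendsto {p : Measure X} [IsFiniteMeasure p]
    (hb : ∃ C : ℝ, ∀ x (r : ℝ), 0 < r → r ≤ 1 → (p (Metric.ball x r)).toReal ≤ C * r ^ 2)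
    (hf : ∀ᵐ x ∂p, ∫⁻ y, (ENNReal.ofReal (dist x y ^ 2))⁻¹ ∂p < ⊤) :
    Filter.Tendsto (Z.en p) (nhdsWithin 0 (Set.Ioi 0)) (nhds 0) := Z.x_en_tendsto hb hf

theorem pF {t : Measure X} {D : X → L2} (h : Cur t D) (h1 : fn t D (Z.F : X → L2) = 1) :
    ∃ δ1 : ℝ, 0 < δ1 ∧ ∀ δ (w w' : Lp E6 2 Z.μ), 0 < δ → δ ≤ δ1 →
    (∀ u, ⟪w, Z.Y.st u⟫_ℝ = fn t D (Z.Y.S δ u : X → L2)) →
    (∀ u, ⟪w', Z.Y.st u⟫_ℝ = ⟪Z.Y.ι Z.F, Z.Y.st (Z.Y.ι (Z.Y.S δ u))⟫_ℝ) → 1 / 2 ≤ ⟪w, Z.Y.st w'⟫_ℝ :=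
  Z.x_pF h h1

end FnSys
end Vale.Agent.P204.GX
end

section
set_option linter.all false
/-!
Assembly of the contradiction at the level of `FnSys`.
-/
open MeasureTheory Set Filter Topology
open scoped ContDiff InnerProductSpace

namespace Vale.Agent.P204.GX
open Vale.Agent.P204.T4 _root_.P204.GX

namespace FnSys
variable {X : Type} [MetricSpace X] [CompactSpace X] [MeasurableSpace X] [BorelSpace X] (Z : FnSys X)

/-- the current `R = F0 μ + (p, E)` is closed -/
def ClosedR (p : Measure X) (E : X → L2) : Prop :=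
  ∀ e ∈ Z.Y.Ex, ∫ x, Q F0 ((e : X → L2) x) ∂Z.μ + fn p E (e : X → L2) = 0

/-- the functional of a current as a linear map on `Om` -/
noncomputable def fL {t : Measure X} {D : X → L2} (h : Cur t D) : Z.Om →ₗ[ℝ] ℝ where
  toFun b := fn t D (b : X → L2)
  map_add' b b' := Z.fn_add h b b'
  map_smul' c b := Z.fn_smul h c b

theorem assemble
    (hT : (¬ ∃ w ∈ Z.Y.Cl, Z.Y.pm w = 0 ∧ ∀ x, PosDef J0 ((w : X → L2) x)) →
      ∃ (t : Measure X) (D : X → L2), Cur t D ∧ (∀ b ∈ Z.Y.Cl, Z.Y.pm b = 0 → fn t D (b : X → L2) = 0) ∧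
        fn t D (Z.F : X → L2) = 1)
    (hR : ∃ (p : Measure X) (E : X → L2), Cur p E ∧ Z.ClosedR p E)
    (hEM : ∀ (p : Measure X) (E : X → L2), Cur p E → Z.ClosedR p E →
      ∃ p' : Measure X, Cur p' E ∧ Z.ClosedR p' E ∧
        ∀ᵐ x ∂p', ∫⁻ y, (ENNReal.ofReal (dist x y ^ 2))⁻¹ ∂p' < ⊤)
    (hG4 : ∀ (t : Measure X) (D : X → L2) (φ : Z.Om →ₗ[ℝ] ℝ), Cur t D → (∀ b, φ (Z.Y.pm b) = φ b) →
      (∀ c ∈ Z.Y.Cl, fn t D (c : X → L2) + φ c = 0) →
      ∃ (C : ℝ) (Dm : ℕ → ℝ), ∀ δ, 0 < δ → δ ≤ Z.Y.δ0 → ∃ v : Z.Om, (∀ m, Z.Y.N m δ v ≤ Dm m) ∧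
        Z.dens t δ ≤ C * (1 + |φ v|))
    (hGR : ∀ (p : Measure X) (E : X → L2), Cur p E → Z.ClosedR p E →
      ∃ C : ℝ, ∀ x (r : ℝ), 0 < r → r ≤ 1 → (p (Metric.ball x r)).toReal ≤ C * r ^ 2) :
    ∃ w ∈ Z.Y.Cl, Z.Y.pm w = 0 ∧ ∀ x, PosDef J0 ((w : X → L2) x) := by
  by_contra hno
  obtain ⟨t, D, ht, htCl, htF⟩ := hT hno
  obtain ⟨p0, E, hp0, hcl0⟩ := hR
  obtain ⟨p, hp, hcl, hpot⟩ := hEM p0 E hp0 hcl0
  have := ht.fin
  have := hp.fin
  -- the functional `φ`
  have htpm : ∀ b : Z.Om, Z.fL ht (Z.Y.pm b) = 0 := by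
    intro b
    show fn t D _ = 0
    rw [fn]
    have : (fun x => Q (D x) ((Z.Y.pm b : X → L2) x)) = fun _ => 0 := by
      funext x
      rw [Z.pm_eq b x]
      exact Q_inv_pM isCx_J0 G9.pos_J0 (ht.cone x).1 _
    rw [this]; simp
  obtain ⟨φ, k, Cφ, hCφ, hφpm, hφbd, hkill⟩ := Z.Y.exists_phi (Z.fL ht) _ (Z.fn_bound ht) htpm
    (fun c hc hpc => htCl c hc hpc)
  obtain ⟨C1, hC1, h1⟩ := Z.t1 ht
  obtain ⟨C2, hC2, h2⟩ := Z.t2 ht
  obtain ⟨C3, hC3, h3⟩ := Z.t3 ht
  obtain ⟨C4, Dm, h4⟩ := hG4 t D φ ht hφpm hkill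
  set CT : ℝ := 6 * (t univ).toReal with hCT
  have hCT0 : 0 ≤ CT := by positivity
  set CC : ℝ := CT + Cφ + C1 + C2 + C3 + |C4| with hCC
  have hCC0 : 0 ≤ CC := by (clear * - hCφ hC1 hC2 hC3; positivity)
  have hM0 : ∀ m (b : Z.Om), 0 ≤ Z.Y.M m b := Z.Y.M_nonneg
  have hC4 : |C4| ≤ CC := by rw [hCC]; linarith
  let NT : ℝ → ℝ := fun δ => if 0 < δ then Z.dens t δ else 0
  have hNT : ∀ δ, 0 < δ → NT δ = Z.dens t δ := fun δ h => if_pos h
  have hNT0 : ∀ δ, 0 ≤ NT δ := by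
    intro δ
    by_cases h : 0 < δ
    · rw [hNT δ h]; exact Z.dens_nonneg t h
    · show 0 ≤ (if 0 < δ then Z.dens t δ else 0)
      rw [if_neg h]
  let B : Z.Y.TBound (Z.fL ht) φ :=
    { k := k
      C := CC
      NT := NT
      C_nonneg := hCC0
      NT_nonneg := hNT0
      T_bd := fun b => (Z.fn_bound ht b).trans (by
        have := hM0 0 b
        have : CT ≤ CC := by rw [hCC]; linarith only [hCφ, hC1, hC2, hC3, abs_nonneg C4]
        gcongr)
      T_pm := htpm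
      φ_pm := hφpm
      φ_bd := fun b => (hφbd b).trans (by
        have := hM0 k b
        have : Cφ ≤ CC := by rw [hCC]; linarith only [hC1, hC2, hC3, hCT0, abs_nonneg C4]
        gcongr)
      kill := hkill
      t1 := fun δ u h0 hδ => (h1 δ u h0 hδ).trans (by
        rw [hNT δ h0]
        have : C1 ≤ CC := by rw [hCC]; linarith only [hCφ, hC2, hC3, hCT0, abs_nonneg C4]
        gcongr)
      t2 := fun δ u h0 hδ => (h2 δ u h0 hδ).trans (by
        rw [hNT δ h0]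
        have : C2 ≤ CC := by rw [hCC]; linarith only [hCφ, hC1, hC3, hCT0, abs_nonneg C4]
        gcongr)
      t3 := fun δ w h0 hδ hw => le_trans (by
        rw [hNT δ h0]
        have : C3 ≤ CC := by rw [hCC]; linarith only [hCφ, hC1, hC2, hCT0, abs_nonneg C4]
        have := Z.dens_nonneg t h0
        apply neg_le_neg
        gcongr) (h3 δ w h0 hδ hw)
      D := Dm
      t4 := fun δ h0 hδ => by
        obtain ⟨v, hv1, hv2⟩ := h4 δ h0 hδ
        refine ⟨v, hv1, ?_⟩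
        rw [hNT δ h0]
        refine hv2.trans ?_
        have : C4 ≤ CC := (le_abs_self C4).trans hC4
        gcongr }
  -- the second current
  obtain ⟨P1, hP1, q1⟩ := Z.t1' hp
  obtain ⟨P2, hP2, q2⟩ := Z.t2' hp
  obtain ⟨P3, hP3, q3⟩ := Z.t3' ht hp
  obtain ⟨P4, hP4, q4⟩ := Z.sqrt_en_le (t := t)
  obtain ⟨δ1, hδ1, hpF⟩ := Z.pF ht htF
  have hlim := Z.en_tendsto (hGR p E hp hcl) hpot
  have hFpm : Z.Y.pm Z.F = 0 := by
    apply Subtype.ext
    funext x
    rw [Z.pm_eq, Z.F_eq]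
    exact pM_of_inv G9.cone_F0.1
  refine Z.Y.contradiction B Z.F hFpm (Z.fL hp) _ (Z.fn_bound hp) ?_
    (fun δ => (1 + P1 + P2) * Real.sqrt (Z.en p δ)) (fun δ => by (clear * - hP1 hP2; positivity)) ?_ ?_ ?_ (P3 * P4) ?_ δ1 hδ1 hpF
  · intro e he
    rw [Z.inner_F]
    exact hcl e he
  · have h5 : Tendsto (fun δ => Real.sqrt (Z.en p δ)) (𝓝[>] 0) (𝓝 (Real.sqrt 0)) :=
      (Real.continuous_sqrt.tendsto 0).comp hlim
    have h6 := h5.const_mul (1 + P1 + P2)
    simpa only [Real.sqrt_zero, mul_zero] using h6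
  · intro δ u h0 hδ
    refine (q1 δ u h0 hδ).trans ?_
    have := Real.sqrt_nonneg (Z.en p δ)
    have : P1 ≤ 1 + P1 + P2 := by linarith only [hP2]
    gcongr
  · intro δ u h0 hδ
    refine (q2 δ u h0 hδ).trans ?_
    have := Real.sqrt_nonneg (Z.en p δ)
    have : P2 ≤ 1 + P1 + P2 := by linarith only [hP1]
    gcongr
  · intro δ wT wP h0 hδ hwT hwP
    refine le_trans ?_ (q3 δ wT wP h0 hδ hwT hwP)
    have e : B.NT δ = Z.dens t δ := hNT δ h0
    rw [e]
    apply neg_le_neg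
    have a1 := q4 δ h0 hδ
    have a2 := Real.sqrt_nonneg (Z.en p δ)
    have a3 := Real.sqrt_nonneg (Z.dens t δ)
    have a4 : (1 : ℝ) ≤ 1 + P1 + P2 := by linarith only [hP1, hP2]
    calc P3 * Real.sqrt (Z.en t δ) * Real.sqrt (Z.en p δ)
        ≤ P3 * (P4 * Real.sqrt (Z.dens t δ)) * ((1 + P1 + P2) * Real.sqrt (Z.en p δ)) := by
          gcongr
          linarith only [mul_nonneg (sub_nonneg.2 a2) (sub_nonneg.2 a4)]
      _ = P3 * P4 * Real.sqrt (Z.dens t δ) * ((1 + P1 + P2) * Real.sqrt (Z.en p δ)) := by ring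

end FnSys
end Vale.Agent.P204.GX
end

section
set_option linter.all false
/-! The El Mir theorem on `V4`. -/
open MeasureTheory Set
open scoped ContDiff

namespace Vale.Agent.P204.T4

theorem elmir {J : V4 → M4} (hJ : ContDiff ℝ ∞ J) (hcx : ∀ y, IsCx (J y)) (hpos : ∀ y, Pos (J y))
    {r : Measure V4} {D : V4 → L2} (h : LCur J r D) (η : V4 → V4) (hη : TF η) :
    ∫ x in {x | pot r x < ⊤}, Q (D x) (d1 η x) ∂r = 0 := by
  obtain ⟨E⟩ := EM.exists_EMData' hJ hcx hpos h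
  exact EMData.elmir' hJ hcx hpos h E η hη

end Vale.Agent.P204.T4
end

section

/-!
# El Mir on `X`, part 2: potentials and removal of the polar set
-/

open scoped BigOperators ContDiff Topology ENNReal
open MeasureTheory Set

namespace Vale.Agent.P204.GX
open T4

/-- comparison of reciprocals -/
theorem inv_ofReal_le {a b C : ℝ} (hC : 0 < C) (h : a ≤ C * b) :
    (ENNReal.ofReal b)⁻¹ ≤ ENNReal.ofReal C * (ENNReal.ofReal a)⁻¹ := by
  have h1 : ENNReal.ofReal a ≤ ENNReal.ofReal C * ENNReal.ofReal b := by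
    rw [← ENNReal.ofReal_mul hC.le]
    exact ENNReal.ofReal_le_ofReal h
  have h2 := ENNReal.inv_le_inv.2 h1
  have hC0 : ENNReal.ofReal C ≠ 0 := by
    simpa only [ne_eq, ENNReal.ofReal_eq_zero, not_le] using hC
  calc (ENNReal.ofReal b)⁻¹
      = ENNReal.ofReal C * (ENNReal.ofReal C * ENNReal.ofReal b)⁻¹ := by
        rw [ENNReal.mul_inv (Or.inl hC0) (Or.inl ENNReal.ofReal_ne_top), ← mul_assoc,
          ENNReal.mul_inv_cancel hC0 ENNReal.ofReal_ne_top, one_mul]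
    _ ≤ ENNReal.ofReal C * (ENNReal.ofReal a)⁻¹ := by gcongr

section pot

variable {X : Type} [MetricSpace X] [MeasurableSpace X] [BorelSpace X]

/-- the potential of a measure on `X` -/
noncomputable def potX (r : Measure X) (x : X) : ENNReal :=
  ∫⁻ y, (ENNReal.ofReal (dist x y ^ 2))⁻¹ ∂r

theorem measurable_potX [SecondCountableTopology X] (r : Measure X) [SFinite r] :
    Measurable (potX r) := by
  unfold potX
  have hk : Measurable fun p : X × X => (ENNReal.ofReal (dist p.1 p.2 ^ 2))⁻¹ := by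
    have : Continuous fun p : X × X => dist p.1 p.2 ^ 2 := continuous_dist.pow 2
    exact (this.measurable.ennreal_ofReal).inv
  exact hk.lintegral_prod_right'

end pot

namespace CM
variable {X : Type} [MetricSpace X] {M : CM X} [MeasurableSpace X] [BorelSpace X] {D : X → L2}

theorem lcur (a : M.A) (r : Measure X) [IsFiniteMeasure r] (hD : Measurable D)
    (hc : ∀ x, Cone J0 (D x)) (hn : ∀ x, Q (D x) F0 = 1)
    (hcl : ∀ e ∈ M.Ex, ∫ x, Q (D x) ((e : X → L2) x) ∂r = 0) :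
    LCur (M.J a) (M.ra a r D) (M.Dn a D) where
  fin := ra_locallyFinite a r hc hn
  meas := measurable_Dn a hD
  cone := Dn_cone a hc hn
  norm := Dn_norm a hc hn
  closed := by
    intro η hη
    have h1 := integral_ra (M := M) a r hD hc hn MeasurableSet.univ (d1 η)
    rw [preimage_univ, Measure.restrict_univ, Measure.restrict_univ] at h1
    rw [h1]
    have hη' : TF1 η := hη
    exact hcl ⟨M.ext a (d1 η), M.ext_mem_Om a (d1_smooth hη') (d1_support hη')⟩
      (Submodule.subset_span ⟨a, η, hη', rfl⟩)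

/-- the potential in a chart is finite iff the potential on `X` is -/
theorem pot_iff_X (a : M.A) (r : Measure X) [IsFiniteMeasure r] (hD : Measurable D)
    (hc : ∀ x, Cone J0 (D x)) (hn : ∀ x, Q (D x) F0 = 1) (y : V4) :
    pot (M.ra a r D) y < ⊤ ↔ potX r (M.ψ a y) < ⊤ := by
  set ν := r.comap (M.ψ a) with hν
  obtain ⟨C1, hC1, h1⟩ := exists_wl_bound (M := M) (D := D) a hc hn (‖y‖ + 1)
  obtain ⟨C2, hC2, h2⟩ := M.lip a (‖y‖ + 1)
  have hC1' : 0 < C1 := by linarith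
  have hball : ∀ z ∈ Metric.ball y 1, ‖z‖ ≤ ‖y‖ + 1 := by
    intro z hz
    have : ‖z - y‖ < 1 := by simpa only [Metric.mem_ball, dist_eq_norm] using hz
    calc ‖z‖ = ‖y + (z - y)‖ := by congr 1; abel
      _ ≤ ‖y‖ + ‖z - y‖ := norm_add_le _ _
      _ ≤ ‖y‖ + 1 := by linarith only [this]
  have hy : ‖y‖ ≤ ‖y‖ + 1 := by linarith only []
  set KX : X → ENNReal := fun x => (ENNReal.ofReal (dist (M.ψ a y) x ^ 2))⁻¹ with hKX
  set KV : V4 → ENNReal := fun z => (ENNReal.ofReal (‖z - y‖ ^ 2))⁻¹ with hKV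
  have mKX : Measurable KX :=
    (((continuous_const.dist continuous_id).pow 2).measurable.ennreal_ofReal).inv
  have mKV : Measurable KV :=
    ((((continuous_id.sub continuous_const).norm).pow 2).measurable.ennreal_ofReal).inv
  have mw : Measurable fun z => ENNReal.ofReal (M.wl a D z) := (measurable_wl a hD).ennreal_ofReal
  -- the chart potential
  have epot : pot (M.ra a r D) y =
      ∫⁻ z in Metric.ball y 1, ENNReal.ofReal (M.wl a D z) * KV z ∂ν := by
    unfold pot ra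
    rw [restrict_withDensity measurableSet_ball, lintegral_withDensity_eq_lintegral_mul _ mw mKV]
    rfl
  -- the local part of the potential on `X`
  have eloc : ∫⁻ x in M.ψ a '' Metric.ball y 1, KX x ∂r =
      ∫⁻ z in Metric.ball y 1, KX (M.ψ a z) ∂ν := by
    have hme := M.measurableEmbedding_ψ a
    have h3 : (ν.restrict (Metric.ball y 1)).map (M.ψ a) =
        r.restrict (M.ψ a '' Metric.ball y 1) := by
      have h4 : M.ψ a ⁻¹' (M.ψ a '' Metric.ball y 1) = Metric.ball y 1 :=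
        preimage_image_eq _ (M.ψ_inj a)
      have h5 : MeasurableSet (M.ψ a '' Metric.ball y 1) :=
        hme.measurableSet_image.2 measurableSet_ball
      conv_lhs => rw [← h4]
      rw [← hme.restrict_map, hν, hme.map_comap, Measure.restrict_restrict h5,
        inter_eq_left.2 (image_subset_range _ _)]
    rw [← h3, hme.lintegral_map]
  have hsub : M.ψ a '' Metric.ball y 1 ⊆ univ := subset_univ _
  have hopen : IsOpen (M.ψ a '' Metric.ball y 1) :=
    (M.ψo a).isOpenMap _ Metric.isOpen_ball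
  have hmem : M.ψ a y ∈ M.ψ a '' Metric.ball y 1 :=
    mem_image_of_mem _ (Metric.mem_ball_self one_pos)
  constructor
  · intro hfin
    -- far part
    obtain ⟨ε, hε, hsubε⟩ := Metric.isOpen_iff.1 hopen _ hmem
    have hfar : ∫⁻ x in (M.ψ a '' Metric.ball y 1)ᶜ, KX x ∂r < ⊤ := by
      calc ∫⁻ x in (M.ψ a '' Metric.ball y 1)ᶜ, KX x ∂r
          ≤ ∫⁻ x in (M.ψ a '' Metric.ball y 1)ᶜ, (ENNReal.ofReal (ε ^ 2))⁻¹ ∂r := by
            refine setLIntegral_mono' hopen.measurableSet.compl fun x hx => ?_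
            refine ENNReal.inv_le_inv.2 (ENNReal.ofReal_le_ofReal ?_)
            have : ε ≤ dist (M.ψ a y) x := by
              by_contra hlt
              exact hx (hsubε (by rw [Metric.mem_ball, dist_comm]; exact not_le.1 hlt))
            exact pow_le_pow_left₀ hε.le this 2
        _ < ⊤ := by
            rw [lintegral_const]
            refine ENNReal.mul_lt_top ?_ (measure_lt_top _ _)
            rw [ENNReal.inv_lt_top]
            positivity
    have hnear : ∫⁻ x in M.ψ a '' Metric.ball y 1, KX x ∂r < ⊤ := by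
      rw [eloc]
      refine lt_of_le_of_lt (b := ∫⁻ z in Metric.ball y 1,
        (ENNReal.ofReal (C2 ^ 2) * ENNReal.ofReal C1) * (ENNReal.ofReal (M.wl a D z) * KV z) ∂ν)
        ?_ ?_
      · refine setLIntegral_mono' measurableSet_ball fun z hz => ?_
        have hz' := hball z hz
        have e1 : ‖z - y‖ ^ 2 ≤ C2 ^ 2 * dist (M.ψ a y) (M.ψ a z) ^ 2 := by
          rw [← mul_pow]
          have := (h2 y z hy hz').2
          rw [norm_sub_rev] at this
          exact pow_le_pow_left₀ (norm_nonneg _) this 2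
        have e2 := inv_ofReal_le (by positivity : 0 < C2 ^ 2) e1
        have e3 : (1 : ENNReal) ≤ ENNReal.ofReal C1 * ENNReal.ofReal (M.wl a D z) := by
          rw [← ENNReal.ofReal_mul hC1'.le, ← ENNReal.ofReal_one]
          exact ENNReal.ofReal_le_ofReal (h1 z hz').2
        calc KX (M.ψ a z) ≤ ENNReal.ofReal (C2 ^ 2) * KV z := e2
          _ = ENNReal.ofReal (C2 ^ 2) * (1 * KV z) := by rw [one_mul]
          _ ≤ ENNReal.ofReal (C2 ^ 2) *
              ((ENNReal.ofReal C1 * ENNReal.ofReal (M.wl a D z)) * KV z) := by gcongr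
          _ = _ := by ring
      · rw [lintegral_const_mul _ (show Measurable fun z => ENNReal.ofReal (M.wl a D z) * KV z from
          mw.mul mKV), ← epot]
        exact ENNReal.mul_lt_top (ENNReal.mul_lt_top ENNReal.ofReal_lt_top
          ENNReal.ofReal_lt_top) hfin
    have : potX r (M.ψ a y) = ∫⁻ x in M.ψ a '' Metric.ball y 1, KX x ∂r +
        ∫⁻ x in (M.ψ a '' Metric.ball y 1)ᶜ, KX x ∂r :=
      (lintegral_add_compl KX hopen.measurableSet).symm
    rw [this]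
    exact ENNReal.add_lt_top.2 ⟨hnear, hfar⟩
  · intro hfin
    rw [epot]
    refine lt_of_le_of_lt (b := ∫⁻ z in Metric.ball y 1,
        (ENNReal.ofReal C1 * ENNReal.ofReal (C2 ^ 2)) * KX (M.ψ a z) ∂ν) ?_ ?_
    · refine setLIntegral_mono' measurableSet_ball fun z hz => ?_
      have hz' := hball z hz
      have e1 : dist (M.ψ a y) (M.ψ a z) ^ 2 ≤ C2 ^ 2 * ‖z - y‖ ^ 2 := by
        rw [← mul_pow]
        have := (h2 y z hy hz').1
        rw [norm_sub_rev] at this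
        exact pow_le_pow_left₀ dist_nonneg this 2
      have e2 := inv_ofReal_le (by positivity : 0 < C2 ^ 2) e1
      calc ENNReal.ofReal (M.wl a D z) * KV z
          ≤ ENNReal.ofReal C1 * (ENNReal.ofReal (C2 ^ 2) * KX (M.ψ a z)) := by
            gcongr
            exact (h1 z hz').1
        _ = _ := by ring
    · rw [lintegral_const_mul _ (show Measurable fun z => KX (M.ψ a z) from
        mKX.comp (M.measurable_ψ a)), ← eloc]
      refine ENNReal.mul_lt_top (ENNReal.mul_lt_top ENNReal.ofReal_lt_top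
        ENNReal.ofReal_lt_top) (lt_of_le_of_lt ?_ hfin)
      exact setLIntegral_le_lintegral _ _

/-- El Mir on `X` for a test form supported in one chart. -/
theorem elmir_chart (a : M.A) (r : Measure X) [IsFiniteMeasure r] (hD : Measurable D)
    (hc : ∀ x, Cone J0 (D x)) (hn : ∀ x, Q (D x) F0 = 1)
    (hcl : ∀ e ∈ M.Ex, ∫ x, Q (D x) ((e : X → L2) x) ∂r = 0)
    (hS : MeasurableSet {x | potX r x < ⊤}) {η : V4 → V4} (hη : TF η) :
    ∫ x in {x | potX r x < ⊤}, Q (D x) (M.ext a (d1 η) x) ∂r = 0 := by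
  have h := elmir (M.J_smooth a) (M.J_cx a) (M.J_pos a) (lcur a r hD hc hn hcl) η hη
  have h1 : {y | pot (M.ra a r D) y < ⊤} = M.ψ a ⁻¹' {x | potX r x < ⊤} := by
    ext y
    exact pot_iff_X a r hD hc hn y
  rw [h1, integral_ra a r hD hc hn hS] at h
  exact h

end CM
end Vale.Agent.P204.GX
end

section

/-!
# El Mir on `X`, part 3: measurability and boundedness of smooth forms, combination with the
smooth part, and the final statement
-/

open scoped BigOperators ContDiff Topology ENNReal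
open MeasureTheory Set

namespace Vale.Agent.P204.GX
open T4

section combine

variable {X : Type} [MeasurableSpace X]

theorem integrable_QQ {r : Measure X} [IsFiniteMeasure r] {D b : X → L2} (hD : Measurable D)
    (hDb : ∃ C : ℝ, ∀ x, ‖D x‖ ≤ C) (hb : Measurable b) (hbb : ∃ C : ℝ, ∀ x, ‖b x‖ ≤ C) :
    Integrable (fun x => Q (D x) (b x)) r := by
  obtain ⟨C, hC⟩ := hDb
  obtain ⟨C', hC'⟩ := hbb
  refine Integrable.of_bound (measurable_QQ hD hb).aestronglyMeasurable (6 * C * C')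
    (Filter.Eventually.of_forall fun x => ?_)
  rw [Real.norm_eq_abs]
  refine (abs_Q_le _ _).trans ?_
  have h1 : (0 : ℝ) ≤ C := (norm_nonneg _).trans (hC x)
  exact mul_le_mul (by linarith only [hC x]) (hC' x) (norm_nonneg _) (by positivity)

theorem exists_combine (μ p : Measure X) [IsFiniteMeasure μ] [IsFiniteMeasure p] {E : X → L2}
    (hE : Measurable E) (hc : ∀ x, Cone J0 (E x)) (hn : ∀ x, Q (E x) F0 = 1) :
    ∃ (r : Measure X) (D : X → L2), IsFiniteMeasure r ∧ Measurable D ∧ (∀ x, Cone J0 (D x)) ∧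
      (∀ x, Q (D x) F0 = 1) ∧ p ≤ r ∧
      ∀ b : X → L2, Measurable b → (∃ C : ℝ, ∀ x, ‖b x‖ ≤ C) →
        ∫ x, Q (D x) (b x) ∂r = ∫ x, Q F0 (b x) ∂μ + ∫ x, Q (E x) (b x) ∂p := by
  classical
  set μ2 : Measure X := μ + μ with hμ2
  set r : Measure X := μ2 + p with hr
  have hμr : μ2 ≪ r := Measure.absolutelyContinuous_of_le (Measure.le_add_right le_rfl)
  have hpr : p ≪ r := Measure.absolutelyContinuous_of_le (Measure.le_add_left le_rfl)
  set f1 := μ2.rnDeriv r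
  set f2 := p.rnDeriv r
  have hf1 : Measurable f1 := Measure.measurable_rnDeriv _ _
  have hf2 : Measurable f2 := Measure.measurable_rnDeriv _ _
  have hsum : ∀ᵐ x ∂r, f1 x + f2 x = 1 := by
    have h1 := Measure.rnDeriv_add μ2 p r
    have h2 := Measure.rnDeriv_self r
    filter_upwards [h1, h2] with x h1 h2
    rw [← hr] at h1
    rw [h2] at h1
    exact h1.symm
  have hF0c : Cone J0 F0 := by rw [← Fm_J0_eq]; exact cone_Fm isCx_J0
  have hset : MeasurableSet {x | f1 x + f2 x = 1} :=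
    (hf1.add hf2) (measurableSet_singleton 1)
  let D : X → L2 := fun x => if f1 x + f2 x = 1 then
    (f1 x).toReal • ((1 / 2 : ℝ) • F0) + (f2 x).toReal • E x else (1 / 2 : ℝ) • F0
  have hDm : Measurable D :=
    Measurable.ite hset ((hf1.ennreal_toReal.smul_const _).add (hf2.ennreal_toReal.smul hE))
      measurable_const
  refine ⟨r, D, inferInstance, hDm, ?_, ?_, Measure.le_add_left le_rfl, ?_⟩
  · intro x
    simp only [D]
    split_ifs
    · exact cone_add (cone_smul (cone_smul hF0c (by norm_num)) ENNReal.toReal_nonneg)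
        (cone_smul (hc x) ENNReal.toReal_nonneg)
    · exact cone_smul hF0c (by norm_num1)
  · intro x
    simp only [D]
    split_ifs with h
    · have h1 : f1 x ≠ ⊤ := by
        intro h0; rw [h0, top_add] at h; exact ENNReal.top_ne_one h
      have h2 : f2 x ≠ ⊤ := by
        intro h0; rw [h0, add_top] at h; exact ENNReal.top_ne_one h
      have h3 : (f1 x).toReal + (f2 x).toReal = 1 := by
        rw [← ENNReal.toReal_add h1 h2, h]; simp
      rw [Q_add_left, Q_smul_left, Q_smul_left, Q_smul_left, hn x, Q_F0]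
      linarith only [h3]
    · rw [Q_smul_left, Q_F0]; norm_num
  · intro b hb hbb
    have i1 : Integrable (fun x => (1 / 2 : ℝ) * Q F0 (b x)) μ :=
      (integrable_QQ measurable_const ⟨‖F0‖, fun _ => le_rfl⟩ hb hbb).const_mul _
    have hEb : ∃ C : ℝ, ∀ x, ‖E x‖ ≤ C := by
      obtain ⟨C, _, h⟩ := exists_norm_bound
      exact ⟨C, fun x => (h _ (hc x) (hn x)).1⟩
    have i2 : Integrable (fun x => Q (E x) (b x)) p := integrable_QQ hE hEb hb hbb
    have j1 : ∫ x, (f1 x).toReal • ((1 / 2 : ℝ) * Q F0 (b x)) ∂r =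
        ∫ x, (1 / 2 : ℝ) * Q F0 (b x) ∂μ2 := integral_rnDeriv_smul hμr
    have j2 : ∫ x, (f2 x).toReal • (Q (E x) (b x)) ∂r = ∫ x, Q (E x) (b x) ∂p :=
      integral_rnDeriv_smul hpr
    have k1 : Integrable (fun x => (f1 x).toReal • ((1 / 2 : ℝ) * Q F0 (b x))) r :=
      (integrable_rnDeriv_smul_iff hμr).2 (i1.add_measure i1)
    have k2 : Integrable (fun x => (f2 x).toReal • (Q (E x) (b x))) r :=
      (integrable_rnDeriv_smul_iff hpr).2 i2
    have l1 : ∫ x, (1 / 2 : ℝ) * Q F0 (b x) ∂μ2 = ∫ x, Q F0 (b x) ∂μ := by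
      rw [integral_add_measure i1 i1, integral_const_mul]
      ring
    rw [← l1, ← j1, ← j2, ← integral_add k1 k2]
    refine integral_congr_ae ?_
    filter_upwards [hsum] with x hx
    simp only [D, if_pos hx, Q_add_left, Q_smul_left, smul_eq_mul]

end combine

namespace CM
variable {X : Type} [MetricSpace X] {M : CM X}

theorem Om_bdd {b : X → L2} (hb : b ∈ M.Om) : ∃ C : ℝ, ∀ x, ‖b x‖ ≤ C := by
  choose C hC1 hC using fun a => M.exists_cf_bound a 1
  have h1 : ∀ a, ∃ B : ℝ, ∀ y ∈ Metric.closedBall (0 : V4) 1, ‖M.cf a b y‖ ≤ B := fun a =>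
    (isCompact_closedBall (0 : V4) 1).exists_bound_of_continuousOn (hb a).continuous.continuousOn
  choose B hB using h1
  refine ⟨∑ a, |C a * B a|, fun x => ?_⟩
  obtain ⟨a, y, hy, rfl⟩ := M.cov x
  have h2 := (hC a y hy.le b).2
  have h3 := hB a y (by simpa only [Metric.mem_closedBall, dist_zero_right] using hy.le)
  have h4 : C a * ‖M.cf a b y‖ ≤ C a * B a :=
    mul_le_mul_of_nonneg_left h3 (by linarith [hC1 a])
  calc ‖b (M.ψ a y)‖ ≤ C a * B a := h2.trans h4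
    _ ≤ |C a * B a| := le_abs_self _
    _ ≤ ∑ a, |C a * B a| :=
      Finset.single_le_sum (f := fun a => |C a * B a|) (fun _ _ => abs_nonneg _)
        (Finset.mem_univ a)

variable [MeasurableSpace X] [BorelSpace X]

theorem measurable_extX (a : M.A) {γ : V4 → L2} (hγ : Measurable γ) : Measurable (M.ext a γ) := by
  have h : M.ext a γ = Function.extend (M.ψ a) (fun y => pull (M.m' a y) (γ y)) 0 := by
    funext x
    by_cases hx : x ∈ range (M.ψ a)
    · obtain ⟨y, rfl⟩ := hx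
      rw [M.ext_ψ_self, (M.ψ_inj a).extend_apply]
    · rw [M.ext_of_notMem a γ hx, Function.extend_apply' _ _ _ (by simpa only [not_exists, mem_range] using hx)]
      rfl
  rw [h]
  exact (M.measurableEmbedding_ψ a).measurable_extend
    (measurable_pull (M.m'_meas a) hγ) measurable_const

theorem Om_measurable {b : X → L2} (hb : b ∈ M.Om) : Measurable b := by
  have h : b = fun x => ∑ a, M.ext a (M.cut b a) x := by
    conv_lhs => rw [← M.sum_ext_cut b]
    funext x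
    rw [Finset.sum_apply]
  rw [h]
  exact Finset.measurable_sum _ fun a _ =>
    measurable_extX a (M.contDiff_cut hb a).continuous.measurable

/-- El Mir on `X`: the restriction of a closed positive current to the set of finite potential is
closed. -/
theorem elmir_r [CompactSpace X] (r : Measure X) [IsFiniteMeasure r] {D : X → L2}
    (hD : Measurable D) (hc : ∀ x, Cone J0 (D x)) (hn : ∀ x, Q (D x) F0 = 1)
    (hcl : ∀ e ∈ M.Ex, ∫ x, Q (D x) ((e : X → L2) x) ∂r = 0) :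
    ∀ e ∈ M.Ex, ∫ x in {x | potX r x < ⊤}, Q (D x) ((e : X → L2) x) ∂r = 0 := by
  have hS : MeasurableSet {x | potX r x < ⊤} :=
    measurableSet_lt (measurable_potX r) measurable_const
  have hDb : ∃ C : ℝ, ∀ x, ‖D x‖ ≤ C := by
    obtain ⟨C, _, h⟩ := exists_norm_bound
    exact ⟨C, fun x => (h _ (hc x) (hn x)).1⟩
  have hint : ∀ b : M.Om, Integrable (fun x => Q (D x) ((b : X → L2) x))
      (r.restrict {x | potX r x < ⊤}) := fun b =>
    integrable_QQ hD hDb (Om_measurable b.2) (Om_bdd b.2)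
  intro e he
  induction he using Submodule.span_induction with
  | mem x hx =>
    obtain ⟨a, η, hη, rfl⟩ := hx
    exact elmir_chart a r hD hc hn hcl hS hη
  | zero => simp only [ZeroMemClass.coe_zero, Pi.zero_apply, Q_zero_right, integral_zero]
  | add x y _ _ hx hy =>
    have : (fun z => Q (D z) (((x + y : M.Om) : X → L2) z)) =
        fun z => Q (D z) ((x : X → L2) z) + Q (D z) ((y : X → L2) z) := by
      funext z
      rw [← Q_add_right]; rfl
    rw [this, integral_add (hint x) (hint y), hx, hy, add_zero]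
  | smul c x _ hx =>
    have : (fun z => Q (D z) (((c • x : M.Om) : X → L2) z)) =
        fun z => c * Q (D z) ((x : X → L2) z) := by
      funext z
      rw [← Q_smul_right]; rfl
    rw [this, integral_const_mul, hx, mul_zero]

/-- The final form of the El Mir step on `X`. -/
theorem elmir_X [CompactSpace X] {p : Measure X} {E : X → L2} (h : FnSys.Cur p E)
    (hcl : ∀ e ∈ M.Ex, ∫ x, Q F0 ((e : X → L2) x) ∂M.mu + FnSys.fn p E (e : X → L2) = 0)
    (hpolar : ∀ r : Measure X, IsFiniteMeasure r → ∀ᵐ x ∂M.mu, potX r x < ⊤) :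
    ∃ S : Set X, MeasurableSet S ∧ FnSys.Cur (p.restrict S) E ∧
      (∀ e ∈ M.Ex, ∫ x, Q F0 ((e : X → L2) x) ∂M.mu +
        FnSys.fn (p.restrict S) E (e : X → L2) = 0) ∧
      (∀ᵐ x ∂(p.restrict S), ∫⁻ y, (ENNReal.ofReal (dist x y ^ 2))⁻¹ ∂(p.restrict S) < ⊤) := by
  have := h.fin
  obtain ⟨r, D, hr, hD, hDc, hDn, hpr, hint⟩ := exists_combine M.mu p h.meas h.cone h.norm
  have hS : MeasurableSet {x | potX r x < ⊤} :=
    measurableSet_lt (measurable_potX r) measurable_const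
  refine ⟨{x | potX r x < ⊤}, hS, ⟨inferInstance, h.meas, h.cone, h.norm⟩, ?_, ?_⟩
  · have hcl' : ∀ e ∈ M.Ex, ∫ x, Q (D x) ((e : X → L2) x) ∂r = 0 := fun e he => by
      rw [hint _ (Om_measurable e.2) (Om_bdd e.2)]
      exact hcl e he
    intro e he
    have h1 := elmir_r r hD hDc hDn hcl' e he
    have h2 : ∀ (ν : Measure X) (G : X → L2), ∫ x in {x | potX r x < ⊤},
        Q (G x) ((e : X → L2) x) ∂ν =
        ∫ x, Q (G x) (({x | potX r x < ⊤}.indicator (e : X → L2)) x) ∂ν := by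
      intro ν G
      rw [← integral_indicator hS]
      congr 1
      funext x
      by_cases hx : x ∈ {x | potX r x < ⊤}
      · rw [indicator_of_mem hx, indicator_of_mem hx]
      · rw [indicator_of_notMem hx, indicator_of_notMem hx]
        simp
    rw [h2, hint _ ((Om_measurable e.2).indicator hS), ← h2, ← h2] at h1
    · have h3 : ∫ x in {x | potX r x < ⊤}, Q F0 ((e : X → L2) x) ∂M.mu =
          ∫ x, Q F0 ((e : X → L2) x) ∂M.mu := by
        rw [Measure.restrict_eq_self_of_ae_mem]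
        exact hpolar r hr
      rw [← h3]
      exact h1
    · obtain ⟨C, hC⟩ := Om_bdd e.2
      refine ⟨C, fun x => ?_⟩
      by_cases hx : x ∈ {x | potX r x < ⊤}
      · rw [indicator_of_mem hx]; exact hC x
      · rw [indicator_of_notMem hx, norm_zero]
        exact (norm_nonneg _).trans (hC x)
  · rw [ae_restrict_iff' hS]
    refine Filter.Eventually.of_forall fun x hx => ?_
    refine lt_of_le_of_lt ?_ hx
    exact lintegral_mono' (Measure.restrict_le_self.trans hpr) le_rfl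

end CM
end Vale.Agent.P204.GX
end

section

/-!
# El Mir on `X`, part 4: volume of balls, polar sets are null
-/

open scoped BigOperators ContDiff Topology ENNReal
open MeasureTheory Set

namespace Vale.Agent.P204.GX
open T4

section kernel

variable {X : Type} [MetricSpace X] [MeasurableSpace X] [BorelSpace X]

theorem measure_singleton_zero (μ : Measure X) [IsFiniteMeasure μ] {c : ℝ}
    (hvol : ∀ x (r : ℝ), 0 ≤ r → (μ (Metric.ball x r)).toReal ≤ c * r ^ 4) (y : X) :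
    μ {y} = 0 := by
  have h1 : ∀ r : ℝ, 0 < r → (μ {y}).toReal ≤ c * r ^ 4 := fun r hr =>
    (ENNReal.toReal_mono (measure_ne_top _ _)
      (measure_mono (singleton_subset_iff.2 (Metric.mem_ball_self hr)))).trans (hvol y r hr.le)
  have h2 : Filter.Tendsto (fun r : ℝ => c * r ^ 4) (𝓝[>] 0) (𝓝 0) := by
    have : Filter.Tendsto (fun r : ℝ => c * r ^ 4) (𝓝 0) (𝓝 (c * 0 ^ 4)) :=
      (continuous_const.mul (continuous_id.pow 4)).tendsto 0
    simp only [ne_eq, OfNat.ofNat_ne_zero, not_false_eq_true, zero_pow, mul_zero] at this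
    exact this.mono_left nhdsWithin_le_nhds
  have h3 : (μ {y}).toReal ≤ 0 :=
    ge_of_tendsto h2 (by filter_upwards [self_mem_nhdsWithin] with r hr using h1 r hr)
  have h4 := (ENNReal.toReal_eq_zero_iff _).1 (le_antisymm h3 ENNReal.toReal_nonneg)
  exact h4.resolve_right (measure_ne_top _ _)

theorem kernel_bound (μ : Measure X) [IsFiniteMeasure μ] {c : ℝ}
    (hvol : ∀ x (r : ℝ), 0 ≤ r → (μ (Metric.ball x r)).toReal ≤ c * r ^ 4) :
    ∃ B : ENNReal, B < ⊤ ∧ ∀ y, ∫⁻ x, (ENNReal.ofReal (dist x y ^ 2))⁻¹ ∂μ ≤ B := by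
  refine ⟨0 + (μ univ + ∑' k : ℕ, ENNReal.ofReal (64 * |c| * (1 / 4 : ℝ) ^ k)), ?_, fun y => ?_⟩
  · rw [zero_add]
    refine ENNReal.add_lt_top.2 ⟨measure_lt_top _ _, ?_⟩
    have hsum : Summable fun k : ℕ => 64 * |c| * (1 / 4 : ℝ) ^ k :=
      (summable_geometric_of_lt_one (by norm_num1) (by norm_num1)).mul_left _
    rw [← ENNReal.ofReal_tsum_of_nonneg (fun k => by positivity) hsum]
    exact ENNReal.ofReal_lt_top
  · set K : X → ENNReal := fun x => (ENNReal.ofReal (dist x y ^ 2))⁻¹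
    set A : ℕ → Set X := fun k => {x | (1 / 2 : ℝ) ^ (k + 1) ≤ dist x y ∧ dist x y ≤ (1 / 2) ^ k}
    set A0 : Set X := {x | 1 ≤ dist x y}
    have hcov : (univ : Set X) ⊆ {y} ∪ (A0 ∪ ⋃ k, A k) := by
      intro x _
      by_cases hxy : x = y
      · exact Or.inl hxy
      · right
        by_cases h1 : 1 ≤ dist x y
        · exact Or.inl h1
        · right
          have hpos : 0 < dist x y := dist_pos.2 hxy
          obtain ⟨k, hk1, hk2⟩ := exists_nat_pow_near_of_lt_one hpos (not_le.1 h1).le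
            (by norm_num : (0 : ℝ) < 1 / 2) (by norm_num)
          exact mem_iUnion.2 ⟨k, hk1.le, hk2⟩
    have hK1 : ∀ {ε : ℝ} {x : X}, 0 < ε → ε ≤ dist x y → K x ≤ (ENNReal.ofReal (ε ^ 2))⁻¹ :=
      fun hε hx => ENNReal.inv_le_inv.2
        (ENNReal.ofReal_le_ofReal (pow_le_pow_left₀ hε.le hx 2))
    have hmA0 : MeasurableSet A0 :=
      measurableSet_le measurable_const (continuous_id.dist continuous_const).measurable
    have hmA : ∀ k, MeasurableSet (A k) := fun k =>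
      (measurableSet_le measurable_const (continuous_id.dist continuous_const).measurable).inter
        (measurableSet_le (continuous_id.dist continuous_const).measurable measurable_const)
    calc ∫⁻ x, K x ∂μ = ∫⁻ x in univ, K x ∂μ := by rw [Measure.restrict_univ]
      _ ≤ ∫⁻ x in {y} ∪ (A0 ∪ ⋃ k, A k), K x ∂μ := lintegral_mono_set hcov
      _ ≤ ∫⁻ x in {y}, K x ∂μ + ∫⁻ x in A0 ∪ ⋃ k, A k, K x ∂μ := lintegral_union_le _ _ _
      _ ≤ ∫⁻ x in {y}, K x ∂μ + (∫⁻ x in A0, K x ∂μ + ∫⁻ x in ⋃ k, A k, K x ∂μ) := by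
          gcongr
          exact lintegral_union_le _ _ _
      _ ≤ 0 + (μ univ + ∑' k : ℕ, ENNReal.ofReal (64 * |c| * (1 / 4 : ℝ) ^ k)) := by
          gcongr
          · rw [setLIntegral_measure_zero _ _ (measure_singleton_zero μ hvol y)]
          · calc ∫⁻ x in A0, K x ∂μ ≤ ∫⁻ _ in A0, 1 ∂μ := by
                  refine setLIntegral_mono' hmA0 fun x hx => ?_
                  have := hK1 one_pos hx
                  simpa only [ge_iff_le, one_pow, ENNReal.ofReal_one, inv_one] using this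
              _ ≤ μ univ := by
                  rw [lintegral_const, one_mul, Measure.restrict_apply_univ]
                  exact measure_mono (subset_univ _)
          · refine (lintegral_iUnion_le _ _).trans (ENNReal.tsum_le_tsum fun k => ?_)
            have h5 : μ (A k) ≤ ENNReal.ofReal (|c| * (2 * (1 / 2 : ℝ) ^ k) ^ 4) := by
              have h6 : A k ⊆ Metric.ball y (2 * (1 / 2) ^ k) := fun x hx => by
                have h7 : (0 : ℝ) < (1 / 2) ^ k := by positivity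
                have h8 : dist x y ≤ (1 / 2) ^ k := hx.2
                rw [Metric.mem_ball]
                linarith
              refine (measure_mono h6).trans ?_
              rw [← ENNReal.ofReal_toReal (measure_ne_top μ (Metric.ball y (2 * (1 / 2) ^ k)))]
              refine ENNReal.ofReal_le_ofReal ((hvol y _ (by positivity)).trans ?_)
              exact mul_le_mul_of_nonneg_right (le_abs_self c) (by positivity)
            calc ∫⁻ x in A k, K x ∂μ
                ≤ ∫⁻ _ in A k, (ENNReal.ofReal (((1 / 2 : ℝ) ^ (k + 1)) ^ 2))⁻¹ ∂μ :=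
                  setLIntegral_mono' (hmA k) fun x hx => hK1 (by positivity) hx.1
              _ = (ENNReal.ofReal (((1 / 2 : ℝ) ^ (k + 1)) ^ 2))⁻¹ * μ (A k) := by
                  rw [lintegral_const, Measure.restrict_apply_univ]
              _ ≤ (ENNReal.ofReal (((1 / 2 : ℝ) ^ (k + 1)) ^ 2))⁻¹ *
                  ENNReal.ofReal (|c| * (2 * (1 / 2 : ℝ) ^ k) ^ 4) := by gcongr
              _ = ENNReal.ofReal (64 * |c| * (1 / 4 : ℝ) ^ k) := by
                  rw [← ENNReal.ofReal_inv_of_pos (by positivity),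
                    ← ENNReal.ofReal_mul (by positivity)]
                  congr 1
                  have e1 : ((1 / 2 : ℝ) ^ (k + 1)) ^ 2 = (1 / 4) * (1 / 4) ^ k := by
                    rw [← pow_mul, mul_comm (k + 1) 2, pow_mul, pow_succ]; norm_num; ring
                  have e2 : (2 * (1 / 2 : ℝ) ^ k) ^ 4 = 16 * ((1 / 4) ^ k * (1 / 4) ^ k) := by
                    rw [mul_pow, ← pow_mul, mul_comm k 4, pow_mul, ← mul_pow]; ring1
                  rw [e1, e2]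
                  have : (1 / 4 : ℝ) ^ k ≠ 0 := by positivity
                  field_simp
                  ring

/-- Finite potentials almost everywhere. -/
theorem potX_ae [SecondCountableTopology X] (μ : Measure X) [IsFiniteMeasure μ] {c : ℝ}
    (hvol : ∀ x (r : ℝ), 0 ≤ r → (μ (Metric.ball x r)).toReal ≤ c * r ^ 4)
    (r : Measure X) [IsFiniteMeasure r] : ∀ᵐ x ∂μ, potX r x < ⊤ := by
  obtain ⟨B, hB, h⟩ := kernel_bound μ hvol
  have hk : Measurable fun p : X × X => (ENNReal.ofReal (dist p.1 p.2 ^ 2))⁻¹ := by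
    have : Continuous fun p : X × X => dist p.1 p.2 ^ 2 := continuous_dist.pow 2
    exact (this.measurable.ennreal_ofReal).inv
  refine ae_lt_top (measurable_potX r) ?_
  have h1 : ∫⁻ x, potX r x ∂μ = ∫⁻ y, ∫⁻ x, (ENNReal.ofReal (dist x y ^ 2))⁻¹ ∂μ ∂r :=
    lintegral_lintegral_swap hk.aemeasurable
  rw [h1]
  refine ne_of_lt (lt_of_le_of_lt (lintegral_mono fun y => h y) ?_)
  rw [lintegral_const]
  exact ENNReal.mul_lt_top hB (measure_lt_top _ _)

end kernel

namespace CM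
variable {X : Type} [MetricSpace X] {M : CM X} [MeasurableSpace X] [BorelSpace X]

/-- Volume growth of balls. -/
theorem exists_vol [CompactSpace X] : ∃ c : ℝ, 1 ≤ c ∧ ∀ x (r : ℝ), 0 ≤ r →
    (M.mu (Metric.ball x r)).toReal ≤ c * r ^ 4 := by
  obtain ⟨δ, hδ, hleb⟩ := lebesgue_number_lemma_of_metric (isCompact_univ (X := X))
    (c := fun a : M.A => M.ψ a '' Metric.ball 0 1)
    (fun a => (M.ψo a).isOpenMap _ Metric.isOpen_ball)
    (fun x _ => by
      obtain ⟨a, y, hy, hx⟩ := M.cov x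
      exact mem_iUnion.2 ⟨a, y, by simpa only [Metric.mem_ball, dist_zero_right] using hy, hx⟩)
  choose L hL hLip using fun a => M.lip a 1
  have hdet : ∀ a : M.A, ∃ B : ℝ, ∀ y ∈ Metric.closedBall (0 : V4) 1, ‖det4 (M.m a y)‖ ≤ B :=
    fun a => (isCompact_closedBall (0 : V4) 1).exists_bound_of_continuousOn
      (M.continuous_det_m a).continuousOn
  choose B hB using hdet
  have hBn : ∀ a, 0 ≤ B a := fun a =>
    (norm_nonneg _).trans (hB a 0 (by simp only [Metric.mem_closedBall, dist_self, zero_le_one]))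
  set c1 : ℝ := ∑ a, B a * (2 * L a) ^ 4 with hc1
  have hc1n : 0 ≤ c1 := Finset.sum_nonneg fun a _ => mul_nonneg (hBn a) (by positivity)
  set c2 : ℝ := (M.mu univ).toReal / δ ^ 4 with hc2
  have hc2n : 0 ≤ c2 := div_nonneg ENNReal.toReal_nonneg (by positivity)
  refine ⟨1 + c1 + c2, by linarith only [hc1n, hc2n], fun x r hr => ?_⟩
  rcases hr.eq_or_lt with rfl | hr0
  · simp only [Metric.ball_zero, measure_empty, ENNReal.toReal_zero, ne_eq, OfNat.ofNat_ne_zero, not_false_eq_true, zero_pow, mul_zero, Std.le_refl]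
  rcases le_or_gt r δ with hrδ | hrδ
  · obtain ⟨a, ha⟩ := hleb x (mem_univ x)
    have hsub : Metric.ball x r ⊆ M.ψ a '' Metric.ball 0 1 :=
      (Metric.ball_subset_ball hrδ).trans ha
    obtain ⟨y0, hy0, rfl⟩ := hsub (Metric.mem_ball_self hr0)
    have hy0' : ‖y0‖ < 1 := by simpa only [Metric.mem_ball, dist_zero_right] using hy0
    have hrange : Metric.ball (M.ψ a y0) r ⊆ range (M.ψ a) := hsub.trans (image_subset_range _ _)
    have hmb : MeasurableSet (Metric.ball (M.ψ a y0) r) := measurableSet_ball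
    have h1 : M.mu (Metric.ball (M.ψ a y0) r) =
        ∫⁻ y in M.ψ a ⁻¹' Metric.ball (M.ψ a y0) r, ENNReal.ofReal (det4 (M.m a y)) := by
      have h2 : M.mu (Metric.ball (M.ψ a y0) r) =
          M.mu.restrict (range (M.ψ a)) (Metric.ball (M.ψ a y0) r) := by
        rw [Measure.restrict_apply hmb, inter_eq_left.2 hrange]
      rw [h2, M.mu_restrict a, Measure.map_apply (M.measurable_ψ a) hmb,
        withDensity_apply _ (hmb.preimage (M.measurable_ψ a))]
    have hin : ∀ y ∈ M.ψ a ⁻¹' Metric.ball (M.ψ a y0) r, ‖y‖ < 1 := by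
      intro y hy
      obtain ⟨z, hz, hzy⟩ := hsub hy
      rw [← M.ψ_inj a hzy]
      simpa only [Metric.mem_ball, dist_zero_right] using hz
    have h3 : M.ψ a ⁻¹' Metric.ball (M.ψ a y0) r ⊆ Metric.ball y0 (L a * r) := by
      intro y hy
      have h4 := (hLip a y y0 (hin y hy).le hy0'.le).2
      have h5 : dist (M.ψ a y) (M.ψ a y0) < r := hy
      rw [Metric.mem_ball, dist_eq_norm]
      exact lt_of_le_of_lt h4 (mul_lt_mul_of_pos_left h5 (hL a))
    have h6 : M.mu (Metric.ball (M.ψ a y0) r) ≤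
        ENNReal.ofReal (B a) * ENNReal.ofReal ((2 * (L a * r)) ^ 4) := by
      rw [h1]
      calc ∫⁻ y in M.ψ a ⁻¹' Metric.ball (M.ψ a y0) r, ENNReal.ofReal (det4 (M.m a y))
          ≤ ∫⁻ _ in M.ψ a ⁻¹' Metric.ball (M.ψ a y0) r, ENNReal.ofReal (B a) := by
            refine setLIntegral_mono' (hmb.preimage (M.measurable_ψ a)) fun y hy => ?_
            refine ENNReal.ofReal_le_ofReal ((le_abs_self _).trans ?_)
            exact hB a y (by simpa only [Metric.mem_closedBall, dist_zero_right] using (hin y hy).le)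
        _ = ENNReal.ofReal (B a) * volume (M.ψ a ⁻¹' Metric.ball (M.ψ a y0) r) := by
            rw [lintegral_const, Measure.restrict_apply_univ]
        _ ≤ ENNReal.ofReal (B a) * volume (Metric.ball y0 (L a * r)) := by gcongr
        _ = _ := by
            rw [Real.volume_pi_ball _ (mul_pos (hL a) hr0)]
            simp only [Fintype.card_fin]
    have h7 : (M.mu (Metric.ball (M.ψ a y0) r)).toReal ≤ B a * (2 * (L a * r)) ^ 4 := by
      have := ENNReal.toReal_mono (ENNReal.mul_ne_top ENNReal.ofReal_ne_top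
        ENNReal.ofReal_ne_top) h6
      rwa [ENNReal.toReal_mul, ENNReal.toReal_ofReal (hBn a),
        ENNReal.toReal_ofReal (by positivity)] at this
    have h8 : B a * (2 * (L a * r)) ^ 4 = (B a * (2 * L a) ^ 4) * r ^ 4 := by ring
    have h9 : B a * (2 * L a) ^ 4 ≤ c1 :=
      Finset.single_le_sum (f := fun a => B a * (2 * L a) ^ 4)
        (fun a _ => mul_nonneg (hBn a) (by positivity)) (Finset.mem_univ a)
    rw [h8] at h7
    exact h7.trans (mul_le_mul_of_nonneg_right (by linarith only [hc2n, h9]) (by positivity))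
  · have h1 : (M.mu (Metric.ball x r)).toReal ≤ (M.mu univ).toReal :=
      ENNReal.toReal_mono (measure_ne_top _ _) (measure_mono (subset_univ _))
    have h2 : (M.mu univ).toReal = c2 * δ ^ 4 := by
      rw [hc2]; field_simp
    have h3 : δ ^ 4 ≤ r ^ 4 := pow_le_pow_left₀ hδ.le hrδ.le 4
    calc (M.mu (Metric.ball x r)).toReal ≤ c2 * δ ^ 4 := by rw [← h2]; exact h1
      _ ≤ c2 * r ^ 4 := mul_le_mul_of_nonneg_left h3 hc2n
      _ ≤ (1 + c1 + c2) * r ^ 4 := mul_le_mul_of_nonneg_right (by linarith only [hc1n]) (by positivity)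

/-- The final form of the El Mir step on `X`. -/
theorem elmir_main [CompactSpace X] {p : Measure X} {E : X → L2} (h : FnSys.Cur p E)
    (hcl : ∀ e ∈ M.Ex, ∫ x, Q F0 ((e : X → L2) x) ∂M.mu + FnSys.fn p E (e : X → L2) = 0) :
    ∃ S : Set X, MeasurableSet S ∧ FnSys.Cur (p.restrict S) E ∧
      (∀ e ∈ M.Ex, ∫ x, Q F0 ((e : X → L2) x) ∂M.mu +
        FnSys.fn (p.restrict S) E (e : X → L2) = 0) ∧
      (∀ᵐ x ∂(p.restrict S), ∫⁻ y, (ENNReal.ofReal (dist x y ^ 2))⁻¹ ∂(p.restrict S) < ⊤) := by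
  obtain ⟨c, _, hvol⟩ := exists_vol (M := M)
  exact elmir_X h hcl fun r _ => potX_ae M.mu hvol r

end CM
end Vale.Agent.P204.GX
end

section

/-! An integral of the weight: `∫ (‖y - y₀‖ + δ)⁻²` over a ball of `ℝ⁴` is bounded uniformly in `δ`. -/

open scoped BigOperators ContDiff
open MeasureTheory

namespace Vale.Agent.P204.T4

theorem gint_one (R : ℝ) : IntegrableOn (fun t : ℝ => |t| ^ (-(1 / 2) : ℝ)) (Set.Icc (-R) R) := by
  have h1 : IntervalIntegrable (fun t : ℝ => |t| ^ (-(1 / 2) : ℝ)) volume (-R) R := by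
    have h2 : ∀ a : ℝ, IntervalIntegrable (fun t : ℝ => |t| ^ (-(1 / 2) : ℝ)) volume 0 a := by
      intro a
      rcases le_total 0 a with h | h
      · have h3 : IntervalIntegrable (fun t : ℝ => t ^ (-(1 / 2) : ℝ)) volume 0 a :=
          intervalIntegral.intervalIntegrable_rpow' (by norm_num1)
        refine h3.congr ?_
        intro t ht
        rw [Set.uIoc_of_le h] at ht
        simp only [abs_of_pos ht.1]
      · have h3 : IntervalIntegrable (fun t : ℝ => t ^ (-(1 / 2) : ℝ)) volume 0 (-a) :=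
          intervalIntegral.intervalIntegrable_rpow' (by norm_num1)
        have h4 := (IntervalIntegrable.iff_comp_neg (f := fun t : ℝ => |t| ^ (-(1 / 2) : ℝ))
          (a := 0) (b := a)).2
        apply h4
        rw [neg_zero]
        refine h3.congr ?_
        intro t ht
        rw [Set.uIoc_of_le (by linarith only [h])] at ht
        simp only [abs_neg, abs_of_pos ht.1]
    exact (h2 (-R)).symm.trans (h2 R)
  rcases le_total (-R) R with h | h
  · rw [intervalIntegrable_iff_integrableOn_Icc_of_le h] at h1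
    exact h1
  · rcases h.eq_or_lt with h' | h'
    · rw [← h', Set.Icc_self]
      simp only [one_div, ne_eq, enorm_ne_top, not_false_eq_true, integrableOn_singleton_iff, enorm_eq_zero, abs_nonneg, neg_eq_zero, inv_eq_zero, OfNat.ofNat_ne_zero, Real.rpow_eq_zero, abs_eq_zero, measure_singleton, ENNReal.zero_lt_top, or_true]
    · rw [Set.Icc_eq_empty (not_le.2 h')]
      exact integrableOn_empty

/-- the one-dimensional constant -/
noncomputable def gI0 (R : ℝ) : ℝ := ∫ t in Set.Icc (-R) R, |t| ^ (-(1 / 2) : ℝ)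

theorem gint_delta {R δ : ℝ} (hδ : 0 < δ) :
    ∫ t in Set.Icc (-R) R, (|t| + δ) ^ (-(1 / 2) : ℝ) ≤ gI0 R := by
  unfold gI0
  apply integral_mono_of_nonneg
  · filter_upwards with t
    positivity
  · exact gint_one R
  · have h0 : ∀ᵐ t : ℝ ∂(volume.restrict (Set.Icc (-R) R)), t ≠ 0 := by
      apply ae_restrict_of_ae
      have : volume {(0 : ℝ)} = 0 := by simp
      exact compl_mem_ae_iff.2 this
    filter_upwards [h0] with t ht
    have h1 : 0 < |t| := abs_pos.2 ht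
    exact Real.rpow_le_rpow_of_nonpos h1 (by linarith) (by norm_num1)

theorem gint_ball {R δ : ℝ} (hδ : 0 < δ) (y0 : V4) :
    ∫ y in Metric.closedBall y0 R, (‖y - y0‖ + δ) ^ (-2 : ℤ) ≤ gI0 R ^ 4 := by
  have h1 : ∫ y in Metric.closedBall y0 R, (‖y - y0‖ + δ) ^ (-2 : ℤ) =
      ∫ y, (Metric.closedBall (0 : V4) R).indicator (fun w => (‖w‖ + δ) ^ (-2 : ℤ)) (y - y0) := by
    rw [← integral_indicator Metric.isClosed_closedBall.measurableSet]
    congr 1
    funext y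
    by_cases hy : y ∈ Metric.closedBall y0 R
    · rw [Set.indicator_of_mem hy, Set.indicator_of_mem]
      rw [Metric.mem_closedBall, dist_eq_norm] at hy ⊢
      simpa only [sub_zero] using hy
    · rw [Set.indicator_of_notMem hy, Set.indicator_of_notMem]
      rw [Metric.mem_closedBall, dist_eq_norm] at hy ⊢
      simpa only [sub_zero, not_le] using hy
  rw [h1, integral_sub_right_eq_self (fun y => (Metric.closedBall (0 : V4) R).indicator
    (fun w => (‖w‖ + δ) ^ (-2 : ℤ)) y) y0]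
  set f : ℝ → ℝ := (Set.Icc (-R) R).indicator (fun t => (|t| + δ) ^ (-(1 / 2) : ℝ)) with hf
  have hint : IntegrableOn (fun t : ℝ => (|t| + δ) ^ (-(1 / 2) : ℝ)) (Set.Icc (-R) R) := by
    apply ContinuousOn.integrableOn_compact isCompact_Icc
    apply ContinuousOn.rpow_const
    · fun_prop
    · intro t _
      left
      positivity
  have hf1 : Integrable f := by
    rw [hf, integrable_indicator_iff measurableSet_Icc]
    exact hint
  have h2 : ∫ w : V4, ∏ i : Fin 4, f (w i) = ∏ i : Fin 4, ∫ t, f t :=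
    integral_fintype_prod_eq_prod (fun _ => f)
  have h3 : ∫ t, f t ≤ gI0 R := by
    rw [hf, integral_indicator measurableSet_Icc]
    exact gint_delta hδ
  have h4 : 0 ≤ ∫ t, f t := by
    apply integral_nonneg
    intro t
    rw [hf]
    apply Set.indicator_nonneg
    intro x _
    positivity
  have h5 : ∏ i : Fin 4, ∫ t, f t ≤ gI0 R ^ 4 := by
    rw [Finset.prod_const, Finset.card_univ, Fintype.card_fin]
    exact pow_le_pow_left₀ h4 h3 4
  refine le_trans ?_ (h2 ▸ h5)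
  apply integral_mono_of_nonneg
  · filter_upwards with w
    apply Set.indicator_nonneg
    intro x _
    positivity
  · exact Integrable.fintype_prod (fun _ => hf1)
  · filter_upwards with w
    by_cases hw : w ∈ Metric.closedBall (0 : V4) R
    · rw [Set.indicator_of_mem hw]
      rw [Metric.mem_closedBall, dist_zero_right] at hw
      have h6 : ∀ i, f (w i) = (|w i| + δ) ^ (-(1 / 2) : ℝ) := by
        intro i
        rw [hf, Set.indicator_of_mem]
        have := norm_le_pi_norm w i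
        rw [Real.norm_eq_abs] at this
        exact abs_le.1 (this.trans hw)
      have h7 : ∀ i ∈ (Finset.univ : Finset (Fin 4)), (‖w‖ + δ) ^ (-(1 / 2) : ℝ) ≤ f (w i) := by
        intro i _
        rw [h6]
        have := norm_le_pi_norm w i
        rw [Real.norm_eq_abs] at this
        exact Real.rpow_le_rpow_of_nonpos (by positivity) (by linarith only [this]) (by norm_num)
      have h8 := Finset.prod_le_prod (s := (Finset.univ : Finset (Fin 4)))
        (f := fun _ => (‖w‖ + δ) ^ (-(1 / 2) : ℝ)) (fun i _ => by positivity) h7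
      refine le_trans (le_of_eq ?_) h8
      have hp : 0 < ‖w‖ + δ := by positivity
      rw [Finset.prod_const, Finset.card_univ, Fintype.card_fin, ← Real.rpow_natCast,
        ← Real.rpow_mul hp.le, ← Real.rpow_intCast]
      norm_num
    · rw [Set.indicator_of_notMem hw]
      apply Finset.prod_nonneg
      intro i _
      rw [hf]
      apply Set.indicator_nonneg
      intro x _
      positivity

end Vale.Agent.P204.T4
end

section

/-!
The Hilbert space `H = L2(X, mu; E6)` of square integrable two-forms and the inclusion of the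
smooth forms.
-/

set_option linter.all false

open MeasureTheory Set Filter
open scoped ContDiff InnerProductSpace Topology

namespace Vale.Agent.P204.GX.Hil
open Vale.Agent.P204.T4 Vale.Agent.P204.GX

section V4part

/-- test function characterisation of nonnegativity -/
theorem ae_nonneg_of_smooth {h : V4 → ℝ} (hh : LocallyIntegrable h volume)
    (hT : ∀ g : V4 → ℝ, ContDiff ℝ ∞ g → HasCompactSupport g → (∀ y, 0 ≤ g y) →
      0 ≤ ∫ y, g y * h y) : ∀ᵐ y, 0 ≤ h y := by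
  let φ : ℕ → ContDiffBump (0 : V4) := fun n =>
    { rIn := 1 / (n + 1)
      rOut := 2 / (n + 1)
      rIn_pos := by positivity
      rIn_lt_rOut := by
        rw [div_lt_div_iff_of_pos_right (by positivity)]
        norm_num }
  have h1 : Tendsto (fun n => (φ n).rOut) atTop (𝓝 0) := by
    change Tendsto (fun n : ℕ => (2 : ℝ) / ((n : ℝ) + 1)) atTop (𝓝 0)
    exact tendsto_const_nhds.div_atTop
      (tendsto_atTop_add_const_right _ _ tendsto_natCast_atTop_atTop)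
  have h2 : ∀ᶠ n in atTop, (φ n).rOut ≤ 2 * (φ n).rIn := Eventually.of_forall fun n => by
    change (2 : ℝ) / ((n : ℝ) + 1) ≤ 2 * (1 / ((n : ℝ) + 1))
    rw [mul_one_div]
  filter_upwards [ContDiffBump.ae_convolution_tendsto_right_of_locallyIntegrable h1 h2 hh]
    with y hy
  refine ge_of_tendsto' hy fun n => ?_
  rw [convolution_eq_swap]
  simp only [ContinuousLinearMap.lsmul_apply, smul_eq_mul]
  apply hT (fun t => (φ n).normed volume (y - t))
  · exact (φ n).contDiff_normed.comp (contDiff_const.sub contDiff_id)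
  · have := (φ n).hasCompactSupport_normed (μ := volume)
    exact this.comp_homeomorph (Homeomorph.subLeft y)
  · intro t
    exact (φ n).nonneg_normed _

end V4part

theorem measurable_pull_pair : Measurable (fun p : M4 × L2 => pull p.1 p.2) :=
  continuous_pull.measurable

theorem measurable_pull_comp {f : V4 → M4} {g : V4 → L2} (hf : Measurable f) (hg : Measurable g) :
    Measurable (fun y => pull (f y) (g y)) :=
  Measurable.comp (g := fun p : M4 × L2 => pull p.1 p.2) (f := fun y => (f y, g y))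
    measurable_pull_pair (hf.prodMk hg)

variable {X : Type} [MetricSpace X] [MeasurableSpace X] [BorelSpace X] (M : CM X)

omit [MeasurableSpace X] [BorelSpace X] in
theorem ext_eq_extend (a : M.A) (γ : V4 → L2) :
    M.ext a γ = Function.extend (M.ψ a) (fun y => pull (M.m' a y) (γ y)) 0 := by
  funext x
  by_cases h : x ∈ range (M.ψ a)
  · obtain ⟨y, rfl⟩ := h
    rw [M.ext_ψ_self, (M.ψ_inj a).extend_apply]
  · rw [M.ext_of_notMem a γ h, Function.extend_apply' _ _ _ (by simpa only [not_exists, mem_range] using h)]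
    rfl

theorem measurable_ext (a : M.A) {γ : V4 → L2} (hγ : Measurable γ) : Measurable (M.ext a γ) := by
  rw [ext_eq_extend]
  apply (M.measurableEmbedding_ψ a).measurable_extend _ measurable_zero
  exact measurable_pull_comp (M.m'_meas a) hγ

theorem measurable_of_cf {u : X → L2} (hu : ∀ a, Measurable (M.cf a u)) : Measurable u := by
  have h := M.sum_ext_cut u
  have h2 : u = fun x => ∑ a, M.ext a (M.cut u a) x := by
    conv_lhs => rw [← h]
    funext x
    rw [Finset.sum_apply]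
  rw [h2]
  apply Finset.measurable_sum
  intro a _
  apply measurable_ext
  exact (M.measurable_zl a).smul (hu a)

theorem measurable_Om {u : X → L2} (hu : u ∈ M.Om) : Measurable u :=
  measurable_of_cf M fun a => (hu a).continuous.measurable

theorem measurable_C0 {u : X → L2} (hu : u ∈ M.C0) : Measurable u :=
  measurable_of_cf M fun a => (hu a).measurable

omit [MeasurableSpace X] [BorelSpace X] in
theorem bounded_C0 {u : X → L2} (hu : u ∈ M.C0) : ∃ C, 0 ≤ C ∧ ∀ x, ‖u x‖ ≤ C := by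
  have h1 : ∀ a : M.A, ∃ C, 0 ≤ C ∧ ∀ y, ‖y‖ ≤ 1 → ‖u (M.ψ a y)‖ ≤ C := by
    intro a
    obtain ⟨C, hC1, hC⟩ := M.exists_cf_bound a 1
    obtain ⟨D, hD⟩ := (isCompact_closedBall (0 : V4) 1).exists_bound_of_continuousOn
      (hu a).continuousOn
    refine ⟨C * max D 0, by positivity, fun y hy => ?_⟩
    refine ((hC y hy u).2).trans ?_
    apply mul_le_mul_of_nonneg_left _ (by linarith)
    exact (hD y (by rwa [mem_closedBall_zero_iff])).trans (le_max_left _ _)
  choose C hC0 hC using h1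
  refine ⟨∑ a, C a, Finset.sum_nonneg fun a _ => hC0 a, fun x => ?_⟩
  obtain ⟨a, y, hy, rfl⟩ := M.cov x
  exact (hC a y hy.le).trans (Finset.single_le_sum (f := C) (fun a _ => hC0 a) (Finset.mem_univ a))

omit [MeasurableSpace X] [BorelSpace X] in
theorem Om_le_C0 : M.Om ≤ M.C0 := fun _ hu a => (hu a).continuous

theorem memLp_C0 [IsFiniteMeasure M.mu] {u : X → L2} (hu : u ∈ M.C0) :
    MemLp (fun x => toE (u x)) 2 M.mu := by
  obtain ⟨C, hC0, hC⟩ := bounded_C0 M hu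
  refine MemLp.of_bound (toE.continuous.measurable.comp
    (measurable_C0 M hu)).aestronglyMeasurable (3 * C) (Eventually.of_forall fun x => ?_)
  exact (norm_toE_le _).trans (by have := hC x; linarith only [this])

/-- inclusion of the continuous forms into `L2` -/
noncomputable def io0 [IsFiniteMeasure M.mu] : M.C0 →ₗ[ℝ] Lp E6 2 M.mu where
  toFun b := (memLp_C0 M b.2).toLp _
  map_add' a b := by
    rw [← MemLp.toLp_add]
    apply MemLp.toLp_congr
    exact Eventually.of_forall fun x => map_add toE _ _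
  map_smul' c b := by
    rw [RingHom.id_apply, ← MemLp.toLp_const_smul]
    apply MemLp.toLp_congr
    exact Eventually.of_forall fun x => map_smul toE _ _

theorem io0_ae [IsFiniteMeasure M.mu] (b : M.C0) :
    (io0 M b : X → E6) =ᵐ[M.mu] fun x => toE ((b : X → L2) x) :=
  MemLp.coeFn_toLp (memLp_C0 M b.2)

/-- inclusion of the smooth forms into `L2` -/
noncomputable def io [IsFiniteMeasure M.mu] : M.Om →ₗ[ℝ] Lp E6 2 M.mu :=
  (io0 M).comp (Submodule.inclusion (Om_le_C0 M))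

theorem io_ae [IsFiniteMeasure M.mu] (b : M.Om) :
    (io M b : X → E6) =ᵐ[M.mu] fun x => toE ((b : X → L2) x) :=
  MemLp.coeFn_toLp (memLp_C0 M (Om_le_C0 M b.2))

/-- null sets in charts -/
theorem ae_chart {p : X → Prop} (a : M.A) (h : ∀ᵐ x ∂M.mu, p x) : ∀ᵐ y, p (M.ψ a y) := by
  have h1 : ∀ᵐ x ∂(M.mu.restrict (range (M.ψ a))), p x := ae_restrict_of_ae h
  rw [M.mu_restrict a, (M.measurableEmbedding_ψ a).ae_map_iff] at h1
  rw [ae_withDensity_iff (M.measurable_dens' a)] at h1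
  filter_upwards [h1] with y hy
  apply hy
  rw [Ne, ENNReal.ofReal_eq_zero, not_le]
  exact M.m_det a y

theorem ae_of_chart {p : X → Prop} (h : ∀ a : M.A, ∀ᵐ y, p (M.ψ a y)) : ∀ᵐ x ∂M.mu, p x := by
  have h1 : ∀ a : M.A, ∀ᵐ x ∂(M.mu.restrict (range (M.ψ a))), p x := by
    intro a
    rw [M.mu_restrict a, (M.measurableEmbedding_ψ a).ae_map_iff]
    rw [ae_withDensity_iff (M.measurable_dens' a)]
    filter_upwards [h a] with y hy _
    exact hy
  have h2 : ∀ᵐ x ∂(M.mu.restrict (⋃ a, range (M.ψ a))), p x := by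
    rw [ae_restrict_iUnion_iff]
    exact h1
  have h3 : (⋃ a, range (M.ψ a)) = univ := by
    apply eq_univ_of_forall
    intro x
    obtain ⟨a, y, -, rfl⟩ := M.cov x
    exact mem_iUnion.2 ⟨a, mem_range_self y⟩
  rwa [h3, Measure.restrict_univ] at h2

omit [MeasurableSpace X] [BorelSpace X] in
theorem cf_eq_zero_iff (a : M.A) (u : X → L2) (y : V4) : M.cf a u y = 0 ↔ u (M.ψ a y) = 0 := by
  constructor
  · intro h
    rw [M.eq_pull_m' u a y, h, pull_zero]
  · intro h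
    unfold CM.cf
    rw [h, pull_zero]

theorem io0_injective [IsFiniteMeasure M.mu] : Function.Injective (io0 M) := by
  rw [← LinearMap.ker_eq_bot, LinearMap.ker_eq_bot']
  intro b hb
  have h1 : (fun x => toE ((b : X → L2) x)) =ᵐ[M.mu] 0 := by
    refine (io0_ae M b).symm.trans ?_
    rw [hb]
    exact Lp.coeFn_zero _ _ _
  apply Subtype.ext
  apply M.ext_cf
  intro a y _
  have h2 : ∀ᵐ y, M.cf a (b : X → L2) y = 0 := by
    filter_upwards [ae_chart M a h1] with y hy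
    rw [cf_eq_zero_iff]
    have : toE ((b : X → L2) (M.ψ a y)) = 0 := hy
    exact (map_eq_zero_iff toE toE.injective).1 this
  have h3 : M.cf a (b : X → L2) = fun _ => 0 :=
    Continuous.ae_eq_iff_eq volume (b.2 a) continuous_const |>.1 h2
  rw [h3]
  have : M.cf a ((0 : M.C0) : X → L2) y = 0 := by
    rw [cf_eq_zero_iff]; rfl
  rw [this]

theorem io_injective [IsFiniteMeasure M.mu] : Function.Injective (io M) := by
  intro a b hab
  have := io0_injective M hab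
  exact Submodule.inclusion_injective (Om_le_C0 M) this

/-- star on `L2` -/
noncomputable def stH : Lp E6 2 M.mu →L[ℝ] Lp E6 2 M.mu := stE.compLpL 2 M.mu

/-- anti-invariant projection on `L2` -/
noncomputable def pmH : Lp E6 2 M.mu →L[ℝ] Lp E6 2 M.mu := pmE.compLpL 2 M.mu

omit [BorelSpace X] in
theorem stH_ae (u : Lp E6 2 M.mu) : (stH M u : X → E6) =ᵐ[M.mu] fun x => stE (u x) :=
  ContinuousLinearMap.coeFn_compLpL _ _

omit [BorelSpace X] in
theorem pmH_ae (u : Lp E6 2 M.mu) : (pmH M u : X → E6) =ᵐ[M.mu] fun x => pmE (u x) :=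
  ContinuousLinearMap.coeFn_compLpL _ _

theorem stH_stH (u : Lp E6 2 M.mu) : stH M (stH M u) = u := by
  apply Lp.ext
  filter_upwards [stH_ae M (stH M u), stH_ae M u] with x h1 h2
  rw [h1, h2, stE_stE]

theorem pmH_pmH (u : Lp E6 2 M.mu) : pmH M (pmH M u) = pmH M u := by
  apply Lp.ext
  filter_upwards [pmH_ae M (pmH M u), pmH_ae M u] with x h1 h2
  rw [h1, h2, pmE_pmE]

theorem stH_pmH (u : Lp E6 2 M.mu) : stH M (pmH M u) = pmH M u := by
  apply Lp.ext
  filter_upwards [stH_ae M (pmH M u), pmH_ae M u] with x h1 h2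
  rw [h1, h2, stE_pmE]

theorem stH_symm (u v : Lp E6 2 M.mu) : ⟪stH M u, v⟫_ℝ = ⟪u, stH M v⟫_ℝ := by
  rw [L2.inner_def, L2.inner_def]
  apply integral_congr_ae
  filter_upwards [stH_ae M u, stH_ae M v] with x h1 h2
  rw [h1, h2, inner_stE]

theorem pmH_symm (u v : Lp E6 2 M.mu) : ⟪pmH M u, v⟫_ℝ = ⟪u, pmH M v⟫_ℝ := by
  rw [L2.inner_def, L2.inner_def]
  apply integral_congr_ae
  filter_upwards [pmH_ae M u, pmH_ae M v] with x h1 h2
  rw [h1, h2, inner_pmE]

omit [MeasurableSpace X] [BorelSpace X] in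
theorem pM_mem_Om {b : X → L2} (hb : b ∈ M.Om) : (fun x => pM J0 (b x)) ∈ M.Om := by
  intro a
  have h : M.cf a (fun x => pM J0 (b x)) = fun y => (1 / 2 : ℝ) • (M.cf a b y -
      pull (M.J a y) (M.cf a b y)) := by
    funext y; rw [M.cf_pM]; rfl
  rw [h]
  exact ((hb a).sub (contDiff_pull.comp ((M.J_smooth a).prodMk (hb a)))).const_smul _

/-- the anti-invariant part of a smooth form -/
noncomputable def pmO : M.Om →ₗ[ℝ] M.Om where
  toFun b := ⟨fun x => pM J0 ((b : X → L2) x), pM_mem_Om M b.2⟩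
  map_add' a b := by
    apply Subtype.ext; funext x; exact pM_add' _ _
  map_smul' c b := by
    apply Subtype.ext; funext x; exact pM_smul' _ _

omit [MeasurableSpace X] [BorelSpace X] in
theorem pmO_apply (b : M.Om) (x : X) : (pmO M b : X → L2) x = pM J0 ((b : X → L2) x) := rfl

theorem pmH_io [IsFiniteMeasure M.mu] (b : M.Om) : pmH M (io M b) = io M (pmO M b) := by
  apply Lp.ext
  filter_upwards [pmH_ae M (io M b), io_ae M b, io_ae M (pmO M b)] with x h1 h2 h3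
  rw [h1, h2, h3, pmE_apply, ofE_toE, pmO_apply]

theorem pair_io [IsFiniteMeasure M.mu] (a b : M.Om) :
    ⟪io M a, stH M (io M b)⟫_ℝ = ∫ x, Q ((a : X → L2) x) ((b : X → L2) x) ∂M.mu := by
  rw [L2.inner_def]
  apply integral_congr_ae
  filter_upwards [io_ae M a, stH_ae M (io M b), io_ae M b] with x h1 h2 h3
  rw [h1, h2, h3, Q_eq_inner, stE_apply, ofE_toE]

/-! ### Local integrability and density -/

/-- the form with pairing `⟪v, toE A⟫ = Q U A` -/
noncomputable def fm (v : X → E6) (x : X) : L2 := hs (ofE (v x))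

omit [MetricSpace X] [MeasurableSpace X] [BorelSpace X] in
theorem Q_fm (v : X → E6) (x : X) (A : L2) : Q A (fm v x) = ⟪v x, toE A⟫_ℝ := by
  rw [Q_eq_inner, fm, hs_hs, toE_ofE, real_inner_comm]

theorem continuous_hs : Continuous hs := by
  have h : (hs : L2 → L2) = fun A => ofE (stE (toE A)) := rfl
  rw [h]
  exact ofE.continuous.comp (stE.continuous.comp toE.continuous)

theorem locInt_cf [IsFiniteMeasure M.mu] {U : X → L2} (hm : Measurable U)
    (hi : Integrable U M.mu) (a : M.A) : LocallyIntegrable (M.cf a U) volume := by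
  have hcm : Measurable (M.cf a U) :=
    measurable_pull_comp (M.m_meas a) (hm.comp (M.measurable_ψ a))
  rw [locallyIntegrable_iff]
  intro K hK
  obtain ⟨r, hr⟩ := hK.isBounded.subset_closedBall 0
  obtain ⟨C, hC1, hC⟩ := M.exists_cf_bound a r
  -- lower bound of the determinant
  obtain ⟨c, hc0, hc⟩ : ∃ c, 0 < c ∧ ∀ y ∈ K, c ≤ det4 (M.m a y) := by
    rcases K.eq_empty_or_nonempty with h | h
    · exact ⟨1, one_pos, by simp only [h, mem_empty_iff_false, IsEmpty.forall_iff, implies_true]⟩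
    · obtain ⟨y0, -, hy0'⟩ := hK.exists_isMinOn h (M.continuous_det_m a).continuousOn
      exact ⟨_, M.m_det a y0, fun y hy => hy0' hy⟩
  have hi2 : Integrable (fun y => U (M.ψ a y))
      (volume.withDensity fun y => ENNReal.ofReal (det4 (M.m a y))) := by
    have h1 : Integrable U (M.mu.restrict (range (M.ψ a))) := hi.restrict
    rw [M.mu_restrict a, (M.measurableEmbedding_ψ a).integrable_map_iff] at h1
    exact h1
  refine ⟨hcm.aestronglyMeasurable, ?_⟩
  have h3 : ∫⁻ y in K, ‖M.cf a U y‖ₑ ≤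
      ENNReal.ofReal (C * c⁻¹) * ∫⁻ y, ‖U (M.ψ a y)‖ₑ ∂(volume.withDensity
        fun y => ENNReal.ofReal (det4 (M.m a y))) := by
    rw [lintegral_withDensity_eq_lintegral_mul _ (M.measurable_dens' a)
      (by exact (hm.comp (M.measurable_ψ a)).enorm), ← lintegral_const_mul]
    · calc ∫⁻ y in K, ‖M.cf a U y‖ₑ ≤ ∫⁻ y in K, ENNReal.ofReal (C * c⁻¹) *
            (ENNReal.ofReal (det4 (M.m a y)) * ‖U (M.ψ a y)‖ₑ) := by
            apply setLIntegral_mono' hK.measurableSet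
            intro y hy
            have hy1 : ‖y‖ ≤ r := by simpa only [Metric.mem_closedBall, dist_zero_right] using hr hy
            have h4 := (hC y hy1 U).1
            have h5 := hc y hy
            rw [← mul_assoc, ← ENNReal.ofReal_mul (by positivity), ← ofReal_norm,
              ← ofReal_norm, ← ENNReal.ofReal_mul (by have := M.m_det a y; positivity)]
            apply ENNReal.ofReal_le_ofReal
            refine h4.trans ?_
            have h6 : 1 ≤ c⁻¹ * det4 (M.m a y) := by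
              rw [inv_mul_eq_div, one_le_div hc0]; exact h5
            have h7 := norm_nonneg (U (M.ψ a y))
            have h8 : C * ‖U (M.ψ a y)‖ * 1 ≤ C * ‖U (M.ψ a y)‖ * (c⁻¹ * det4 (M.m a y)) := by
              apply mul_le_mul_of_nonneg_left h6
              positivity
            linarith only [h8]
        _ ≤ _ := setLIntegral_le_lintegral _ _
    · exact ((M.measurable_dens' a).mul (hm.comp (M.measurable_ψ a)).enorm)
  refine lt_of_le_of_lt h3 ?_
  exact ENNReal.mul_lt_top ENNReal.ofReal_lt_top hi2.2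

theorem locInt_Q {W : V4 → L2} (hW : LocallyIntegrable W volume) {G : V4 → L2}
    (hG : Continuous G) : LocallyIntegrable (fun y => Q (G y) (W y)) volume := by
  have hi : ∀ i, LocallyIntegrable (fun y => W y i) volume := by
    intro i
    rw [locallyIntegrable_iff] at hW ⊢
    intro K hK
    exact (ContinuousLinearMap.proj (R := ℝ) (φ := fun _ : Fin 6 => ℝ) i).integrable_comp (hW K hK)
  have hg : ∀ i, Continuous fun y => G y i := fun i => (continuous_apply i).comp hG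
  have hp : ∀ i j, LocallyIntegrable (fun y => G y i * W y j) volume := fun i j => by
    have := (hi j).continuous_smul (hg i)
    exact this
  unfold Q
  exact ((((((hp 0 5).sub (hp 1 4)).add (hp 2 3)).add (hp 3 2)).sub (hp 4 1)).add (hp 5 0))

end Vale.Agent.P204.GX.Hil
end

section
set_option linter.all false

/-!
Transfer of the growth test form to the manifold.
-/

open MeasureTheory Set Filter Topology
open scoped ContDiff

namespace Vale.Agent.P204.GX
open Vale.Agent.P204.T4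

namespace Gr

/-! ### Local norms of the test form -/

/-- L2 norm of a function with a symbol bound of order `-1 + (n+1)`. -/
theorem rsob_le_DB (m : ℕ) : ∀ {n : ℤ}, n ≤ -1 → ∀ {R δ C : ℝ}, 0 < δ → 0 ≤ C → ∀ (y0 : V4)
    {f : V4 → L2}, ContDiff ℝ ∞ f →
    (∀ k, DB (Metric.closedBall y0 R) (fun y => ‖y - y0‖ + δ) m n C (fun y => f y k)) →
    rsob m δ (Metric.closedBall y0 R) f ≤
      5 ^ m * (C * δ ^ (n + 1) * Real.sqrt (gI0 R ^ 4)) := by
  induction m with
  | zero =>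
    intro n hn R δ C hδ hC y0 f hf h
    rw [rsob_zero_def, pow_zero, one_mul]
    have hpos : ∀ y : V4, 0 < ‖y - y0‖ + δ := fun y => by positivity
    have h1 : ∀ y ∈ Metric.closedBall y0 R, ‖f y‖ ≤ C * δ ^ (n + 1) * (‖y - y0‖ + δ)⁻¹ := by
      intro y hy
      rw [pi_norm_le_iff_of_nonneg (by have := hpos y; positivity)]
      intro k
      rw [Real.norm_eq_abs]
      refine (h k y hy).trans ?_
      have e : (‖y - y0‖ + δ) ^ n = (‖y - y0‖ + δ) ^ (n + 1) * (‖y - y0‖ + δ)⁻¹ := by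
        rw [zpow_add_one₀ (hpos y).ne', mul_assoc, mul_inv_cancel₀ (hpos y).ne', mul_one]
      simp only
      rw [e, mul_assoc]
      have h2 : (‖y - y0‖ + δ) ^ (n + 1) ≤ δ ^ (n + 1) := by
        obtain ⟨j, hj⟩ : ∃ j : ℕ, n + 1 = -(j : ℤ) := by
          obtain ⟨j, hj⟩ := Int.eq_ofNat_of_zero_le (show 0 ≤ -(n + 1) by omega)
          exact ⟨j, by omega⟩
        rw [hj, zpow_neg, zpow_neg, zpow_natCast, zpow_natCast]
        apply inv_anti₀ (by positivity)
        apply pow_le_pow_left₀ hδ.le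
        have := norm_nonneg (y - y0)
        linarith only [this]
      have h3 : 0 ≤ (‖y - y0‖ + δ)⁻¹ := (inv_pos.2 (hpos y)).le
      gcongr
    have h2 : ∫ y in Metric.closedBall y0 R, ‖f y‖ ^ 2 ≤
        (C * δ ^ (n + 1)) ^ 2 * gI0 R ^ 4 := by
      have h3 : ∀ y : V4, (‖y - y0‖ + δ) ^ (-2 : ℤ) = ((‖y - y0‖ + δ)⁻¹) ^ 2 := by
        intro y
        rw [zpow_neg, inv_pow]; norm_cast
      have h4 := gint_ball (R := R) hδ y0
      have h5 : ∫ y in Metric.closedBall y0 R, ‖f y‖ ^ 2 ≤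
          ∫ y in Metric.closedBall y0 R, (C * δ ^ (n + 1)) ^ 2 * (‖y - y0‖ + δ) ^ (-2 : ℤ) := by
        apply setIntegral_mono_on
        · exact integrable_sq hf.continuous Metric.isBounded_closedBall
        · have hc : Continuous fun y : V4 => (C * δ ^ (n + 1)) ^ 2 * (‖y - y0‖ + δ) ^ (-2 : ℤ) := by
            apply continuous_const.mul
            apply Continuous.zpow₀ (by fun_prop)
            intro y; left; exact (hpos y).ne'
          exact hc.continuousOn.integrableOn_compact (isCompact_closedBall _ _)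
        · exact Metric.isClosed_closedBall.measurableSet
        · intro y hy
          rw [h3, ← mul_pow]
          exact pow_le_pow_left₀ (norm_nonneg _) (h1 y hy) 2
      refine h5.trans ?_
      rw [integral_const_mul]
      gcongr
    calc Real.sqrt (∫ y in Metric.closedBall y0 R, ‖f y‖ ^ 2)
        ≤ Real.sqrt ((C * δ ^ (n + 1)) ^ 2 * gI0 R ^ 4) := Real.sqrt_le_sqrt h2
      _ = C * δ ^ (n + 1) * Real.sqrt (gI0 R ^ 4) := by
        rw [Real.sqrt_mul (sq_nonneg _), Real.sqrt_sq (by positivity)]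
  | succ m ih =>
    intro n hn R δ C hδ hC y0 f hf h
    rw [rsob_succ_def]
    have h1 := ih hn hδ hC y0 hf fun k => (h k).pred
    have h2 : ∀ i : Fin 4, rsob m δ (Metric.closedBall y0 R) (pv i f) ≤
        5 ^ m * (C * δ ^ (n - 1 + 1) * Real.sqrt (gI0 R ^ 4)) := by
      intro i
      refine ih (by omega) hδ hC y0 (pv_smooth hf i) fun k => ?_
      have h3 := (h k).2 i
      have e : (fun y => pv i f y k) = T4.pd i (fun y => f y k) := by
        funext y
        simp only [pv, T4.pd]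
        have hd : DifferentiableAt ℝ f y := hf.differentiable (by simp only [ne_eq, WithTop.coe_eq_zero, ENat.top_ne_zero, not_false_eq_true]) y
        rw [fderiv_apply hd k]
        rfl
      rw [e]; exact h3
    have h3 : δ * ∑ i, rsob m δ (Metric.closedBall y0 R) (pv i f) ≤
        4 * (5 ^ m * (C * δ ^ (n + 1) * Real.sqrt (gI0 R ^ 4))) := by
      have h4 : ∑ i, rsob m δ (Metric.closedBall y0 R) (pv i f) ≤
          ∑ _i : Fin 4, 5 ^ m * (C * δ ^ (n - 1 + 1) * Real.sqrt (gI0 R ^ 4)) :=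
        Finset.sum_le_sum fun i _ => h2 i
      rw [Finset.sum_const, Finset.card_univ, Fintype.card_fin] at h4
      have h5 := mul_le_mul_of_nonneg_left h4 hδ.le
      refine h5.trans (le_of_eq ?_)
      have e : δ ^ (n + 1) = δ ^ (n - 1 + 1) * δ := by
        rw [← zpow_add_one₀ hδ.ne']; congr 1; omega
      rw [e, nsmul_eq_mul]
      push_cast
      ring
    rw [pow_succ]
    linarith only [h1, h3]

/-! ### The pointwise inequality in the unitary frame -/

theorem norm_app_le (P : M4) (w : V4) : ‖app P w‖ ≤ 4 * ‖P‖ * ‖w‖ := by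
  rw [pi_norm_le_iff_of_nonneg (by positivity)]
  intro i
  rw [Real.norm_eq_abs, app_eq]
  have h : ∀ j : Fin 4, |P i j * w j| ≤ ‖P‖ * ‖w‖ := by
    intro j
    rw [abs_mul]
    refine mul_le_mul ?_ (norm_le_pi_norm w j) (abs_nonneg _) (norm_nonneg _)
    exact (norm_le_pi_norm (P i) j).trans (norm_le_pi_norm P i)
  have h0 := abs_le.1 (h 0)
  have h1 := abs_le.1 (h 1)
  have h2 := abs_le.1 (h 2)
  have h3 := abs_le.1 (h 3)
  rw [abs_le]; constructor <;> linarith only [h0, h1, h2, h3]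

theorem dp_self_eq (v : V4) : dp v v = ∑ i, v i ^ 2 := by
  rw [dp_eq, Fin.sum_univ_four]; ring

variable {X : Type} [MetricSpace X] (M : CM X)

/-- comparison of the coordinate metric and the metric of the manifold -/
theorem exists_compare (a : M.A) (r : ℝ) : ∃ c C : ℝ, 0 < c ∧ 0 ≤ C ∧ ∀ y, ‖y‖ ≤ r → ∀ v,
    c * (∑ i, (app (M.m a y) v i) ^ 2) ≤ ev (Fm (M.J a y)) v (app (M.J a y) v) ∧
    ev (Fm (M.J a y)) v (app (M.J a y) v) ≤ C * ∑ i, (app (M.m a y) v i) ^ 2 := by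
  obtain ⟨C1, hC1, h1⟩ := M.exists_frame_bound a r
  obtain ⟨N, hN⟩ := (isCompact_closedBall (0 : V4) r).exists_bound_of_continuousOn
    (M.J_smooth a).continuous.continuousOn
  obtain ⟨N', hN'⟩ : ∃ N', N' = max N 0 := ⟨_, rfl⟩
  have hN0 : 0 ≤ N' := hN' ▸ le_max_right _ _
  refine ⟨(8 * C1 ^ 2)⁻¹, (2 * (4 * N') ^ 2 + 2) * C1 ^ 2, by positivity, by positivity,
    fun y hy v => ?_⟩
  have hJN : ‖M.J a y‖ ≤ N' := hN' ▸ (hN y (by rwa [mem_closedBall_zero_iff])).trans (le_max_left _ _)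
  rw [ev_Fm_self (M.J_cx a y), dp_self_eq, dp_self_eq]
  obtain ⟨h2, h3⟩ := h1 y hy v
  have h4 := CM.sum_sq_le (app (M.m a y) v)
  have h5 := CM.le_sum_sq (app (M.m a y) v)
  have h6 := CM.sum_sq_le v
  have h7 := CM.le_sum_sq v
  have h8 := CM.sum_sq_le (app (M.J a y) v)
  have h9 : 0 ≤ ∑ i, (app (M.J a y) v i) ^ 2 := Finset.sum_nonneg fun i _ => sq_nonneg _
  have h10 : ‖app (M.m a y) v‖ ^ 2 ≤ (C1 * ‖v‖) ^ 2 := pow_le_pow_left₀ (norm_nonneg _) h2 2
  have h11 : ‖v‖ ^ 2 ≤ (C1 * ‖app (M.m a y) v‖) ^ 2 := pow_le_pow_left₀ (norm_nonneg _) h3 2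
  have h12 : ‖app (M.J a y) v‖ ^ 2 ≤ (4 * N' * ‖v‖) ^ 2 := by
    apply pow_le_pow_left₀ (norm_nonneg _)
    refine (norm_app_le _ _).trans ?_
    gcongr
  constructor
  · rw [inv_mul_le_iff₀ (by positivity)]
    linarith only [mul_nonneg (sq_nonneg (1 * C1 : ℝ)) (sub_nonneg.2 h9), mul_nonneg (sq_nonneg (1 * C1 : ℝ)) (sub_nonneg.2 h7), h10, h4]
  · have h13 : ‖v‖ ^ 2 ≤ C1 ^ 2 * ∑ i, (app (M.m a y) v i) ^ 2 := by
      refine h11.trans ?_
      rw [mul_pow]
      gcongr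
    have h14 : (∑ i, (app (M.J a y) v i) ^ 2 + ∑ i, v i ^ 2) / 2 ≤
        (2 * (4 * N') ^ 2 + 2) * ‖v‖ ^ 2 := by linarith only [h12, h8, h6]
    refine h14.trans ?_
    have h15 : 0 ≤ 2 * (4 * N') ^ 2 + 2 := by positivity
    calc (2 * (4 * N') ^ 2 + 2) * ‖v‖ ^ 2
        ≤ (2 * (4 * N') ^ 2 + 2) * (C1 ^ 2 * ∑ i, (app (M.m a y) v i) ^ 2) := by gcongr
      _ = _ := by ring

theorem m'_J0 (a : M.A) (y v : V4) :
    app (M.m' a y) (app J0 v) = app (M.J a y) (app (M.m' a y) v) := by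
  have h := M.m_J a y (app (M.m' a y) v)
  rw [M.m_m'] at h
  rw [← h, M.m'_m]

/-- pointwise growth inequality in the unitary frame -/
theorem frame_ineq (a : M.A) {y : V4} {β : L2} {κ : ℝ}
    (h : ∀ v, κ * (∑ i, (app (M.m a y) v i) ^ 2) ≤ ev β v (app (M.J a y) v)) {D : L2}
    (hD : Cone J0 D) : κ * Q D F0 ≤ Q D (pull (M.m' a y) β) := by
  rw [← G9.Fm_J0]
  refine growth_Q isCx_J0 G9.pos_J0 (fun v => ?_) hD
  rw [G9.Fm_J0, CM.ev_F0, ev_pull, m'_J0]
  have h1 := h (app (M.m' a y) v)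
  rwa [M.m_m'] at h1

/-- Growth form in one chart. -/
theorem chart_growth (a : M.A) : ∃ c : ℝ, 0 < c ∧ ∃ C : ℝ, 0 ≤ C ∧ ∃ Cm : ℕ → ℝ,
    ∀ y0 : V4, ‖y0‖ ≤ 1 → ∀ δ : ℝ, 0 < δ → δ ≤ 1 → ∃ η : V4 → V4, CM.TF1 η ∧
      (∀ y, 1 ≤ ‖y - y0‖ → η y = 0) ∧
      (∀ y D, ‖y‖ ≤ 2 → Cone J0 D →
        (c * (δ ^ 2 / (‖y - y0‖ ^ 2 + δ ^ 2) ^ 2) - C) * Q D F0 ≤
          Q D (M.ext a (d1 η) (M.ψ a y))) ∧
      ∀ (m : ℕ) (k : Fin 6), DB (Metric.closedBall y0 1) (fun y => ‖y - y0‖ + δ) m (-1) (Cm m)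
        (fun y => pM (M.J a y) (d1 η y) k) := by
  obtain ⟨c, hc, C, hC, Cm, h⟩ := growth_form (M.J_smooth a) (M.J_cx a)
    (isCompact_closedBall (0 : V4) 1) (R := 1) one_pos
  obtain ⟨c', C', hc', hC', hcomp⟩ := exists_compare M a 2
  refine ⟨c * c', by positivity, C * C', by positivity, Cm, fun y0 hy0 δ hδ hδ1 => ?_⟩
  obtain ⟨η, h1, h2, h3, h4⟩ := h y0 (by rwa [mem_closedBall_zero_iff]) δ hδ hδ1
  have hcs : HasCompactSupport η := by
    apply HasCompactSupport.intro (isCompact_closedBall y0 1)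
    intro y hy
    apply h2
    rw [Metric.mem_closedBall, not_le, dist_eq_norm] at hy
    exact hy.le
  refine ⟨η, ⟨h1, hcs⟩, h2, fun y D hy hD => ?_, h4⟩
  rw [M.ext_ψ_self]
  refine frame_ineq M a (fun v => ?_) hD
  refine le_trans ?_ (h3 y v)
  obtain ⟨h5, h6⟩ := hcomp y hy v
  have hP : 0 ≤ δ ^ 2 / (‖y - y0‖ ^ 2 + δ ^ 2) ^ 2 := by positivity
  have h7 := mul_le_mul_of_nonneg_left h5 (mul_nonneg hc.le hP)
  have h8 := mul_le_mul_of_nonneg_left h6 hC
  linarith only [h7, h8]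

/-- uniform size of the charts -/
theorem exists_small [CompactSpace X] : ∃ r1 : ℝ, 0 < r1 ∧ ∀ (a : M.A) (y0 : V4), ‖y0‖ ≤ 1 →
    ∀ x, dist x (M.ψ a y0) < r1 → ∃ y, ‖y‖ ≤ 2 ∧ M.ψ a y = x := by
  have h : ∀ a : M.A, ∃ r1 : ℝ, 0 < r1 ∧ ∀ (y0 : V4), ‖y0‖ ≤ 1 →
    ∀ x, dist x (M.ψ a y0) < r1 → ∃ y, ‖y‖ ≤ 2 ∧ M.ψ a y = x := by
    intro a
    have hK : IsCompact (M.ψ a '' Metric.closedBall 0 1) :=
      (isCompact_closedBall _ _).image (M.continuous_ψ a)
    have hU : IsOpen (M.ψ a '' Metric.ball 0 2) := (M.ψo a).isOpenMap _ Metric.isOpen_ball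
    obtain ⟨δ, hδ, hsub⟩ := hK.exists_thickening_subset_open hU
      (image_mono (Metric.closedBall_subset_ball (by norm_num)))
    refine ⟨δ, hδ, fun y0 hy0 x hx => ?_⟩
    have hx' : x ∈ M.ψ a '' Metric.ball 0 2 := by
      apply hsub
      rw [Metric.mem_thickening_iff]
      exact ⟨_, ⟨y0, by rwa [mem_closedBall_zero_iff], rfl⟩, hx⟩
    obtain ⟨y, hy, rfl⟩ := hx'
    rw [mem_ball_zero_iff] at hy
    exact ⟨y, hy.le, rfl⟩
  choose r hr hr' using h
  rcases isEmpty_or_nonempty M.A with he | hne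
  · exact ⟨1, one_pos, fun a => (he.false a).elim⟩
  · obtain ⟨a0, ha0⟩ := Finite.exists_min r
    exact ⟨r a0, hr a0, fun a y0 hy0 x hx => hr' a y0 hy0 x (hx.trans_le (ha0 a))⟩

theorem ext_eq_zero_of_norm (a : M.A) {η : V4 → V4} {y0 : V4} (hy0 : ‖y0‖ ≤ 1)
    (h : ∀ y, 1 ≤ ‖y - y0‖ → η y = 0) {x : X} (hx : ∀ y, ‖y‖ ≤ 2 → M.ψ a y ≠ x) :
    M.ext a (d1 η) x = 0 := by
  by_cases hr : x ∈ range (M.ψ a)
  · obtain ⟨y, rfl⟩ := hr
    have hy : 2 < ‖y‖ := by
      by_contra hc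
      exact hx y (not_lt.1 hc) rfl
    have h1 : 1 < ‖y - y0‖ := by
      have := norm_sub_norm_le y y0
      linarith only [hy0, hy, this]
    have h2 : d1 η y = 0 := by
      have h3 : η =ᶠ[𝓝 y] fun _ => 0 := by
        have hopen : IsOpen {z : V4 | 1 < ‖z - y0‖} := isOpen_lt continuous_const (by fun_prop)
        filter_upwards [hopen.mem_nhds h1] with z hz
        exact h z (le_of_lt hz)
      rw [d1_congr h3, d1_zero]
    rw [M.ext_ψ_self, h2, pull_zero]
  · exact M.ext_of_notMem a _ hr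

variable [CompactSpace X] [MeasurableSpace X] [BorelSpace X]

theorem integrable_pair {t : Measure X} {D : X → L2} (h : FnSys.Cur t D) {b : X → L2}
    (hb : b ∈ M.Om) : Integrable (fun x => Q (D x) (b x)) t := by
  haveI := h.fin
  obtain ⟨C, hC0, hC⟩ := Hil.bounded_C0 M (Hil.Om_le_C0 M hb)
  refine Integrable.of_bound (C := 6 * 1 * C) ?_ (Eventually.of_forall fun x => ?_)
  · exact ((continuous_Q.measurable).comp (h.meas.prodMk (Hil.measurable_Om M hb))).aestronglyMeasurable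
  · rw [Real.norm_eq_abs]
    refine (abs_Q_le _ _).trans ?_
    have h1 := G9.norm_cone_le (h.cone x)
    rw [h.norm x] at h1
    have h2 := hC x
    gcongr

/-- **Growth on the manifold** (data independent of the current). -/
theorem growth_data (c1 : ℝ) (hc1 : 0 < c1) : ∃ c : ℝ, 0 < c ∧ ∃ C : ℝ, 0 ≤ C ∧
    ∃ Cm : ℕ → ℝ, ∀ x : X, ∀ δ : ℝ, 0 < δ → δ ≤ 1 →
      ∃ (a : M.A) (y0 : V4) (η : V4 → V4), ‖y0‖ ≤ 1 ∧ CM.TF1 η ∧ (∀ y, 1 ≤ ‖y - y0‖ → η y = 0) ∧
      (∀ x' D, Cone J0 D → -C * Q D F0 ≤ Q D (M.ext a (d1 η) x')) ∧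
      (∀ x' D, Cone J0 D → x' ∈ Metric.ball x (c1 * δ) →
        (c * (δ ^ 2)⁻¹ - C) * Q D F0 ≤ Q D (M.ext a (d1 η) x')) ∧
      ∀ (m : ℕ) (k : Fin 6), DB (Metric.closedBall y0 1) (fun y => ‖y - y0‖ + δ) m (-1) (Cm m)
        (fun y => pM (M.J a y) (d1 η y) k) := by
  have h := fun a : M.A => chart_growth M a
  choose c hc C hC Cm hg using h
  obtain ⟨r1, hr1, hsm⟩ := exists_small M
  have hL := fun a : M.A => M.lip a 2
  choose L hL0 hL using hL
  obtain ⟨c0, hc0, hc0le⟩ : ∃ c0 : ℝ, 0 < c0 ∧ ∀ a : M.A, c0 ≤ c a / ((L a * c1) ^ 2 + 1) ^ 2 := by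
    rcases isEmpty_or_nonempty M.A with he | hne
    · exact ⟨1, one_pos, fun a => (he.false a).elim⟩
    · obtain ⟨a0, ha0⟩ := Finite.exists_min (fun a : M.A => c a / ((L a * c1) ^ 2 + 1) ^ 2)
      refine ⟨_, ?_, ha0⟩
      have := hc a0
      positivity
  have hCs : ∀ a, C a ≤ ∑ b, C b := fun a =>
    Finset.single_le_sum (f := C) (fun b _ => hC b) (Finset.mem_univ a)
  have hCs0 : 0 ≤ ∑ b, C b := Finset.sum_nonneg fun b _ => hC b
  refine ⟨c0, hc0, ∑ b, C b + c0 * (c1 / r1) ^ 2, by positivity,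
    fun m => ∑ b, |Cm b m|, fun x δ hδ hδ1 => ?_⟩
  obtain ⟨a, y0, hy0, rfl⟩ := M.cov x
  obtain ⟨η, h1, h2, h3, h4⟩ := hg a y0 hy0.le δ hδ hδ1
  have hlow : ∀ x' D, Cone J0 D → -(∑ b, C b) * Q D F0 ≤ Q D (M.ext a (d1 η) x') := by
    intro x' D hD
    have hQ : 0 ≤ Q D F0 := Q_cone_nonneg isCx_J0 G9.pos_J0 hD G9.cone_F0
    by_cases hx : ∃ y, ‖y‖ ≤ 2 ∧ M.ψ a y = x'
    · obtain ⟨y, hy, rfl⟩ := hx
      refine le_trans ?_ (h3 y D hy hD)
      apply mul_le_mul_of_nonneg_right _ hQ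
      have h5 := hCs a
      have h6 : 0 ≤ c a * (δ ^ 2 / (‖y - y0‖ ^ 2 + δ ^ 2) ^ 2) := by
        have := hc a
        positivity
      linarith
    · push Not at hx
      rw [ext_eq_zero_of_norm M a hy0.le h2 hx, Q_zero_right]
      nlinarith only [hCs0, hQ]
  refine ⟨a, y0, η, hy0.le, h1, h2, fun x' D hD => ?_, fun x' D hD hx' => ?_, fun m k => ?_⟩
  · have hQ : 0 ≤ Q D F0 := Q_cone_nonneg isCx_J0 G9.pos_J0 hD G9.cone_F0
    refine le_trans ?_ (hlow x' D hD)
    apply mul_le_mul_of_nonneg_right _ hQ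
    have : 0 ≤ c0 * (c1 / r1) ^ 2 := by positivity
    linarith only [this]
  · have hQ : 0 ≤ Q D F0 := Q_cone_nonneg isCx_J0 G9.pos_J0 hD G9.cone_F0
    rw [Metric.mem_ball] at hx'
    rcases le_or_gt r1 (c1 * δ) with hbig | hsmall
    · refine le_trans ?_ (hlow x' D hD)
      apply mul_le_mul_of_nonneg_right _ hQ
      have h5 : c0 * (δ ^ 2)⁻¹ ≤ c0 * (c1 / r1) ^ 2 := by
        apply mul_le_mul_of_nonneg_left _ hc0.le
        rw [← inv_pow]
        apply pow_le_pow_left₀ (by positivity)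
        rw [inv_le_comm₀ hδ (by positivity), inv_div, div_le_iff₀ hc1]
        linarith only [hbig]
      linarith only [h5]
    · obtain ⟨y, hy, rfl⟩ := hsm a y0 hy0.le x' (hx'.trans hsmall)
      refine le_trans ?_ (h3 y D hy hD)
      apply mul_le_mul_of_nonneg_right _ hQ
      have h5 : ‖y - y0‖ ≤ L a * (c1 * δ) := by
        refine ((hL a y y0 hy (by linarith only [hy0])).2).trans ?_
        exact mul_le_mul_of_nonneg_left hx'.le (hL0 a).le
      have h6 : (‖y - y0‖ ^ 2 + δ ^ 2) ^ 2 ≤ (((L a * c1) ^ 2 + 1) * δ ^ 2) ^ 2 := by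
        apply pow_le_pow_left₀ (by positivity)
        have h7 := pow_le_pow_left₀ (norm_nonneg _) h5 2
        linarith only [h7]
      have h8 : (((L a * c1) ^ 2 + 1) ^ 2)⁻¹ * (δ ^ 2)⁻¹ ≤ δ ^ 2 / (‖y - y0‖ ^ 2 + δ ^ 2) ^ 2 := by
        rw [le_div_iff₀ (by positivity)]
        calc (((L a * c1) ^ 2 + 1) ^ 2)⁻¹ * (δ ^ 2)⁻¹ * (‖y - y0‖ ^ 2 + δ ^ 2) ^ 2
            ≤ (((L a * c1) ^ 2 + 1) ^ 2)⁻¹ * (δ ^ 2)⁻¹ * (((L a * c1) ^ 2 + 1) * δ ^ 2) ^ 2 := by
              gcongr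
          _ = δ ^ 2 := by field_simp
      have h9 : c0 * (δ ^ 2)⁻¹ ≤ c a * (δ ^ 2 / (‖y - y0‖ ^ 2 + δ ^ 2) ^ 2) := by
        have h10 := hc0le a
        rw [div_eq_mul_inv] at h10
        calc c0 * (δ ^ 2)⁻¹ ≤ c a * (((L a * c1) ^ 2 + 1) ^ 2)⁻¹ * (δ ^ 2)⁻¹ := by gcongr
          _ = c a * ((((L a * c1) ^ 2 + 1) ^ 2)⁻¹ * (δ ^ 2)⁻¹) := by ring
          _ ≤ _ := mul_le_mul_of_nonneg_left h8 (hc a).le
      have h11 := hCs a
      have h12 : 0 ≤ c0 * (c1 / r1) ^ 2 := by positivity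
      linarith only [h9, h11, h12]
  · refine DB.mono (fun y _ => by positivity) ?_ (h4 m k)
    exact (le_abs_self _).trans (Finset.single_le_sum (f := fun b => |Cm b m|)
      (fun b _ => abs_nonneg _) (Finset.mem_univ a))

/-- anti-invariant part of an extension -/
theorem pM_ext (a : M.A) (γ : V4 → L2) (x : X) :
    pM J0 (M.ext a γ x) = M.ext a (fun y => pM (M.J a y) (γ y)) x := by
  by_cases hr : x ∈ range (M.ψ a)
  · obtain ⟨y, rfl⟩ := hr
    have h := M.cf_pM a (M.ext a γ) y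
    rw [M.cf_ext_self] at h
    rw [M.ext_ψ_self a (fun y => pM (M.J a y) (γ y)), ← h]
    exact M.eq_pull_m' (fun x => pM J0 (M.ext a γ x)) a y
  · rw [M.ext_of_notMem a _ hr, M.ext_of_notMem a _ hr]
    unfold pM
    rw [pull_zero, sub_zero, smul_zero]

theorem contDiff_pM {J : V4 → M4} {γ : V4 → L2} (hJ : ContDiff ℝ ∞ J) (hγ : ContDiff ℝ ∞ γ) :
    ContDiff ℝ ∞ (fun y => pM (J y) (γ y)) := by
  unfold pM
  exact (hγ.sub (contDiff_pull.comp (hJ.prodMk hγ))).const_smul _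

/-- the local norm of the test form -/
theorem rsob_test (a : M.A) {y0 : V4} {η : V4 → V4} (hy0 : ‖y0‖ ≤ 1) (h1 : CM.TF1 η)
    (h2 : ∀ y, 1 ≤ ‖y - y0‖ → η y = 0) {δ C : ℝ} (hδ : 0 < δ) (hC : 0 ≤ C) (m : ℕ)
    (h : ∀ k : Fin 6, DB (Metric.closedBall y0 1) (fun y => ‖y - y0‖ + δ) m (-1) C
        (fun y => pM (M.J a y) (d1 η y) k)) :
    rsob m δ (Metric.closedBall 0 2) (fun y => pM (M.J a y) (d1 η y)) ≤
      5 ^ m * (C * Real.sqrt (gI0 1 ^ 4)) := by
  have hs : ContDiff ℝ ∞ (fun y => pM (M.J a y) (d1 η y)) :=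
    contDiff_pM (M.J_smooth a) (CM.d1_smooth h1)
  have hz : ∀ y ∉ Metric.closedBall y0 1, (fun y => pM (M.J a y) (d1 η y)) y = 0 := by
    intro y hy
    rw [Metric.mem_closedBall, not_le, dist_eq_norm] at hy
    have h3 : d1 η y = 0 := by
      have h4 : η =ᶠ[𝓝 y] fun _ => 0 := by
        have hopen : IsOpen {z : V4 | 1 < ‖z - y0‖} := isOpen_lt continuous_const (by fun_prop)
        filter_upwards [hopen.mem_nhds hy] with z hz
        exact h2 z (le_of_lt hz)
      rw [d1_congr h4, d1_zero]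
    simp only [h3]
    unfold pM
    rw [pull_zero, sub_zero, smul_zero]
  refine (rsob_le_of_support hδ.le m Metric.isClosed_closedBall.measurableSet
    Metric.isBounded_closedBall (K := Metric.closedBall y0 1) Metric.isClosed_closedBall
    Metric.isBounded_closedBall hs hz).trans ?_
  have h5 := rsob_le_DB m (n := -1) le_rfl (R := 1) hδ hC y0 hs h
  simpa only [ge_iff_le, Int.reduceNeg, neg_add_cancel, zpow_ofNat, pow_zero, mul_one] using h5

theorem real_growth {t : Measure X} {D : X → L2} (h : FnSys.Cur t D) {a : M.A} {η : V4 → V4}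
    (h1 : CM.TF1 η) {κ C : ℝ} (hκ : 0 ≤ κ) {x : X} {ρ : ℝ}
    (hlow : ∀ x' D, Cone J0 D → -C * Q D F0 ≤ Q D (M.ext a (d1 η) x'))
    (hball : ∀ x' D, Cone J0 D → x' ∈ Metric.ball x ρ →
        (κ - C) * Q D F0 ≤ Q D (M.ext a (d1 η) x')) :
    κ * (t (Metric.ball x ρ)).toReal ≤ FnSys.fn t D (M.ext a (d1 η)) + C * (t univ).toReal := by
  haveI := h.fin
  have hb : M.ext a (d1 η) ∈ M.Om := M.ext_mem_Om a (CM.d1_smooth h1) (CM.d1_support h1)
  have hint := integrable_pair M h hb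
  have hm : MeasurableSet (Metric.ball x ρ) := Metric.isOpen_ball.measurableSet
  have hpt : ∀ x', (Metric.ball x ρ).indicator (fun _ => κ) x' - C ≤
      Q (D x') (M.ext a (d1 η) x') := by
    intro x'
    by_cases hx : x' ∈ Metric.ball x ρ
    · rw [indicator_of_mem hx]
      have := hball x' (D x') (h.cone x') hx
      rwa [h.norm x', mul_one] at this
    · rw [indicator_of_notMem hx]
      have := hlow x' (D x') (h.cone x')
      rw [h.norm x', mul_one] at this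
      linarith only [this]
  have hi1 : Integrable ((Metric.ball x ρ).indicator (fun _ => κ) : X → ℝ) t :=
    (integrable_const κ).indicator hm
  have hle := integral_mono (hi1.sub (integrable_const C)) hint hpt
  have e : ∫ x', ((Metric.ball x ρ).indicator (fun _ => κ) x' - C) ∂t =
      κ * (t (Metric.ball x ρ)).toReal - C * (t univ).toReal := by
    rw [integral_sub hi1 (integrable_const C), integral_indicator hm, setIntegral_const,
      integral_const, smul_eq_mul, smul_eq_mul, mul_comm, mul_comm (t.real univ)]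
    rfl
  have hle2 : κ * (t (Metric.ball x ρ)).toReal - C * (t univ).toReal ≤
      ∫ x', Q (D x') (M.ext a (d1 η) x') ∂t := by
    rw [← e]; exact hle
  show _ ≤ ∫ x', Q (D x') (M.ext a (d1 η) x') ∂t + _
  linarith only [hle2]

end Gr

open Gr

variable {X : Type} [MetricSpace X] [CompactSpace X] [MeasurableSpace X] [BorelSpace X] (M : CM X)

/-- growth estimate with test forms, `TBound.t4` -/
theorem grow_t4 [Nonempty X] {t : Measure X} {D : X → L2} (h : FnSys.Cur t D)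
    (N : ℕ → ℝ → M.Om → ℝ)
    (N2 : ∀ (a : M.A) (m : ℕ), ∃ C : ℝ, 0 ≤ C ∧ ∀ (δ : ℝ), 0 < δ → δ ≤ 1 →
      ∀ (γ : V4 → L2) (h1 : ContDiff ℝ ∞ γ) (h2 : HasCompactSupport γ),
      (∀ y, 2 < ‖y‖ → γ y = 0) → N m δ ⟨M.ext a γ, M.ext_mem_Om a h1 h2⟩ ≤
        C * rsob m δ (Metric.closedBall 0 2) γ)
    (pm : M.Om → M.Om) (hpm : ∀ b x, (pm b : X → L2) x = pM J0 ((b : X → L2) x))
    (φ : M.Om → ℝ) (hφ : ∀ b, φ (pm b) = φ b)
    (kill : ∀ e ∈ M.Ex, FnSys.fn t D (e : X → L2) + φ e = 0) (c1 : ℝ) (hc1 : 0 < c1) :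
    ∃ (C : ℝ) (Dm : ℕ → ℝ), 0 ≤ C ∧ ∀ δ : ℝ, 0 < δ → δ ≤ 1 → ∃ v : M.Om,
      (∀ m, N m δ v ≤ Dm m) ∧
      (δ ^ 2)⁻¹ * (⨆ x, (t (Metric.ball x (c1 * δ))).toReal) ≤ C * (1 + |φ v|) := by
  haveI := h.fin
  obtain ⟨c, hc, C, hC, Cm, hg⟩ := growth_data M c1 hc1
  choose K hK0 hK using N2
  obtain ⟨Bm, hBm⟩ : ∃ Bm : ℕ → ℝ, Bm = fun m => 5 ^ m * (|Cm m| * Real.sqrt (gI0 1 ^ 4)) := ⟨_, rfl⟩
  have hBm0 : ∀ m, 0 ≤ Bm m := fun m => by rw [hBm]; (clear * -; positivity)
  refine ⟨c⁻¹ * (1 + C * (t univ).toReal) + 1, fun m => ∑ a, K a m * Bm m, by positivity,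
    fun δ hδ hδ1 => ?_⟩
  obtain ⟨x, hx⟩ := exists_lt_of_lt_ciSup
    (show (⨆ x, (t (Metric.ball x (c1 * δ))).toReal) - δ ^ 2 <
      ⨆ x, (t (Metric.ball x (c1 * δ))).toReal by
        have : 0 < δ ^ 2 := by positivity
        linarith)
  obtain ⟨a, y0, η, hy0, h1, h2, hlow, hball, hDB⟩ := hg x δ hδ hδ1
  have hreal := real_growth M h h1 (κ := c * (δ ^ 2)⁻¹) (by positivity) hlow hball
  obtain ⟨b, hb⟩ : ∃ b : M.Om, b = ⟨M.ext a (d1 η), M.ext_mem_Om a (CM.d1_smooth h1)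
    (CM.d1_support h1)⟩ := ⟨_, rfl⟩
  have hbe : b ∈ M.Ex := Submodule.subset_span ⟨a, η, h1, hb⟩
  have hkill := kill b hbe
  have hbc : (b : X → L2) = M.ext a (d1 η) := by rw [hb]
  rw [hbc] at hkill
  refine ⟨pm b, fun m => ?_, ?_⟩
  · have hs : ContDiff ℝ ∞ (fun y => pM (M.J a y) (d1 η y)) :=
      contDiff_pM (M.J_smooth a) (CM.d1_smooth h1)
    have hz : ∀ y, 1 < ‖y - y0‖ → pM (M.J a y) (d1 η y) = 0 := by
      intro y hy
      have h3 : d1 η y = 0 := by
        have h4 : η =ᶠ[𝓝 y] fun _ => 0 := by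
          have hopen : IsOpen {z : V4 | 1 < ‖z - y0‖} := isOpen_lt continuous_const (by fun_prop)
          filter_upwards [hopen.mem_nhds hy] with z hz
          exact h2 z (le_of_lt hz)
        rw [d1_congr h4, d1_zero]
      rw [h3]
      unfold pM
      rw [pull_zero, sub_zero, smul_zero]
    have hcs : HasCompactSupport (fun y => pM (M.J a y) (d1 η y)) := by
      apply HasCompactSupport.intro (isCompact_closedBall y0 1)
      intro y hy
      rw [Metric.mem_closedBall, not_le, dist_eq_norm] at hy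
      exact hz y hy
    have hpb : pm b = ⟨M.ext a (fun y => pM (M.J a y) (d1 η y)), M.ext_mem_Om a hs hcs⟩ := by
      apply Subtype.ext
      funext x'
      rw [hpm, hbc]
      exact pM_ext M a (d1 η) x'
    rw [hpb]
    refine (hK a m δ hδ hδ1 _ hs hcs (fun y hy => hz y ?_)).trans ?_
    · have := norm_sub_norm_le y y0
      linarith only [hy0, hy, this]
    · have h5 := rsob_test M a hy0 h1 h2 hδ (abs_nonneg (Cm m)) m
        (fun k => DB.mono (fun y _ => by positivity) (le_abs_self _) (hDB m k))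
      have h6 : K a m * Bm m ≤ ∑ a, K a m * Bm m :=
        Finset.single_le_sum (f := fun a => K a m * Bm m)
          (fun a _ => mul_nonneg (hK0 a m) (hBm0 m)) (Finset.mem_univ a)
      refine le_trans ?_ h6
      apply mul_le_mul_of_nonneg_left _ (hK0 a m)
      rw [hBm]; exact h5
  · have hd : 0 < δ ^ 2 := by positivity
    rw [hφ]
    have h7 : (⨆ x, (t (Metric.ball x (c1 * δ))).toReal) ≤
        (t (Metric.ball x (c1 * δ))).toReal + δ ^ 2 := by linarith only [hx]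
    have h8 : (δ ^ 2)⁻¹ * (⨆ x, (t (Metric.ball x (c1 * δ))).toReal) ≤
        (δ ^ 2)⁻¹ * (t (Metric.ball x (c1 * δ))).toReal + 1 := by
      have := mul_le_mul_of_nonneg_left h7 (inv_pos.2 hd).le
      rw [mul_add, inv_mul_cancel₀ hd.ne'] at this
      exact this
    refine h8.trans ?_
    have h9 : (δ ^ 2)⁻¹ * (t (Metric.ball x (c1 * δ))).toReal ≤
        c⁻¹ * (|φ b| + C * (t univ).toReal) := by
      rw [← div_eq_inv_mul (_ + _), le_div_iff₀ hc]
      have h10 : -φ b ≤ |φ b| := neg_le_abs _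
      linarith only [hreal, hkill, h10]
    have h11 : 0 ≤ |φ b| := abs_nonneg _
    have h12 : 0 ≤ c⁻¹ := (inv_pos.2 hc).le
    have h13 : 0 ≤ C * (t univ).toReal := by (clear * - hC; positivity)
    have h14 : 0 ≤ c⁻¹ * (C * (t univ).toReal) * |φ b| := by (clear * - hc hC; positivity)
    linarith only [h9, h11, h12, h14]

theorem Q_F0_left (B : L2) : Q F0 B = B 0 + B 5 := by
  simp only [Q, F0, Fin.isValue, Matrix.cons_val_zero, one_mul, Matrix.cons_val_one, zero_mul, sub_zero, Matrix.cons_val, add_zero]; ring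

theorem integrable_F0 (μ : Measure X) [IsFiniteMeasure μ] {b : X → L2} (hb : b ∈ M.Om) :
    Integrable (fun x => Q F0 (b x)) μ := by
  obtain ⟨C, hC0, hC⟩ := Hil.bounded_C0 M (Hil.Om_le_C0 M hb)
  have hm : Measurable b := Hil.measurable_Om M hb
  simp only [Q_F0_left]
  refine Integrable.of_bound (C := C + C) ?_ (Eventually.of_forall fun x => ?_)
  · exact (((measurable_pi_apply (0 : Fin 6)).comp hm).add
      ((measurable_pi_apply (5 : Fin 6)).comp hm)).aestronglyMeasurable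
  · refine (norm_add_le _ _).trans (add_le_add ?_ ?_)
    · exact (norm_le_pi_norm (b x) 0).trans (hC x)
    · exact (norm_le_pi_norm (b x) 5).trans (hC x)

/-- growth of a closed current of the form `F0 μ + P` -/
theorem grow_P {p : Measure X} {E : X → L2} (h : FnSys.Cur p E) (μ : Measure X)
    [IsFiniteMeasure μ]
    (kill : ∀ e ∈ M.Ex, ∫ x, Q F0 ((e : X → L2) x) ∂μ + FnSys.fn p E (e : X → L2) = 0) :
    ∃ C : ℝ, 0 ≤ C ∧ ∀ x (r : ℝ), 0 < r → r ≤ 1 → (p (Metric.ball x r)).toReal ≤ C * r ^ 2 := by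
  haveI := h.fin
  obtain ⟨c, hc, C, hC, Cm, hg⟩ := growth_data M 1 one_pos
  refine ⟨c⁻¹ * (2 * C * (μ univ).toReal + C * (p univ).toReal), by (clear * - hc hC; positivity),
    fun x r hr hr1 => ?_⟩
  obtain ⟨a, y0, η, hy0, h1, h2, hlow, hball, -⟩ := hg x r hr hr1
  have hreal := real_growth M h h1 (κ := c * (r ^ 2)⁻¹) (by positivity) hlow hball
  rw [one_mul] at hreal
  obtain ⟨b, hb⟩ : ∃ b : M.Om, b = ⟨M.ext a (d1 η), M.ext_mem_Om a (CM.d1_smooth h1)
    (CM.d1_support h1)⟩ := ⟨_, rfl⟩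
  have hbe : b ∈ M.Ex := Submodule.subset_span ⟨a, η, h1, hb⟩
  have hkill := kill b hbe
  have hbc : (b : X → L2) = M.ext a (d1 η) := by rw [hb]
  rw [hbc] at hkill
  have hbM : M.ext a (d1 η) ∈ M.Om := M.ext_mem_Om a (CM.d1_smooth h1) (CM.d1_support h1)
  have hintF := integrable_F0 M μ hbM
  have hF : -(2 * C) * (μ univ).toReal ≤ ∫ x, Q F0 (M.ext a (d1 η) x) ∂μ := by
    have h3 := integral_mono (integrable_const (-(2 * C))) hintF (fun x' => by
      have h4 := hlow x' F0 G9.cone_F0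
      rw [G9.Q_F0_F0] at h4
      linarith only [h4])
    rw [integral_const, smul_eq_mul, mul_comm] at h3
    exact h3
  have h5 : c * (r ^ 2)⁻¹ * (p (Metric.ball x r)).toReal ≤
      2 * C * (μ univ).toReal + C * (p univ).toReal := by linarith only [hreal, hkill, hF]
  have hr2 : 0 < r ^ 2 := by positivity
  have h6 : (p (Metric.ball x r)).toReal = c⁻¹ * (c * (r ^ 2)⁻¹ * (p (Metric.ball x r)).toReal) * r ^ 2 := by
    field_simp
  rw [h6]
  have h7 : 0 ≤ c⁻¹ := (inv_pos.2 hc).le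
  gcongr

end Vale.Agent.P204.GX
end

section
set_option linter.all false
/-! Global norms on the smooth two-forms of a concrete manifold. -/
open MeasureTheory Set Metric Filter Topology
open scoped ContDiff BigOperators ENNReal NNReal

namespace Vale.Agent.P204.GX
open T4

/-- `pM J` as a continuous linear map -/
noncomputable def pML (J : M4) : L2 →L[ℝ] L2 := (1 / 2 : ℝ) • (ContinuousLinearMap.id ℝ L2 - pullL J)

theorem pML_apply (J : M4) (A : L2) : pML J A = pM J A := rfl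

theorem contDiff_pML : ContDiff ℝ ∞ pML := by
  have h : ContDiff ℝ ∞ (fun J : M4 => (1 / 2 : ℝ) • (ContinuousLinearMap.id ℝ L2 - pullL J)) :=
    (contDiff_const.sub contDiff_pullL).const_smul _
  exact h

theorem rsob_union2 {E : Type*} [NormedAddCommGroup E] [NormedSpace ℝ E] {d : ℝ} (hd : 0 ≤ d) (m : ℕ)
    {B K1 K2 : Set V4} (hm1 : MeasurableSet K1) (hm2 : MeasurableSet K2)
    (hK1 : Bornology.IsBounded K1) (hK2 : Bornology.IsBounded K2) (hB : B ⊆ K1 ∪ K2) {f : V4 → E}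
    (hf : ContDiff ℝ ∞ f) : rsob m d B f ≤ rsob m d K1 f + rsob m d K2 f := by
  have h1 := rsob_union (Finset.univ : Finset Bool) hd m (B := B) (K := fun b => if b then K1 else K2)
    (fun b _ => by cases b <;> simp [hm1, hm2]) (fun b _ => by cases b <;> simp [hK1, hK2])
    (by
      intro y hy
      rcases hB hy with h | h
      · exact mem_iUnion₂.2 ⟨true, Finset.mem_univ _, by simpa using h⟩
      · exact mem_iUnion₂.2 ⟨false, Finset.mem_univ _, by simpa using h⟩) hf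
  simpa only [ge_iff_le, Fintype.univ_bool, Finset.mem_singleton, Bool.true_eq_false, not_false_eq_true, Finset.sum_insert, ↓reduceIte, Finset.sum_singleton, Bool.false_eq_true] using h1

namespace CM
variable {X : Type} [MetricSpace X] (M : CM X)

/-- scaled Sobolev norm of order `m` -/
noncomputable def NN (m : ℕ) (d : ℝ) (b : X → L2) : ℝ := ∑ a, rsob m d (ball 0 1) (M.cf a b)

/-- `C^m` norm -/
noncomputable def MM (m : ℕ) (b : X → L2) : ℝ := ∑ a, rsupn m 1 (ball 0 1) (M.cf a b)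

/-! ### algebraic properties -/

theorem NN_nonneg (m : ℕ) {d : ℝ} (hd : 0 ≤ d) (b : X → L2) : 0 ≤ M.NN m d b :=
  Finset.sum_nonneg fun a _ => rsob_nonneg hd m _ _

theorem MM_nonneg (m : ℕ) (b : X → L2) : 0 ≤ M.MM m b :=
  Finset.sum_nonneg fun a _ => rsupn_nonneg zero_le_one m _ _

theorem rsob_le_NN (m : ℕ) {d : ℝ} (hd : 0 ≤ d) (b : X → L2) (a : M.A) :
    rsob m d (ball 0 1) (M.cf a b) ≤ M.NN m d b :=
  Finset.single_le_sum (f := fun a => rsob m d (ball 0 1) (M.cf a b)) (fun a _ => rsob_nonneg hd m _ _)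
    (Finset.mem_univ a)

theorem rsupn_le_MM (m : ℕ) (b : X → L2) (a : M.A) :
    rsupn m 1 (ball 0 1) (M.cf a b) ≤ M.MM m b :=
  Finset.single_le_sum (f := fun a => rsupn m 1 (ball 0 1) (M.cf a b))
    (fun a _ => rsupn_nonneg zero_le_one m _ _) (Finset.mem_univ a)

theorem NN_add (m : ℕ) {d : ℝ} (hd : 0 ≤ d) {a b : X → L2} (ha : a ∈ M.Om) (hb : b ∈ M.Om) :
    M.NN m d (a + b) ≤ M.NN m d a + M.NN m d b := by
  unfold NN
  rw [← Finset.sum_add_distrib]
  refine Finset.sum_le_sum fun c _ => ?_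
  rw [M.cf_add]
  exact rsob_add hd m isBounded_ball (ha c) (hb c)

theorem MM_add (m : ℕ) {a b : X → L2} (ha : a ∈ M.Om) (hb : b ∈ M.Om) :
    M.MM m (a + b) ≤ M.MM m a + M.MM m b := by
  unfold MM
  rw [← Finset.sum_add_distrib]
  refine Finset.sum_le_sum fun c _ => ?_
  rw [M.cf_add]
  exact rsupn_add zero_le_one m isBounded_ball (ha c) (hb c)

theorem NN_smul (m : ℕ) (d r : ℝ) {b : X → L2} (hb : b ∈ M.Om) :
    M.NN m d (r • b) = |r| * M.NN m d b := by
  unfold NN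
  rw [Finset.mul_sum]
  refine Finset.sum_congr rfl fun c _ => ?_
  rw [M.cf_smul]
  exact rsob_smul d r m _ (hb c)

theorem MM_smul (m : ℕ) (r : ℝ) {b : X → L2} (hb : b ∈ M.Om) :
    M.MM m (r • b) = |r| * M.MM m b := by
  unfold MM
  rw [Finset.mul_sum]
  refine Finset.sum_congr rfl fun c _ => ?_
  rw [M.cf_smul]
  exact rsupn_smul 1 r m _ (hb c)

theorem NN_mono (m : ℕ) {d d' : ℝ} (hd : 0 ≤ d) (h : d ≤ d') (b : X → L2) : M.NN m d b ≤ M.NN m d' b :=
  Finset.sum_le_sum fun c _ => rsob_mono_d hd h m _ _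

theorem NN_succ (m : ℕ) {d : ℝ} (hd : 0 ≤ d) (b : X → L2) : M.NN m d b ≤ M.NN (m + 1) d b :=
  Finset.sum_le_sum fun c _ => rsob_succ hd m _ _

theorem MM_succ (m : ℕ) (b : X → L2) : M.MM m b ≤ M.MM (m + 1) b :=
  Finset.sum_le_sum fun c _ => rsupn_succ zero_le_one m _ _

theorem NN_scale (m : ℕ) {d : ℝ} (hd : 0 ≤ d) (hd1 : d ≤ 1) (b : X → L2) :
    d ^ m * M.NN m 1 b ≤ M.NN m d b := by
  unfold NN
  rw [Finset.mul_sum]
  exact Finset.sum_le_sum fun c _ => rsob_scale hd hd1 m _ _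

theorem exists_NN_le_MM (m : ℕ) : ∃ C : ℝ, 0 ≤ C ∧ ∀ d : ℝ, 0 ≤ d → d ≤ 1 → ∀ b ∈ M.Om,
    M.NN m d b ≤ C * M.MM m b := by
  refine ⟨Real.sqrt ((volume (ball (0 : V4) 1)).toReal), Real.sqrt_nonneg _, fun d hd hd1 b hb => ?_⟩
  unfold NN MM
  rw [Finset.mul_sum]
  refine Finset.sum_le_sum fun c _ => ?_
  refine (rsob_le_rsupn hd m isOpen_ball.measurableSet isBounded_ball (hb c)).trans ?_
  exact mul_le_mul_of_nonneg_left (rsupn_mono_d hd hd1 m _ _) (Real.sqrt_nonneg _)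

/-! ### the anti-invariant part -/

theorem cf_pML (a : M.A) (u : X → L2) :
    M.cf a (fun x => pM J0 (u x)) = fun y => pML (M.J a y) (M.cf a u y) := by
  funext y
  rw [M.cf_pM, pML_apply]

theorem contDiff_pML_J (a : M.A) : ContDiff ℝ ∞ (fun y => pML (M.J a y)) :=
  contDiff_pML.comp (M.J_smooth a)

theorem exists_NN_pM (m : ℕ) : ∃ C : ℝ, 0 ≤ C ∧ ∀ d : ℝ, 0 ≤ d → d ≤ 1 → ∀ b ∈ M.Om,
    M.NN m d (fun x => pM J0 (b x)) ≤ C * M.NN m d b := by
  refine ⟨∑ a, rsupn m 1 (ball 0 1) (fun y => pML (M.J a y)),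
    Finset.sum_nonneg fun a _ => rsupn_nonneg zero_le_one m _ _, fun d hd hd1 b hb => ?_⟩
  rw [NN]
  refine le_trans (b := ∑ a, rsupn m 1 (ball 0 1) (fun y => pML (M.J a y)) * M.NN m d b) ?_
    (le_of_eq (Finset.sum_mul _ _ _).symm)
  refine Finset.sum_le_sum fun a _ => ?_
  rw [M.cf_pML]
  refine (rsob_clm_apply hd hd1 m isOpen_ball.measurableSet isBounded_ball (M.contDiff_pML_J a) (hb a)).trans ?_
  exact mul_le_mul_of_nonneg_left (M.rsob_le_NN m hd b a) (rsupn_nonneg zero_le_one m _ _)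

theorem exists_MM_pM (m : ℕ) : ∃ C : ℝ, 0 ≤ C ∧ ∀ b ∈ M.Om,
    M.MM m (fun x => pM J0 (b x)) ≤ C * M.MM m b := by
  refine ⟨∑ a, rsupn m 1 (ball 0 1) (fun y => pML (M.J a y)),
    Finset.sum_nonneg fun a _ => rsupn_nonneg zero_le_one m _ _, fun b hb => ?_⟩
  rw [MM]
  refine le_trans (b := ∑ a, rsupn m 1 (ball 0 1) (fun y => pML (M.J a y)) * M.MM m b) ?_
    (le_of_eq (Finset.sum_mul _ _ _).symm)
  refine Finset.sum_le_sum fun a _ => ?_
  rw [M.cf_pML]
  refine (rsupn_clm_apply zero_le_one le_rfl m isBounded_ball (M.contDiff_pML_J a) (hb a)).trans ?_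
  exact mul_le_mul_of_nonneg_left (M.rsupn_le_MM m b a) (rsupn_nonneg zero_le_one m _ _)

/-! ### (N1): other balls -/

theorem contDiffOn_τ {a c : M.A} {S : Set V4} (h : S ⊆ M.O a c) : ContDiffOn ℝ ∞ (M.τ a c) S :=
  fun y hy => (M.contDiffAt_τ (h hy)).contDiffWithinAt

theorem contDiffOn_pullDt {a c : M.A} {S : Set V4} (h : S ⊆ M.O a c) :
    ContDiffOn ℝ ∞ (fun y => pullL (M.Dt a c y)) S :=
  fun y hy => (contDiff_pullL.contDiffAt.comp y (M.contDiffAt_Dt (h hy))).contDiffWithinAt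

theorem injOn_τ {a c : M.A} {S : Set V4} (h : S ⊆ M.O a c) : InjOn (M.τ a c) S := by
  intro y hy z hz hyz
  rw [← M.τ_τ (h hy), ← M.τ_τ (h hz), hyz]

theorem det_τ_ne {a c : M.A} {y : V4} (h : y ∈ M.O a c) : (fderiv ℝ (M.τ a c) y).det ≠ 0 := by
  rw [det_fderiv_eq (M.differentiableAt_τ h)]
  exact (M.det_Dt_pos h).ne'

theorem exists_ball (a : M.A) (y : V4) : ∃ (c : M.A) (R : ℝ), 0 < R ∧ ball y R ⊆ M.O a c ∧
    ∀ z ∈ ball y R, ‖M.τ a c z‖ < 1 := by
  have h0 := M.mem_O_ch a y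
  have h1 : ∀ᶠ z in 𝓝 y, z ∈ M.O a (M.ch (M.ψ a y)) := (M.isOpen_O _ _).mem_nhds h0
  have h2 : ∀ᶠ z in 𝓝 y, ‖M.τ a (M.ch (M.ψ a y)) z‖ < 1 := by
    have h3 : ‖M.τ a (M.ch (M.ψ a y)) y‖ < 1 := by
      rw [M.τ_ch]; exact M.norm_cy _
    exact (M.continuousAt_τ h0).norm.eventually_lt continuousAt_const h3
  obtain ⟨R, hR, hRs⟩ := Metric.eventually_nhds_iff_ball.1 (h1.and h2)
  exact ⟨_, R, hR, fun z hz => (hRs z hz).1, fun z hz => (hRs z hz).2⟩

/-- (N1) -/
theorem exists_N1 (a : M.A) (m : ℕ) (r : ℝ) : ∃ C : ℝ, 0 ≤ C ∧ ∀ d : ℝ, 0 ≤ d → d ≤ 1 → ∀ b ∈ M.Om,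
    rsob m d (ball 0 r) (M.cf a b) ≤ C * M.NN m d b := by
  choose c R hR hRO hRτ using M.exists_ball a
  obtain ⟨t, -, ht⟩ := (isCompact_closedBall (0 : V4) r).elim_nhds_subcover (fun y => closedBall y (R y / 2))
    (fun y _ => closedBall_mem_nhds y (half_pos (hR y)))
  have key : ∀ y, ∃ C : ℝ, 0 ≤ C ∧ ∀ d : ℝ, 0 ≤ d → d ≤ 1 → ∀ (g : V4 → L2) (f : V4 → L2), ContDiff ℝ ∞ g →
      (∀ z ∈ ball y (R y), f z = pullL (M.Dt a (c y) z) (g (M.τ a (c y) z))) →
      rsob m d (closedBall y (R y / 2)) f ≤ C * rsob m d (ball 0 1) g := by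
    intro y
    have hs : closedBall y (R y / 2) ⊆ ball y (R y) := closedBall_subset_ball (half_lt_self (hR y))
    exact transfer_rsob (half_pos (hR y)) (half_lt_self (hR y)) (M.contDiffOn_τ (hRO y))
      (M.contDiffOn_pullDt (hRO y)) (M.injOn_τ (hs.trans (hRO y)))
      (fun z hz => M.det_τ_ne (hRO y (hs hz))) isBounded_ball
      (fun z hz => by rw [mem_ball_zero_iff]; exact hRτ y z (hs hz)) m
  choose C hC0 hC using key
  refine ⟨∑ y ∈ t, C y, Finset.sum_nonneg fun y _ => hC0 y, fun d hd hd1 b hb => ?_⟩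
  refine (rsob_union t hd m (fun y _ => isClosed_closedBall.measurableSet) (fun y _ => isBounded_closedBall)
    (ball_subset_closedBall.trans ht) (hb a)).trans ?_
  rw [Finset.sum_mul]
  refine Finset.sum_le_sum fun y _ => ?_
  refine (hC y d hd hd1 (M.cf (c y) b) (M.cf a b) (hb (c y)) fun z hz => ?_).trans
    (mul_le_mul_of_nonneg_left (M.rsob_le_NN m hd b (c y)) (hC0 y))
  rw [pullL_apply]
  exact M.cf_compat b (hRO y hz)

/-- (N1) for the `C^m` norms -/
theorem exists_N1' (a : M.A) (m : ℕ) (r : ℝ) : ∃ C : ℝ, 0 ≤ C ∧ ∀ b ∈ M.Om,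
    rsupn m 1 (ball 0 r) (M.cf a b) ≤ C * M.MM m b := by
  choose c R hR hRO hRτ using M.exists_ball a
  obtain ⟨t, -, ht⟩ := (isCompact_closedBall (0 : V4) r).elim_nhds_subcover (fun y => closedBall y (R y / 2))
    (fun y _ => closedBall_mem_nhds y (half_pos (hR y)))
  have key : ∀ y, ∃ C : ℝ, 0 ≤ C ∧ ∀ d : ℝ, 0 ≤ d → d ≤ 1 → ∀ (g : V4 → L2) (f : V4 → L2), ContDiff ℝ ∞ g →
      (∀ z ∈ ball y (R y), f z = pullL (M.Dt a (c y) z) (g (M.τ a (c y) z))) →
      rsupn m d (closedBall y (R y / 2)) f ≤ C * rsupn m d (ball 0 1) g := by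
    intro y
    have hs : closedBall y (R y / 2) ⊆ ball y (R y) := closedBall_subset_ball (half_lt_self (hR y))
    exact transfer_rsupn (half_pos (hR y)) (half_lt_self (hR y)) (M.contDiffOn_τ (hRO y))
      (M.contDiffOn_pullDt (hRO y)) isBounded_ball
      (fun z hz => by rw [mem_ball_zero_iff]; exact hRτ y z (hs hz)) m
  choose C hC0 hC using key
  refine ⟨∑ y ∈ t, C y, Finset.sum_nonneg fun y _ => hC0 y, fun b hb => ?_⟩
  refine (rsupn_union t zero_le_one m (fun y _ => isBounded_closedBall)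
    (ball_subset_closedBall.trans ht) (hb a)).trans ?_
  rw [Finset.sum_mul]
  refine Finset.sum_le_sum fun y _ => ?_
  refine (hC y 1 zero_le_one le_rfl (M.cf (c y) b) (M.cf a b) (hb (c y)) fun z hz => ?_).trans
    (mul_le_mul_of_nonneg_left (M.rsupn_le_MM m b (c y)) (hC0 y))
  rw [pullL_apply]
  exact M.cf_compat b (hRO y hz)

/-! ### (N2): extended forms -/

theorem exists_ball2 (a c : M.A) (r : ℝ) {y : V4} (hy : y ∈ M.O a c) (hyr : ‖M.τ a c y‖ ≤ r) :
    ∃ R : ℝ, 0 < R ∧ ball y R ⊆ M.O a c ∧ ∀ z ∈ ball y R, ‖M.τ a c z‖ < r + 1 := by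
  have h1 : ∀ᶠ z in 𝓝 y, z ∈ M.O a c := (M.isOpen_O _ _).mem_nhds hy
  have h2 : ∀ᶠ z in 𝓝 y, ‖M.τ a c z‖ < r + 1 :=
    (M.continuousAt_τ hy).norm.eventually_lt continuousAt_const (by linarith only [hyr])
  obtain ⟨R, hR, hRs⟩ := Metric.eventually_nhds_iff_ball.1 (h1.and h2)
  exact ⟨R, hR, fun z hz => (hRs z hz).1, fun z hz => (hRs z hz).2⟩

theorem exists_N2_aux (a c : M.A) (r : ℝ) : ∃ (t : Finset V4) (R : V4 → ℝ), (∀ y ∈ t, 0 < R y) ∧
    (∀ y ∈ t, ball y (R y) ⊆ M.O a c) ∧ (∀ y ∈ t, ∀ z ∈ ball y (R y), ‖M.τ a c z‖ < r + 1) ∧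
    ∀ y ∈ closedBall (0 : V4) 1, M.ψ a y ∈ M.ψ c '' closedBall 0 r → y ∈ ⋃ y ∈ t, closedBall y (R y / 2) := by
  classical
  set S : Set V4 := closedBall (0 : V4) 1 ∩ M.ψ a ⁻¹' (M.ψ c '' closedBall 0 r) with hS
  have hScl : IsClosed (M.ψ a ⁻¹' (M.ψ c '' closedBall 0 r)) :=
    (((isCompact_closedBall (0 : V4) r).image (M.continuous_ψ c)).isClosed).preimage (M.continuous_ψ a)
  have hSc : IsCompact S := (isCompact_closedBall (0 : V4) 1).inter_right hScl
  have hSO : ∀ y ∈ S, y ∈ M.O a c ∧ ‖M.τ a c y‖ ≤ r := by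
    rintro y ⟨-, w, hw, hwy⟩
    have hy : y ∈ M.O a c := ⟨w, hwy⟩
    refine ⟨hy, ?_⟩
    have : M.τ a c y = w := by
      apply M.ψ_inj c
      rw [M.ψ_τ hy, hwy]
    rw [this]
    simpa only [ge_iff_le, mem_closedBall, dist_zero_right] using hw
  have hex : ∀ y, ∃ R : ℝ, y ∈ S → 0 < R ∧ ball y R ⊆ M.O a c ∧ ∀ z ∈ ball y R, ‖M.τ a c z‖ < r + 1 := by
    intro y
    by_cases hy : y ∈ S
    · obtain ⟨R, h1, h2, h3⟩ := M.exists_ball2 a c r (hSO y hy).1 (hSO y hy).2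
      exact ⟨R, fun _ => ⟨h1, h2, h3⟩⟩
    · exact ⟨0, fun h => absurd h hy⟩
  choose R hR using hex
  obtain ⟨t, htS, ht⟩ := hSc.elim_nhds_subcover (fun y => closedBall y (R y / 2))
    (fun y hy => closedBall_mem_nhds y (half_pos (hR y hy).1))
  exact ⟨t, R, fun y hy => (hR y (htS y hy)).1, fun y hy => (hR y (htS y hy)).2.1,
    fun y hy => (hR y (htS y hy)).2.2, fun y hy hy' => ht ⟨hy, hy'⟩⟩

theorem cf_ext_zero (a c : M.A) {r : ℝ} {γ : V4 → L2} (h0 : ∀ y, r < ‖y‖ → γ y = 0) {y : V4}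
    (hy : M.ψ a y ∉ M.ψ c '' closedBall 0 r) : M.cf a (M.ext c γ) y = 0 := by
  classical
  rw [M.cf_ext]
  split_ifs with h
  · have : γ (M.τ a c y) = 0 := by
      apply h0
      by_contra hn
      exact hy ⟨M.τ a c y, by simpa only [mem_closedBall, dist_zero_right] using not_lt.1 hn, M.ψ_τ h⟩
    rw [this, pull_zero]
  · rfl

theorem hasCompactSupport_of_zero {γ : V4 → L2} {r : ℝ} (h0 : ∀ y, r < ‖y‖ → γ y = 0) :
    HasCompactSupport γ :=
  HasCompactSupport.intro (isCompact_closedBall (0 : V4) r) fun y hy => h0 y (by simpa only [mem_closedBall, dist_zero_right, not_le] using hy)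

/-- (N2) -/
theorem exists_N2 (c : M.A) (m : ℕ) (r : ℝ) : ∃ C : ℝ, 0 ≤ C ∧ ∀ d : ℝ, 0 ≤ d → d ≤ 1 → ∀ γ : V4 → L2,
    ContDiff ℝ ∞ γ → (∀ y, r < ‖y‖ → γ y = 0) →
    M.NN m d (M.ext c γ) ≤ C * rsob m d (closedBall 0 r) γ := by
  classical
  have key : ∀ a : M.A, ∃ C : ℝ, 0 ≤ C ∧ ∀ d : ℝ, 0 ≤ d → d ≤ 1 → ∀ γ : V4 → L2,
      ContDiff ℝ ∞ γ → (∀ y, r < ‖y‖ → γ y = 0) →
      rsob m d (ball 0 1) (M.cf a (M.ext c γ)) ≤ C * rsob m d (closedBall 0 r) γ := by
    intro a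
    obtain ⟨t, R, hR, hRO, hRτ, hcov⟩ := M.exists_N2_aux a c r
    have key2 : ∀ y, ∃ C : ℝ, 0 ≤ C ∧ (y ∈ t → ∀ d : ℝ, 0 ≤ d → d ≤ 1 → ∀ (g : V4 → L2) (f : V4 → L2),
        ContDiff ℝ ∞ g → (∀ z ∈ ball y (R y), f z = pullL (M.Dt a c z) (g (M.τ a c z))) →
        rsob m d (closedBall y (R y / 2)) f ≤ C * rsob m d (ball 0 (r + 1)) g) := by
      intro y
      by_cases hy : y ∈ t
      · have hs : closedBall y (R y / 2) ⊆ ball y (R y) := closedBall_subset_ball (half_lt_self (hR y hy))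
        obtain ⟨C, hC0, hC⟩ := transfer_rsob (half_pos (hR y hy)) (half_lt_self (hR y hy)) (M.contDiffOn_τ (hRO y hy))
          (M.contDiffOn_pullDt (hRO y hy)) (M.injOn_τ (hs.trans (hRO y hy)))
          (fun z hz => M.det_τ_ne (hRO y hy (hs hz))) (B' := ball 0 (r + 1)) isBounded_ball
          (fun z hz => by rw [mem_ball_zero_iff]; exact hRτ y hy z (hs hz)) m
        exact ⟨C, hC0, fun _ => hC⟩
      · exact ⟨0, le_rfl, fun h => absurd h hy⟩
    choose C hC0 hC using key2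
    refine ⟨∑ y ∈ t, C y, Finset.sum_nonneg fun y _ => hC0 y, fun d hd hd1 γ hγ h0 => ?_⟩
    have hf : ContDiff ℝ ∞ (M.cf a (M.ext c γ)) :=
      M.ext_mem_Om' c hγ (hasCompactSupport_of_zero h0) a
    set V : Set V4 := M.ψ a ⁻¹' (M.ψ c '' closedBall 0 r)ᶜ with hV
    have hVo : IsOpen V :=
      (((isCompact_closedBall (0 : V4) r).image (M.continuous_ψ c)).isClosed.isOpen_compl).preimage (M.continuous_ψ a)
    have hmU : MeasurableSet (⋃ y ∈ t, closedBall y (R y / 2)) :=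
      Finset.measurableSet_biUnion t fun y _ => isClosed_closedBall.measurableSet
    have hbU : Bornology.IsBounded (⋃ y ∈ t, closedBall y (R y / 2)) :=
      (Bornology.isBounded_biUnion_finset t).2 fun y _ => isBounded_closedBall
    have h1 := rsob_union2 hd m (B := ball (0 : V4) 1) (K1 := ball 0 1 ∩ V)
      (K2 := ⋃ y ∈ t, closedBall y (R y / 2)) (isOpen_ball.inter hVo).measurableSet hmU
      (isBounded_ball.subset inter_subset_left) hbU (by
        intro y hy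
        by_cases hyV : y ∈ V
        · exact Or.inl ⟨hy, hyV⟩
        · exact Or.inr (hcov y (ball_subset_closedBall hy) (not_not.1 hyV))) hf
    have h2 : rsob m d (ball 0 1 ∩ V) (M.cf a (M.ext c γ)) = 0 := by
      rw [rsob_congr (U := V) hVo (isOpen_ball.inter hVo).measurableSet inter_subset_right d m
        (g := fun _ => 0) fun y hy => M.cf_ext_zero a c h0 hy]
      exact rsob_zero_fun d m _
    have h3 := rsob_union t hd m (B := ⋃ y ∈ t, closedBall y (R y / 2)) (K := fun y => closedBall y (R y / 2))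
      (fun y _ => isClosed_closedBall.measurableSet) (fun y _ => isBounded_closedBall) Subset.rfl hf
    have h4 : rsob m d (ball 0 (r + 1)) γ ≤ rsob m d (closedBall 0 r) γ :=
      rsob_le_of_support hd m isOpen_ball.measurableSet isBounded_ball isClosed_closedBall isBounded_closedBall hγ
        fun y hy => h0 y (by simpa only [mem_closedBall, dist_zero_right, not_le] using hy)
    have h5 : ∀ y ∈ t, rsob m d (closedBall y (R y / 2)) (M.cf a (M.ext c γ)) ≤
        C y * rsob m d (closedBall 0 r) γ := by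
      intro y hy
      refine (hC y hy d hd hd1 γ _ hγ fun z hz => ?_).trans (mul_le_mul_of_nonneg_left h4 (hC0 y))
      rw [M.cf_ext, if_pos (hRO y hy hz), pullL_apply]
    rw [h2, zero_add] at h1
    refine h1.trans (h3.trans ?_)
    rw [Finset.sum_mul]
    exact Finset.sum_le_sum h5
  choose C hC0 hC using key
  refine ⟨∑ a, C a, Finset.sum_nonneg fun a _ => hC0 a, fun d hd hd1 γ hγ h0 => ?_⟩
  rw [NN, Finset.sum_mul]
  exact Finset.sum_le_sum fun a _ => hC a d hd hd1 γ hγ h0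

end CM
end Vale.Agent.P204.GX
end

section
set_option linter.all false
/-!
The main theorem on `CM` from a smoothing system and the growth estimates.
-/
open MeasureTheory Set Filter Topology
open scoped ContDiff InnerProductSpace

namespace Vale.Agent.P204.GX
open Vale.Agent.P204.T4 _root_.P204.GX

namespace CM
variable {X : Type} [MetricSpace X] [CompactSpace X] [MeasurableSpace X] [BorelSpace X] (M : CM X)

theorem main_of_sys (Z : FnSys X) (hμ : Z.μ = M.mu)
    (hOm : ∀ u : X → L2, u ∈ Z.Om ↔ u ∈ M.Om)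
    (hCl : ∀ b : Z.Om, b ∈ Z.Y.Cl ↔ ∀ a, Closed (M.cf a (b : X → L2)))
    (hEx : ∀ b : Z.Om, b ∈ Z.Y.Ex ↔ ∃ e ∈ M.Ex, (e : X → L2) = (b : X → L2))
    (hG4 : ∀ (t : Measure X) (D : X → L2) (φ : Z.Om →ₗ[ℝ] ℝ), FnSys.Cur t D →
      (∀ b, φ (Z.Y.pm b) = φ b) →
      (∀ c ∈ Z.Y.Cl, FnSys.fn t D (c : X → L2) + φ c = 0) →
      ∃ (C : ℝ) (Dm : ℕ → ℝ), ∀ δ, 0 < δ → δ ≤ Z.Y.δ0 → ∃ v : Z.Om, (∀ m, Z.Y.N m δ v ≤ Dm m) ∧
        Z.dens t δ ≤ C * (1 + |φ v|))
    (hGR : ∀ (p : Measure X) (E : X → L2), FnSys.Cur p E →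
      (∀ e ∈ M.Ex, ∫ x, Q F0 ((e : X → L2) x) ∂M.mu + FnSys.fn p E (e : X → L2) = 0) →
      ∃ C : ℝ, ∀ x (r : ℝ), 0 < r → r ≤ 1 → (p (Metric.ball x r)).toReal ≤ C * r ^ 2) :
    ∃ w ∈ M.Om, (∀ a, Closed (M.cf a w)) ∧ ∀ x, PosDef J0 (w x) := by
  -- closedness of currents in both languages
  have hR1 : ∀ (p : Measure X) (E : X → L2),
      (∀ e ∈ M.Ex, ∫ x, Q F0 ((e : X → L2) x) ∂M.mu + FnSys.fn p E (e : X → L2) = 0) →
      Z.ClosedR p E := by
    intro p E h e he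
    obtain ⟨e', he', h1⟩ := (hEx e).1 he
    rw [hμ, ← h1]
    exact h e' he'
  have hR2 : ∀ (p : Measure X) (E : X → L2), Z.ClosedR p E →
      (∀ e ∈ M.Ex, ∫ x, Q F0 ((e : X → L2) x) ∂M.mu + FnSys.fn p E (e : X → L2) = 0) := by
    intro p E h e he
    have h1 : (e : X → L2) ∈ Z.Om := (hOm _).2 e.2
    have h2 := h ⟨(e : X → L2), h1⟩ ((hEx _).2 ⟨e, he, rfl⟩)
    rw [hμ] at h2
    exact h2
  obtain ⟨w, hw, hpm, hpos⟩ := Z.assemble
    (by
      intro hno
      obtain ⟨t, D, h1, h2, h3⟩ := M.exists_T (by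
        rintro ⟨w, hw, hpw, hpos⟩
        apply hno
        refine ⟨⟨(w : X → L2), (hOm _).2 w.2⟩, (hCl _).2 hw, ?_, hpos⟩
        apply Subtype.ext
        funext x
        rw [Z.pm_eq]
        exact hpw x)
      refine ⟨t, D, h1, fun b hb hpb => ?_, ?_⟩
      · have h4 : (b : X → L2) ∈ M.Om := (hOm _).1 b.2
        refine h2 ⟨(b : X → L2), h4⟩ ((hCl b).1 hb) (fun x => ?_)
        have h5 := Z.pm_eq b x
        rw [hpb] at h5
        exact h5.symm
      · have h4 : (Z.F : X → L2) = fun _ => F0 := by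
          funext x; exact Z.F_eq x
        rw [h4]; exact h3)
    (by
      obtain ⟨p, E, h1, h2⟩ := M.exists_R
      exact ⟨p, E, h1, hR1 p E h2⟩)
    (by
      intro p E h1 h2
      obtain ⟨S, -, h3, h4, h5⟩ := elmir_main (M := M) h1 (hR2 p E h2)
      exact ⟨p.restrict S, h3, hR1 _ _ h4, h5⟩)
    hG4
    (fun p E h1 h2 => hGR p E h1 (hR2 p E h2))
  exact ⟨(w : X → L2), (hOm _).1 w.2, (hCl w).1 hw, hpos⟩

/-- the main theorem on `CM` from a smoothing system whose norms are bounded by the norms `NN` -/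
theorem main_of_sys' [Nonempty X] (Z : FnSys X) (hμ : Z.μ = M.mu)
    (hOm : ∀ u : X → L2, u ∈ Z.Om ↔ u ∈ M.Om)
    (hCl : ∀ b : Z.Om, b ∈ Z.Y.Cl ↔ ∀ a, Closed (M.cf a (b : X → L2)))
    (hEx : ∀ b : Z.Om, b ∈ Z.Y.Ex ↔ ∃ e ∈ M.Ex, (e : X → L2) = (b : X → L2))
    (hN : ∀ m, ∃ K : ℝ, 0 ≤ K ∧ ∀ δ (b : Z.Om), 0 < δ → δ ≤ 1 →
      Z.Y.N m δ b ≤ K * M.NN m δ (b : X → L2)) :
    ∃ w ∈ M.Om, (∀ a, Closed (M.cf a w)) ∧ ∀ x, PosDef J0 (w x) := by
  have hμf : IsFiniteMeasure M.mu := hμ ▸ Z.μfin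
  refine M.main_of_sys Z hμ hOm hCl hEx ?_ ?_
  · intro t D φ ht hφ hkill
    choose K hK0 hK using hN
    choose K2 hK20 hK2 using fun (a : M.A) (m : ℕ) => M.exists_N2 a m 2
    obtain ⟨C, Dm, hC, h⟩ := grow_t4 M ht
      (fun m δ b => Z.Y.N m δ ⟨(b : X → L2), (hOm _).2 b.2⟩)
      (by
        intro a m
        refine ⟨K m * K2 a m, mul_nonneg (hK0 m) (hK20 a m), fun δ h0 h1 γ hγ hγc hz => ?_⟩
        refine (hK m δ _ h0 h1).trans ?_
        rw [mul_assoc]
        exact mul_le_mul_of_nonneg_left (hK2 a m δ h0.le h1 γ hγ hz) (hK0 m))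
      (fun b => ⟨(Z.Y.pm ⟨(b : X → L2), (hOm _).2 b.2⟩ : X → L2), (hOm _).1 (Subtype.prop _)⟩)
      (fun b x => Z.pm_eq _ x)
      (fun b => φ ⟨(b : X → L2), (hOm _).2 b.2⟩)
      (fun b => hφ _)
      (fun e he => by
        refine hkill ⟨(e : X → L2), (hOm _).2 e.2⟩ ?_
        exact Z.Y.Ex_le ((hEx _).2 ⟨e, he, rfl⟩))
      Z.c (lt_of_lt_of_le one_pos Z.one_le_c)
    refine ⟨C, Dm, fun δ h0 h1 => ?_⟩
    obtain ⟨v, hv1, hv2⟩ := h δ h0 (h1.trans Z.Y.δ0_le)
    exact ⟨⟨(v : X → L2), (hOm _).2 v.2⟩, hv1, hv2⟩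
  · intro p E hp hcl
    obtain ⟨C, -, h⟩ := grow_P M hp M.mu hcl
    exact ⟨C, h⟩

end CM
end Vale.Agent.P204.GX
end

section
set_option linter.all false
/-!
The reduction of the statement on `CM` to the existence of the smoothing system.
-/
open MeasureTheory Set Filter Topology
open scoped ContDiff InnerProductSpace

namespace Vale.Agent.P204.GX
open Vale.Agent.P204.T4 _root_.P204.GX

/-- existence of the smoothing system -/
def SysStatement : Prop :=
  ∀ (X : Type) [MetricSpace X] [CompactSpace X] [MeasurableSpace X] [BorelSpace X] [Nonempty X]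
    (M : CM X), ∃ Z : FnSys X, Z.μ = M.mu ∧ (∀ u : X → L2, u ∈ Z.Om ↔ u ∈ M.Om) ∧
      (∀ b : Z.Om, b ∈ Z.Y.Cl ↔ ∀ a, Closed (M.cf a (b : X → L2))) ∧
      (∀ b : Z.Om, b ∈ Z.Y.Ex ↔ ∃ e ∈ M.Ex, (e : X → L2) = (b : X → L2)) ∧
      ∀ m, ∃ K : ℝ, 0 ≤ K ∧ ∀ δ (b : Z.Om), 0 < δ → δ ≤ 1 →
        Z.Y.N m δ b ≤ K * M.NN m δ (b : X → L2)

theorem core_of_sys (h : SysStatement) : Mfd.CoreStatement := by
  intro X _ _ _ M
  let _ : MeasurableSpace X := borel X
  have : BorelSpace X := ⟨rfl⟩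
  obtain ⟨Z, h1, h2, h3, h4, h5⟩ := h X M
  exact M.main_of_sys' Z h1 h2 h3 h4 h5

end Vale.Agent.P204.GX
end

section

namespace Vale.Agent.P204.DC

theorem main.{u} (h : GX.SysStatement) : Donaldson.{u} :=
  donaldson_of_core (GX.core_of_sys h)

end Vale.Agent.P204.DC
end

section

/-!
Lower bound for `U z` in the sup norm, and the duality lemma for exact forms.
-/

open scoped BigOperators ContDiff Topology
open MeasureTheory Set

namespace Vale.Agent.P204.GX
open T4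

namespace CM
variable {X : Type} [MetricSpace X] (M : CM X)

theorem exists_Mo_lower (c : M.A) : ∃ C : ℝ, 1 ≤ C ∧ ∀ v : V4, ‖v‖ < vinv → ∀ (u : X → L2) (B : ℝ),
    (∀ x, ‖M.Mo c (hz v) u x‖ ≤ B) → ∀ x, ‖u x‖ ≤ C * B := by
  obtain ⟨C, hC1, hC⟩ := M.exists_cf_bound c 6
  refine ⟨48 * C ^ 2, by nlinarith, fun v hv u B hB x => ?_⟩
  have hB0 : 0 ≤ B := (norm_nonneg _).trans (hB x)
  have hself : ∀ x, M.Mo c (hz v) u x = u x → ‖u x‖ ≤ 48 * C ^ 2 * B := by
    intro x hx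
    rw [← hx]
    refine (hB x).trans ?_
    have h1 : 1 ≤ 48 * C ^ 2 := by nlinarith only [hC1]
    nlinarith only [hB0, h1]
  obtain ⟨g, hg⟩ := exists_inv hv
  by_cases hx : x ∈ range (M.ψ c)
  · obtain ⟨w, rfl⟩ := hx
    by_cases hw : 5 < ‖w‖
    · apply hself
      have h1 := M.eq_pull_m' (M.Mo c (hz v) u) c w
      have h2 := M.eq_pull_m' u c w
      rw [M.cf_Mo_self] at h1
      rw [h1, h2]
      unfold pf
      rw [Dm_id_far hg.idf hw, pull_one, hz_of_ge hw.le]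
    · push Not at hw
      set y := g w with hy
      have hfy : hz v y = w := hg.fg w
      have hyn : ‖y‖ ≤ 6 := by
        by_contra hlt
        push Not at hlt
        have h3 := hg.idf y (by linarith only [hlt])
        rw [hfy] at h3
        rw [← h3] at hlt
        linarith only [hw, hlt]
      have h1 : M.cf c (M.Mo c (hz v) u) y = pull (Dm (hz v) y) (M.cf c u w) := by
        rw [M.cf_Mo_self]; unfold pf; rw [hfy]
      have hinv : mm (Dm (hz v) y) (Dm g w) = oneM := by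
        have h4 : (fun x => hz v (g x)) = fun x => x := funext hg.fg
        have h5 := Dm_comp (f := g) (g := hz v) (y := w)
          (hg.sf.differentiable (by simp) _) (hg.sg.differentiable (by simp only [ne_eq, WithTop.coe_eq_zero, ENat.top_ne_zero, not_false_eq_true]) _)
        rw [h4, Dm_id] at h5
        exact h5.symm
      have h2 : M.cf c u w = pull (Dm g w) (M.cf c (M.Mo c (hz v) u) y) := by
        rw [h1, ← pull_mm, hinv, pull_one]
      have hDg : ∀ v', ‖app (Dm g w) v'‖ ≤ 2 * ‖v'‖ := by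
        intro v'
        have h6 := hz_expand hv y (app (Dm g w) v')
        rw [← app_Dm (hg.sf.differentiable (by simp) _), ← app_mm, hinv, app_one] at h6
        exact h6
      have h3 : ‖M.cf c u w‖ ≤ 48 * ‖M.cf c (M.Mo c (hz v) u) y‖ := by
        rw [h2]
        have := norm_pull_le (by norm_num : (0 : ℝ) ≤ 2) hDg (M.cf c (M.Mo c (hz v) u) y)
        linarith only [this]
      have h4 := (hC w (by linarith only [hw]) u).2
      have h5 := (hC y hyn (M.Mo c (hz v) u)).1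
      have h6 := hB (M.ψ c y)
      calc ‖u (M.ψ c w)‖ ≤ C * ‖M.cf c u w‖ := h4
        _ ≤ C * (48 * (C * B)) := by gcongr; exact h3.trans (by gcongr; exact h5.trans (by gcongr))
        _ = 48 * C ^ 2 * B := by ring
  · apply hself
    show u x + M.ext c _ x = u x
    rw [M.ext_of_notMem c _ hx, add_zero]

theorem exists_UL_lower (L : List M.A) : ∃ C : ℝ, 1 ≤ C ∧ ∀ z : M.A → V4, ‖z‖ < vinv →
    ∀ (u : X → L2) (B : ℝ), (∀ x, ‖M.UL L z u x‖ ≤ B) → ∀ x, ‖u x‖ ≤ C * B := by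
  induction L with
  | nil =>
    refine ⟨1, le_refl _, fun z _ u B hB x => ?_⟩
    rw [one_mul]; exact hB x
  | cons c L ih =>
    obtain ⟨C, hC1, hC⟩ := ih
    obtain ⟨C', hC1', hC'⟩ := M.exists_Mo_lower c
    refine ⟨C * C', by linarith only [mul_nonneg (sub_nonneg.2 hC1) (sub_nonneg.2 hC1'), hC1', hC1], fun z hz' u B hB x => ?_⟩
    have h1 := hC' (z c) ((norm_le_pi_norm z c).trans_lt hz') (M.UL L z u) B hB
    have h2 := hC z hz' u (C' * B) h1 x
    rw [mul_assoc]; exact h2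

section meas
variable [MeasurableSpace X] [BorelSpace X]

/-- Duality: pairing an exact form with `U z b` is pairing another exact form, bounded
uniformly in `z`, with `b`. -/
theorem exists_dual {e : M.Om} (he : e ∈ M.Ex) : ∃ B : ℝ, 0 ≤ B ∧ ∀ z : M.A → V4, ‖z‖ < vinv →
    ∃ e' ∈ M.Ex, (∀ x, ‖(e' : X → L2) x‖ ≤ B) ∧
      ∀ b : M.Om, M.pr (e : X → L2) (M.U z b) = M.pr (e' : X → L2) b := by
  obtain ⟨C, hC1, hC⟩ := M.exists_UL_lower M.AL
  obtain ⟨B, hB0, hB⟩ := M.bounded_of_C0 (fun a => (e.2 a).continuous)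
  refine ⟨C * B, by positivity, fun z hz' => ?_⟩
  obtain ⟨η, hη, hη'⟩ := M.exists_dX he
  obtain ⟨η', h1, h2⟩ := M.exists_U1 hz' hη
  have hU : M.U z (M.dX η') = (e : X → L2) := by
    rw [M.U_dX z h1, h2, ← hη']
  refine ⟨⟨M.dX η', M.dX_mem_Om h1⟩, M.dX_mem_Ex h1, fun x => ?_, fun b => ?_⟩
  · refine hC z hz' (M.dX η') B (fun x => ?_) x
    have : M.UL M.AL z (M.dX η') = (e : X → L2) := hU
    rw [this]; exact hB x
  · rw [← hU]
    exact M.pr_U hz' (M.dX_mem_Om h1) b.2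

end meas

end CM
end Vale.Agent.P204.GX
end

section
/-! Kernel bounds (K) and sup norm smoothing (SSM). -/
open MeasureTheory Set Metric Filter
open scoped ContDiff ENNReal NNReal Topology

namespace Vale.Agent.P204.GX
open Vale.Agent.P204.T4

section
variable {Z : Type} [NormedAddCommGroup Z] [NormedSpace ℝ Z] [FiniteDimensional ℝ Z]
  [MeasureSpace Z] [BorelSpace Z] [(volume : Measure Z).IsAddHaarMeasure]

omit [MeasureSpace Z] [BorelSpace Z] [(volume : Measure Z).IsAddHaarMeasure] in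
/-- Lipschitz bound `‖H z y - y‖ ≤ c ‖z‖` near `z = 0` -/
theorem exists_lip {H : Z → V4 → V4} (hs : ContDiff ℝ ∞ (Function.uncurry H))
    (h0 : ∀ y, H 0 y = y) (r ε : ℝ) : ∃ c : ℝ, 0 < c ∧ ∀ z : Z, ‖z‖ ≤ ε → ∀ y, ‖y‖ ≤ r →
      ‖H z y - y‖ ≤ c * ‖z‖ := by
  have hc : IsCompact (closedBall (0 : Z) ε ×ˢ closedBall (0 : V4) r) :=
    (isCompact_closedBall _ _).prod (isCompact_closedBall _ _)
  obtain ⟨C, hC⟩ := hc.exists_bound_of_continuousOn
    (hs.fderiv_right (m := ∞) (by norm_num)).continuous.continuousOn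
  refine ⟨|C| + 1, by positivity, fun z hz y hy => ?_⟩
  have hd : ∀ z ∈ closedBall (0 : Z) ε, HasFDerivWithinAt (fun z => H z y)
      ((fderiv ℝ (Function.uncurry H) (z, y)) ∘L
        ((ContinuousLinearMap.id ℝ Z).prod (0 : Z →L[ℝ] V4))) (closedBall 0 ε) z := by
    intro z _
    have h1 : HasFDerivAt (fun z : Z => (z, y))
        ((ContinuousLinearMap.id ℝ Z).prod (0 : Z →L[ℝ] V4)) z :=
      (hasFDerivAt_id z).prodMk (hasFDerivAt_const y z)
    have h2 : HasFDerivAt (Function.uncurry H) (fderiv ℝ (Function.uncurry H) (z, y)) (z, y) :=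
      (hs.differentiable (by norm_num) _).hasFDerivAt
    exact (HasFDerivAt.comp z (g := Function.uncurry H) h2 h1).hasFDerivWithinAt
  have hb : ∀ z ∈ closedBall (0 : Z) ε, ‖(fderiv ℝ (Function.uncurry H) (z, y)) ∘L
        ((ContinuousLinearMap.id ℝ Z).prod (0 : Z →L[ℝ] V4))‖ ≤ |C| + 1 := by
    intro z hz
    have h1 : ‖fderiv ℝ (Function.uncurry H) (z, y)‖ ≤ C := hC (z, y) ⟨hz, by simpa only [mem_closedBall, dist_zero_right] using hy⟩
    refine ContinuousLinearMap.opNorm_le_bound _ (by positivity) fun v => ?_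
    have h2 : ‖((fderiv ℝ (Function.uncurry H) (z, y)) ∘L
        ((ContinuousLinearMap.id ℝ Z).prod (0 : Z →L[ℝ] V4))) v‖ =
        ‖(fderiv ℝ (Function.uncurry H) (z, y)) (v, 0)‖ := by simp only [ContinuousLinearMap.comp_apply, ContinuousLinearMap.prod_apply, ContinuousLinearMap.id_apply, zero_apply]
    rw [h2]
    refine (ContinuousLinearMap.le_opNorm _ _).trans ?_
    have h3 : ‖((v, 0) : Z × V4)‖ = ‖v‖ := by simp only [Prod.norm_def, norm_zero, norm_nonneg, sup_of_le_left]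
    rw [h3]
    gcongr
    exact h1.trans ((le_abs_self C).trans (by linarith))
  have hε : 0 ≤ ε := (norm_nonneg z).trans hz
  have h1 := (convex_closedBall (0 : Z) ε).norm_image_sub_le_of_norm_hasFDerivWithin_le hd hb
    (x := 0) (y := z) (by simpa only [mem_closedBall, dist_self] using hε) (by simpa only [mem_closedBall, dist_zero_right] using hz)
  simpa only [ge_iff_le, h0, sub_zero] using h1

/-- (K) scalar kernel bound -/
theorem lintegral_kernel_le {H : Z → V4 → V4} (hs : ContDiff ℝ ∞ (Function.uncurry H))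
    (h0 : ∀ y, H 0 y = y) (e : V4 →L[ℝ] Z)
    {r r' : ℝ} (hr : r < r') (he : ∀ y, ‖y‖ ≤ r' → ∀ᶠ w in 𝓝 (0 : V4), H (e w) y = y + w) :
    ∃ (δ0 c : ℝ), 0 < δ0 ∧ 0 < c ∧ c * δ0 ≤ r' - r ∧ ∀ δ : ℝ, 0 < δ → δ ≤ δ0 → ∀ y, ‖y‖ < r →
      ∀ f : V4 → ℝ≥0∞, Measurable f → ∫⁻ z in closedBall (0 : Z) 1, f (H (δ • z) y) ≤
        ENNReal.ofReal (c * (δ ^ 4)⁻¹) * ∫⁻ w in ball y (c * δ), f w := by
  set D : Z × V4 → (Z × V4 →L[ℝ] V4) := fderiv ℝ (Function.uncurry H) with hD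
  have hDs : ContDiff ℝ ∞ D := hs.fderiv_right (m := ∞) (by norm_num)
  set i1 : V4 →L[ℝ] Z × V4 := e.prod (0 : V4 →L[ℝ] V4) with hi1
  set A : Z × V4 → (V4 →L[ℝ] V4) := fun p => (D p).comp i1 with hA
  have hAc : Continuous A := (hDs.clm_comp contDiff_const).continuous
  have hA0 : ∀ y, ‖y‖ ≤ r' → A (0, y) = ContinuousLinearMap.id ℝ V4 := by
    intro y hy
    ext1 v
    have := DzH_eq_id hs e (he y hy) v
    simpa only [hA, hD, hi1, ContinuousLinearMap.comp_apply, ContinuousLinearMap.prod_apply, zero_apply, ContinuousLinearMap.id_apply] using this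
  obtain ⟨ε, hε, hW⟩ := exists_tube (Z := Z) (W := {p | ‖A p - ContinuousLinearMap.id ℝ V4‖ < 1 / 2
      ∧ 1 / 2 < |(A p).det|})
    ((isOpen_lt (hAc.sub continuous_const).norm continuous_const).inter
      (isOpen_lt continuous_const (continuous_det4.comp hAc).abs)) (r := r) (by
      intro y hy
      have := hA0 y (by linarith only [hr, hy])
      refine ⟨?_, ?_⟩
      · simp only [this, sub_self, norm_zero]; norm_num
      · simp only [this, ContinuousLinearMap.det]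
        norm_num)
  obtain ⟨c1, hc1, hlip⟩ := exists_lip hs h0 r ε
  set E0 : ℝ := ‖e‖ with hE0
  have hE0n : 0 ≤ E0 := norm_nonneg _
  set V1 : ℝ≥0∞ := volume (ball (0 : V4) 1) with hV1
  set V2 : ℝ≥0∞ := volume (closedBall (0 : Z) (1 + E0)) with hV2
  have hV1p : V1 ≠ 0 := (measure_ball_pos _ _ one_pos).ne'
  have hV1t : V1 ≠ ⊤ := measure_ball_lt_top.ne
  have hV2t : V2 ≠ ⊤ := (isCompact_closedBall _ _).measure_lt_top.ne
  set c : ℝ := c1 * (1 + 2 * E0) + 1 + (V1⁻¹ * V2 * 2).toReal with hc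
  have hc2 : c1 * (1 + 2 * E0) < c := by
    have : 0 ≤ (V1⁻¹ * V2 * 2).toReal := ENNReal.toReal_nonneg
    linarith only [this]
  have hc3 : (V1⁻¹ * V2 * 2).toReal ≤ c := by
    have : 0 ≤ c1 * (1 + 2 * E0) := by (clear * - hc1; positivity)
    linarith only [this]
  have hcp : 0 < c := lt_of_le_of_lt (by (clear * - hc1; positivity)) hc2
  set δ0 : ℝ := min (ε / (2 * (1 + 2 * E0))) ((r' - r) / c) with hδ0
  refine ⟨δ0, c, lt_min (by positivity) (div_pos (by linarith only [hr]) hcp), hcp, ?_, ?_⟩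
  · calc c * δ0 ≤ c * ((r' - r) / c) := by gcongr; exact min_le_right _ _
      _ = r' - r := by field_simp
  intro δ hδ hδ1 y hy f hf
  have hδε : δ * (1 + 2 * E0) < ε := by
    have h1 : δ ≤ ε / (2 * (1 + 2 * E0)) := hδ1.trans (min_le_left _ _)
    have h2 : δ * (1 + 2 * E0) ≤ ε / 2 := by
      calc δ * (1 + 2 * E0) ≤ ε / (2 * (1 + 2 * E0)) * (1 + 2 * E0) := by gcongr
        _ = ε / 2 := by field_simp
    linarith only [hε, h2]
  -- the map in `w`
  set κ : Z → V4 → V4 := fun z w => H (δ • z + e (δ • w)) y with hκ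
  have hζ : ∀ z : Z, ‖z‖ ≤ 1 + E0 → ∀ w : V4, ‖w‖ < 1 → ‖δ • z + e (δ • w)‖ ≤ δ * (1 + 2 * E0) := by
    intro z hz w hw
    have h1 : ‖e (δ • w)‖ ≤ E0 * (δ * 1) := by
      refine (e.le_opNorm _).trans ?_
      rw [norm_smul, Real.norm_of_nonneg hδ.le]
      gcongr
    calc ‖δ • z + e (δ • w)‖ ≤ ‖δ • z‖ + ‖e (δ • w)‖ := norm_add_le _ _
      _ ≤ δ * (1 + E0) + E0 * (δ * 1) := by
          rw [norm_smul, Real.norm_of_nonneg hδ.le]
          gcongr
      _ = _ := by ring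
  have hκd : ∀ z w, HasFDerivAt (κ z) (δ • A (δ • z + e (δ • w), y)) w := by
    intro z w
    have h1 : HasFDerivAt (fun w : V4 => (δ • z + e (δ • w), y))
        ((e ∘L (δ • ContinuousLinearMap.id ℝ V4)).prod (0 : V4 →L[ℝ] V4)) w := by
      refine HasFDerivAt.prodMk ?_ (hasFDerivAt_const y w)
      have h2 : HasFDerivAt (fun w : V4 => e (δ • w)) (e ∘L (δ • ContinuousLinearMap.id ℝ V4)) w :=
        e.hasFDerivAt.comp w ((hasFDerivAt_id w).const_smul δ)
      exact h2.const_add _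
    have h3 : HasFDerivAt (Function.uncurry H) (D (δ • z + e (δ • w), y))
        (δ • z + e (δ • w), y) := (hs.differentiable (by norm_num) _).hasFDerivAt
    have h4 := HasFDerivAt.comp w (g := Function.uncurry H) h3 h1
    refine h4.congr_fderiv ?_
    ext1 v
    have h5 : ((D (δ • z + e (δ • w), y)) ∘L
        ((e ∘L (δ • ContinuousLinearMap.id ℝ V4)).prod (0 : V4 →L[ℝ] V4))) v =
        (D (δ • z + e (δ • w), y)) (δ • e v, 0) := by simp only [map_smul, ContinuousLinearMap.comp_smulₛₗ, Real.ringHom_apply, ContinuousLinearMap.comp_id, ContinuousLinearMap.comp_apply, ContinuousLinearMap.prod_apply, smul_apply, zero_apply]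
    have h6 : ((δ • A (δ • z + e (δ • w), y)) : V4 →L[ℝ] V4) v =
        δ • (D (δ • z + e (δ • w), y)) (e v, 0) := by simp only [hA, hi1, map_smul, smul_apply, ContinuousLinearMap.comp_apply, ContinuousLinearMap.prod_apply, zero_apply]
    have h7 : ((δ • e v, 0) : Z × V4) = δ • ((e v, 0) : Z × V4) := by simp
    rw [h5, h6, h7]
    exact (D (δ • z + e (δ • w), y)).map_smul δ _
  -- the one-parameter change of variables
  have hone : ∀ z : Z, ‖z‖ ≤ 1 + E0 → ∫⁻ w in ball (0 : V4) 1, f (κ z w) ≤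
      ENNReal.ofReal (2 * (δ ^ 4)⁻¹) * ∫⁻ w in ball y (c * δ), f w := by
    intro z hz
    have hA1 : ∀ w ∈ ball (0 : V4) 1, ‖A (δ • z + e (δ • w), y) - ContinuousLinearMap.id ℝ V4‖ <
        1 / 2 ∧ 1 / 2 < |(A (δ • z + e (δ • w), y)).det| := by
      intro w hw
      have hw' : ‖w‖ < 1 := by simpa only [mem_ball, dist_zero_right] using hw
      exact hW _ (lt_of_le_of_lt (hζ z hz w hw') hδε) y hy.le
    have hinj : InjOn (κ z) (ball 0 1) := by
      have h1 : InjOn (fun w => δ⁻¹ • κ z w) (ball 0 1) := by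
        refine injOn_of_near_id (fun w => ((hκd z w).const_smul δ⁻¹).differentiableAt)
          (convex_ball 0 1) fun w hw => ?_
        rw [((hκd z w).const_smul δ⁻¹).fderiv, smul_smul, inv_mul_cancel₀ hδ.ne', one_smul]
        exact (hA1 w hw).1.le
      intro w hw w' hw' hww
      exact h1 hw hw' (by simp only [hww])
    have hcv := lintegral_image_eq_lintegral_abs_det_fderiv_mul volume
      (s := ball (0 : V4) 1) measurableSet_ball
      (fun w _ => (hκd z w).hasFDerivWithinAt) hinj f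
    have himg : κ z '' ball 0 1 ⊆ ball y (c * δ) := by
      rintro _ ⟨w, hw, rfl⟩
      have hw' : ‖w‖ < 1 := by simpa only [mem_ball, dist_zero_right] using hw
      rw [mem_ball, dist_eq_norm]
      have h1 := hζ z hz w hw'
      calc ‖κ z w - y‖ ≤ c1 * ‖δ • z + e (δ • w)‖ := hlip _ (by linarith only [hδε, h1]) y hy.le
        _ ≤ c1 * (δ * (1 + 2 * E0)) := by gcongr
        _ = (c1 * (1 + 2 * E0)) * δ := by ring
        _ < c * δ := by gcongr
    have hdet : ∀ w ∈ ball (0 : V4) 1, ENNReal.ofReal (δ ^ 4 * (1 / 2)) ≤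
        ENNReal.ofReal |(δ • A (δ • z + e (δ • w), y)).det| := by
      intro w hw
      refine ENNReal.ofReal_le_ofReal ?_
      have h1 : (δ • A (δ • z + e (δ • w), y)).det = δ ^ 4 * (A (δ • z + e (δ • w), y)).det := by
        have := LinearMap.det_smul δ (A (δ • z + e (δ • w), y) : V4 →ₗ[ℝ] V4)
        simpa [ContinuousLinearMap.det] using this
      rw [h1, abs_mul, abs_of_pos (by positivity : 0 < δ ^ 4)]
      gcongr
      exact (hA1 w hw).2.le
    calc ∫⁻ w in ball (0 : V4) 1, f (κ z w)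
        ≤ ∫⁻ w in ball (0 : V4) 1, ENNReal.ofReal (2 * (δ ^ 4)⁻¹) *
          (ENNReal.ofReal |(δ • A (δ • z + e (δ • w), y)).det| * f (κ z w)) := by
          refine setLIntegral_mono' measurableSet_ball fun w hw => ?_
          rw [← mul_assoc]
          have h1 : (1 : ℝ≥0∞) ≤ ENNReal.ofReal (2 * (δ ^ 4)⁻¹) *
              ENNReal.ofReal |(δ • A (δ • z + e (δ • w), y)).det| := by
            calc (1 : ℝ≥0∞) = ENNReal.ofReal (2 * (δ ^ 4)⁻¹) * ENNReal.ofReal (δ ^ 4 * (1 / 2)) := by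
                  rw [← ENNReal.ofReal_mul (by positivity)]
                  have : 2 * (δ ^ 4)⁻¹ * (δ ^ 4 * (1 / 2)) = 1 := by field_simp
                  rw [this, ENNReal.ofReal_one]
              _ ≤ _ := mul_le_mul_right (hdet w hw) _
          calc f (κ z w) = 1 * f (κ z w) := (one_mul _).symm
            _ ≤ _ := by gcongr
      _ = ENNReal.ofReal (2 * (δ ^ 4)⁻¹) * ∫⁻ w in ball (0 : V4) 1,
          ENNReal.ofReal |(δ • A (δ • z + e (δ • w), y)).det| * f (κ z w) :=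
          lintegral_const_mul' _ _ ENNReal.ofReal_ne_top
      _ = ENNReal.ofReal (2 * (δ ^ 4)⁻¹) * ∫⁻ w in κ z '' ball 0 1, f w := by rw [hcv]
      _ ≤ _ := mul_le_mul_right (lintegral_mono_set himg) _
  -- averaging
  have hκm : Measurable (Function.uncurry κ) := by
    have : Continuous (Function.uncurry κ) :=
      hs.continuous.comp (((continuous_fst.const_smul δ).add
        (e.continuous.comp (continuous_snd.const_smul δ))).prodMk continuous_const)
    exact this.measurable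
  set I : ℝ≥0∞ := ∫⁻ z in closedBall (0 : Z) 1, f (H (δ • z) y) with hI
  have htr : ∀ w ∈ ball (0 : V4) 1, I ≤ ∫⁻ z in closedBall (0 : Z) (1 + E0), f (κ z w) := by
    intro w hw
    have hw' : ‖w‖ < 1 := by simpa only [mem_ball, dist_zero_right] using hw
    have h1 : I = ∫⁻ z, (closedBall (0 : Z) 1).indicator (fun z => f (H (δ • z) y)) z :=
      (lintegral_indicator measurableSet_closedBall _).symm
    rw [h1, ← lintegral_add_right_eq_self _ (e w),
      ← lintegral_indicator measurableSet_closedBall]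
    refine lintegral_mono fun z => ?_
    by_cases hz : z + e w ∈ closedBall (0 : Z) 1
    · rw [indicator_of_mem hz]
      have hz2 : z ∈ closedBall (0 : Z) (1 + E0) := by
        have h2 : ‖z + e w‖ ≤ 1 := by simpa only [mem_closedBall, dist_zero_right] using hz
        have h3 : ‖e w‖ ≤ E0 := by
          refine (e.le_opNorm _).trans ?_
          nlinarith only [hE0n, hw']
        have h4 : ‖z‖ ≤ 1 + E0 := by
          calc ‖z‖ = ‖(z + e w) - e w‖ := by rw [add_sub_cancel_right]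
            _ ≤ ‖z + e w‖ + ‖e w‖ := norm_sub_le _ _
            _ ≤ _ := add_le_add h2 h3
        simpa only [mem_closedBall, dist_zero_right, ge_iff_le] using h4
      rw [indicator_of_mem hz2]
      simp only [hκ, smul_add, map_smul]
      exact le_rfl
    · rw [indicator_of_notMem hz]
      exact bot_le
  have havg : V1 * I ≤ V2 * (ENNReal.ofReal (2 * (δ ^ 4)⁻¹) * ∫⁻ w in ball y (c * δ), f w) := by
    calc V1 * I = ∫⁻ _ in ball (0 : V4) 1, I := by
          rw [setLIntegral_const, mul_comm]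
      _ ≤ ∫⁻ w in ball (0 : V4) 1, ∫⁻ z in closedBall (0 : Z) (1 + E0), f (κ z w) :=
          setLIntegral_mono' measurableSet_ball htr
      _ = ∫⁻ z in closedBall (0 : Z) (1 + E0), ∫⁻ w in ball (0 : V4) 1, f (κ z w) := by
          refine lintegral_lintegral_swap ?_
          exact (hf.comp (hκm.comp measurable_swap)).aemeasurable
      _ ≤ ∫⁻ _ in closedBall (0 : Z) (1 + E0),
          ENNReal.ofReal (2 * (δ ^ 4)⁻¹) * ∫⁻ w in ball y (c * δ), f w := by
          refine setLIntegral_mono' measurableSet_closedBall fun z hz => ?_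
          exact hone z (by simpa only [mem_closedBall, dist_zero_right] using hz)
      _ = _ := by rw [setLIntegral_const, mul_comm]
  calc I = V1⁻¹ * (V1 * I) := by rw [← mul_assoc, ENNReal.inv_mul_cancel hV1p hV1t, one_mul]
    _ ≤ V1⁻¹ * (V2 * (ENNReal.ofReal (2 * (δ ^ 4)⁻¹) * ∫⁻ w in ball y (c * δ), f w)) := by
        gcongr
    _ = (V1⁻¹ * V2 * 2) * ENNReal.ofReal ((δ ^ 4)⁻¹) * ∫⁻ w in ball y (c * δ), f w := by
        rw [ENNReal.ofReal_mul (by norm_num)]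
        rw [show ENNReal.ofReal 2 = 2 by norm_num]
        ring
    _ ≤ ENNReal.ofReal c * ENNReal.ofReal ((δ ^ 4)⁻¹) * ∫⁻ w in ball y (c * δ), f w := by
        gcongr
        rw [← ENNReal.ofReal_toReal (a := V1⁻¹ * V2 * 2)]
        · exact ENNReal.ofReal_le_ofReal hc3
        · exact ENNReal.mul_ne_top (ENNReal.mul_ne_top (ENNReal.inv_ne_top.2 hV1p) hV2t)
            (by norm_num)
    _ = _ := by rw [← ENNReal.ofReal_mul hcp.le]

theorem norm_TT_le {G : ℝ → Z → V4 → (L2 →L[ℝ] L2)} (hG : Amp G) {H : Z → V4 → V4}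
    {C : ℝ≥0} {δ : ℝ} {y : V4} (hC : ∀ z, ‖G δ z y‖ₑ ≤ C) (b : V4 → L2) :
    ‖TT G H δ b y‖ₑ ≤ C * ∫⁻ z in closedBall (0 : Z) 1, ‖b (H (δ • z) y)‖ₑ := by
  rw [TT_eq_setIntegral hG]
  refine (enorm_integral_le_lintegral_enorm _).trans ?_
  rw [← lintegral_const_mul' _ _ ENNReal.coe_ne_top]
  refine lintegral_mono fun z => ?_
  refine ((G δ z y).le_opENorm _).trans ?_
  gcongr
  exact hC z

/-- (SSM), order zero -/
theorem supn_zero_TT_smoothing {H : Z → V4 → V4} (hs : ContDiff ℝ ∞ (Function.uncurry H))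
    (h0 : ∀ y, H 0 y = y) (e : V4 →L[ℝ] Z)
    {r r' : ℝ} (hr : r < r') (he : ∀ y, ‖y‖ ≤ r' → ∀ᶠ w in 𝓝 (0 : V4), H (e w) y = y + w) :
    ∃ (δ0 : ℝ), 0 < δ0 ∧ ∀ {G : ℝ → Z → V4 → (L2 →L[ℝ] L2)}, Amp G →
    ∃ C : ℝ≥0, ∀ δ : ℝ, 0 < δ → δ ≤ δ0 → ∀ b : V4 → L2, Continuous b →
      supn 0 (ball 0 r) (TT G H δ b) ≤
        C * ENNReal.ofReal ((δ ^ 2)⁻¹) * eLpNorm b 2 (volume.restrict (ball 0 r')) := by
  obtain ⟨δ0, c, h1, h2, h3, h4⟩ := lintegral_kernel_le hs h0 e hr he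
  refine ⟨δ0, h1, fun {G} hG => ?_⟩
  obtain ⟨C, hC⟩ := hG.bound δ0 (K := ball (0 : V4) r) isBounded_ball
  set V : ℝ≥0∞ := volume (closedBall (0 : Z) 1) with hV
  have hVt : V ≠ ⊤ := (isCompact_closedBall _ _).measure_lt_top.ne
  refine ⟨C * (1 + V.toNNReal) * (1 + c.toNNReal), fun δ hδ hδ1 b hb => iSup₂_le fun y hy => ?_⟩
  have hy' : ‖y‖ < r := by simpa using hy
  have e1 := norm_TT_le hG (H := H) (C := C) (δ := δ) (y := y)
    (fun z => hC δ hδ.le hδ1 z y hy) b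
  have e2 := h4 δ hδ hδ1 y hy' (fun w => ‖b w‖ₑ ^ 2) (hb.enorm.measurable.pow_const 2)
  rw [← ENNReal.pow_le_pow_left_iff two_ne_zero]
  have hcm : Measurable fun z : Z => ‖b (H (δ • z) y)‖ₑ := by
    have : Continuous fun z : Z => ‖b (H (δ • z) y)‖ₑ :=
      (hb.comp (hs.continuous.comp ((continuous_const_smul δ).prodMk continuous_const))).enorm
    exact this.measurable
  have e3 : (∫⁻ z in closedBall (0 : Z) 1, ‖b (H (δ • z) y)‖ₑ) ^ 2 ≤
      V * ∫⁻ z in closedBall (0 : Z) 1, ‖b (H (δ • z) y)‖ₑ ^ 2 := by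
    have := lintegral_sq_le (volume.restrict (closedBall (0 : Z) 1)) hcm.aemeasurable
    rwa [Measure.restrict_apply_univ] at this
  have e4 : ∫⁻ w in ball y (c * δ), ‖b w‖ₑ ^ 2 ≤ ∫⁻ w in ball (0 : V4) r', ‖b w‖ₑ ^ 2 := by
    refine lintegral_mono_set ?_
    intro w hw
    have hw' : ‖w - y‖ < c * δ := by simpa only [mem_ball, dist_eq_norm] using hw
    have : ‖w‖ < r' := by
      calc ‖w‖ = ‖(w - y) + y‖ := by rw [sub_add_cancel]
        _ ≤ ‖w - y‖ + ‖y‖ := norm_add_le _ _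
        _ < c * δ + r := by linarith only [hy', hw']
        _ ≤ c * δ0 + r := by gcongr
        _ ≤ r' := by linarith only [h3]
    simpa using this
  have hc' : ENNReal.ofReal (c * (δ ^ 4)⁻¹) =
      (c.toNNReal : ℝ≥0∞) * ENNReal.ofReal ((δ ^ 2)⁻¹) ^ 2 := by
    rw [ENNReal.ofReal_mul h2.le, ← ENNReal.ofReal_pow (by positivity)]
    congr 2
    ring
  have hV1 : V ≤ ((1 + V.toNNReal : ℝ≥0) : ℝ≥0∞) ^ 2 := by
    conv_lhs => rw [← ENNReal.coe_toNNReal hVt]
    norm_cast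
    calc V.toNNReal ≤ 1 + V.toNNReal := le_add_self
      _ ≤ (1 + V.toNNReal) ^ 2 := le_self_pow₀ le_self_add two_ne_zero
  have hc1 : (c.toNNReal : ℝ≥0∞) ≤ ((1 + c.toNNReal : ℝ≥0) : ℝ≥0∞) ^ 2 := by
    norm_cast
    calc c.toNNReal ≤ 1 + c.toNNReal := le_add_self
      _ ≤ (1 + c.toNNReal) ^ 2 := le_self_pow₀ le_self_add two_ne_zero
  calc ‖TT G H δ b y‖ₑ ^ 2
      ≤ (C * ∫⁻ z in closedBall (0 : Z) 1, ‖b (H (δ • z) y)‖ₑ) ^ 2 := pow_le_pow_left' e1 2
    _ = C ^ 2 * (∫⁻ z in closedBall (0 : Z) 1, ‖b (H (δ • z) y)‖ₑ) ^ 2 := mul_pow _ _ _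
    _ ≤ C ^ 2 * (V * ∫⁻ z in closedBall (0 : Z) 1, ‖b (H (δ • z) y)‖ₑ ^ 2) :=
        mul_le_mul_right e3 _
    _ ≤ C ^ 2 * (V * (ENNReal.ofReal (c * (δ ^ 4)⁻¹) *
          ∫⁻ w in ball (0 : V4) r', ‖b w‖ₑ ^ 2)) := by
        refine mul_le_mul_right (mul_le_mul_right (e2.trans (mul_le_mul_right e4 _)) _) _
    _ = C ^ 2 * (V * ((c.toNNReal : ℝ≥0∞) * ENNReal.ofReal ((δ ^ 2)⁻¹) ^ 2 *
          eLpNorm b 2 (volume.restrict (ball 0 r')) ^ 2)) := by
        rw [hc', eLpNorm_two_sq]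
    _ ≤ C ^ 2 * (((1 + V.toNNReal : ℝ≥0) : ℝ≥0∞) ^ 2 * (((1 + c.toNNReal : ℝ≥0) : ℝ≥0∞) ^ 2 *
          ENNReal.ofReal ((δ ^ 2)⁻¹) ^ 2 * eLpNorm b 2 (volume.restrict (ball 0 r')) ^ 2)) := by
        gcongr
    _ = _ := by
        push_cast
        ring

/-- (SSM) -/
theorem supn_TT_smoothing {H : Z → V4 → V4} (hs : ContDiff ℝ ∞ (Function.uncurry H))
    (h0 : ∀ y, H 0 y = y) (e : V4 →L[ℝ] Z)
    {r r' : ℝ} (hr0 : 0 < r) (hr : r < r')
    (he : ∀ y, ‖y‖ ≤ r' → ∀ᶠ w in 𝓝 (0 : V4), H (e w) y = y + w) :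
    ∃ (δ0 : ℝ), 0 < δ0 ∧ ∀ (m : ℕ) {G : ℝ → Z → V4 → (L2 →L[ℝ] L2)}, Amp G →
    ∃ C : ℝ≥0, ∀ δ : ℝ, 0 < δ → δ ≤ δ0 → δ ≤ 1 → ∀ b : V4 → L2, ContDiff ℝ ∞ b →
      supn m (ball 0 r) (TT G H δ b) ≤
        C * ENNReal.ofReal ((δ ^ (2 + m))⁻¹) * eLpNorm b 2 (volume.restrict (ball 0 r')) := by
  obtain ⟨δ1, hδ1, hz⟩ := supn_zero_TT_smoothing hs h0 e hr he
  obtain ⟨δ2, Θ, hδ2, hΘ⟩ := exists_Sub hs e hr0 hr he
  refine ⟨min δ1 δ2, lt_min hδ1 hδ2, fun m => ?_⟩
  induction m with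
  | zero =>
    intro G hG
    obtain ⟨C, hC⟩ := hz hG
    exact ⟨C, fun δ a1 a2 _ b hb => by
      simpa only [add_zero] using hC δ a1 (a2.trans (min_le_left _ _)) b hb.continuous⟩
  | succ m ih =>
    intro G hG
    obtain ⟨C0, hC0⟩ := ih hG
    choose C1 hC1 using fun i => ih (hG.GI hΘ.smooth e i)
    refine ⟨C0 + ∑ i, C1 i, fun δ a1 a2 a3 b hb => ?_⟩
    set N := eLpNorm b 2 (volume.restrict (ball 0 r')) with hN
    have hpow : ENNReal.ofReal (δ⁻¹) * ENNReal.ofReal ((δ ^ (2 + m))⁻¹) =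
        ENNReal.ofReal ((δ ^ (2 + (m + 1)))⁻¹) := by
      rw [← ENNReal.ofReal_mul (by positivity)]
      congr 1
      rw [← mul_inv]
      congr 1
      ring
    have hi : ∀ i, supn m (ball 0 r) (pdv i (TT G H δ b)) ≤
        C1 i * ENNReal.ofReal ((δ ^ (2 + (m + 1)))⁻¹) * N := by
      intro i
      have e1 : supn m (ball 0 r) (pdv i (TT G H δ b)) =
          supn m (ball 0 r) (fun y => δ⁻¹ • TT (GI Θ e G i) H δ b y) := by
        refine supn_congr m isOpen_ball fun y hy => ?_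
        have := ibp_TT hs hΘ hG hb a1.le (a2.trans (min_le_right _ _)) hy i
        rw [← this, smul_smul, inv_mul_cancel₀ a1.ne', one_smul]
      rw [e1, supn_smul m _ _ (contDiff_TT_right (hG.GI hΘ.smooth e i) hs hb δ),
        abs_of_pos (by positivity)]
      calc _ ≤ ENNReal.ofReal (δ⁻¹) * (C1 i * ENNReal.ofReal ((δ ^ (2 + m))⁻¹) * N) :=
            mul_le_mul_right (hC1 i δ a1 a2 a3 b hb) _
        _ = C1 i * (ENNReal.ofReal (δ⁻¹) * ENNReal.ofReal ((δ ^ (2 + m))⁻¹)) * N := by ring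
        _ = _ := by rw [hpow]
    have hmono : ENNReal.ofReal ((δ ^ (2 + m))⁻¹) ≤ ENNReal.ofReal ((δ ^ (2 + (m + 1)))⁻¹) := by
      refine ENNReal.ofReal_le_ofReal ?_
      refine inv_anti₀ (by positivity) ?_
      exact pow_le_pow_of_le_one a1.le a3 (by omega)
    calc supn m (ball 0 r) (TT G H δ b) + ∑ i : Fin 4, supn m (ball 0 r) (pdv i (TT G H δ b))
        ≤ C0 * ENNReal.ofReal ((δ ^ (2 + (m + 1)))⁻¹) * N +
          ∑ i, C1 i * ENNReal.ofReal ((δ ^ (2 + (m + 1)))⁻¹) * N := by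
          refine add_le_add ((hC0 δ a1 a2 a3 b hb).trans ?_) (Finset.sum_le_sum fun i _ => hi i)
          gcongr
      _ = _ := by
          push_cast
          rw [← Finset.sum_mul, ← Finset.sum_mul, ← add_mul, ← add_mul]

end
end Vale.Agent.P204.GX
end

section
set_option linter.all false
/-! Completeness of the smooth forms and comparison of `NN 0` with the `L2` norm. -/
open MeasureTheory Set Metric Filter Topology
open scoped ContDiff BigOperators ENNReal NNReal InnerProductSpace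

namespace Vale.Agent.P204.GX
open T4

namespace CM
variable {X : Type} [MetricSpace X] (M : CM X)

/-! ### completeness -/

theorem cf_tsum {b : ℕ → X → L2} (a : M.A) (h : ∀ y, Summable fun k => M.cf a (b k) y) :
    M.cf a (fun x => ∑' k, b k x) = fun y => ∑' k, M.cf a (b k) y := by
  funext y
  have h1 : Summable fun k => b k (M.ψ a y) := by
    have h2 := (h y).mapL (pullL (M.m' a y))
    refine h2.congr fun k => ?_
    rw [pullL_apply, ← M.eq_pull_m' (b k) a y]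
  have h3 := (pullL (M.m a y)).map_tsum h1
  exact h3

theorem cf_finsum (a : M.A) (b : ℕ → X → L2) (n : ℕ) :
    M.cf a (∑ k ∈ Finset.range n, b k) = fun y => ∑ k ∈ Finset.range n, M.cf a (b k) y := by
  induction n with
  | zero =>
    funext y
    simp [M.cf_zero]
  | succ n ih =>
    rw [Finset.sum_range_succ, M.cf_add, ih]
    funext y
    simp only [Pi.add_apply, Finset.sum_range_succ]

theorem exists_series {b : ℕ → X → L2} (hb : ∀ k, b k ∈ M.Om) (hs : ∀ m, Summable fun k => M.MM m (b k)) :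
    ∃ s ∈ M.Om, ∀ m, Tendsto (fun n => M.MM m (s - ∑ k ∈ Finset.range n, b k)) atTop (𝓝 0) := by
  have h1 : ∀ (a : M.A) (m : ℕ) (R : ℝ), Summable fun k => rsupn m 1 (ball 0 R) (M.cf a (b k)) := by
    intro a m R
    obtain ⟨C, hC0, hC⟩ := M.exists_N1' a m R
    exact Summable.of_nonneg_of_le (fun k => rsupn_nonneg zero_le_one m _ _) (fun k => hC (b k) (hb k))
      ((hs m).mul_left C)
  have h2 : ∀ a : M.A, M.cf a (fun x => ∑' k, b k x) = fun y => ∑' k, M.cf a (b k) y := fun a =>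
    M.cf_tsum a (series_deriv (fun k => hb k a) (h1 a)).1
  refine ⟨fun x => ∑' k, b k x, fun a => ?_, fun m => ?_⟩
  · rw [h2 a]
    exact series_contDiff (fun k => hb k a) (h1 a)
  · unfold MM
    rw [show (0 : ℝ) = ∑ a : M.A, (0 : ℝ) by simp only [Finset.sum_const_zero]]
    refine tendsto_finset_sum _ fun a _ => ?_
    have h3 := series_tail m 1 (fun k => hb k a) (h1 a)
    refine h3.congr fun n => ?_
    rw [M.cf_sub, h2 a, M.cf_finsum]
    rfl

/-- the completeness field of `SmSys` -/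
theorem complete_MM (b : ℕ → M.Om) (hs : ∀ m, Summable fun k => M.MM m (b k : X → L2)) :
    ∃ s : M.Om, ∀ m, Tendsto (fun n => M.MM m ((s - ∑ k ∈ Finset.range n, b k : M.Om) : X → L2)) atTop (𝓝 0) := by
  obtain ⟨s, hsO, h⟩ := M.exists_series (fun k => (b k).2) hs
  refine ⟨⟨s, hsO⟩, fun m => ?_⟩
  refine (h m).congr fun n => ?_
  congr 1
  simp only [AddSubgroupClass.coe_sub, AddSubmonoidClass.coe_finsetSum]

/-! ### sup bound -/

theorem exists_M0 : ∃ C : ℝ, 1 ≤ C ∧ ∀ b ∈ M.Om, ∀ x, ‖b x‖ ≤ C * M.MM 0 b := by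
  choose C hC1 hC using fun a => M.exists_cf_bound a 1
  refine ⟨1 + ∑ a, C a, ?_, fun b hb x => ?_⟩
  · have : 0 ≤ ∑ a, C a := Finset.sum_nonneg fun a _ => zero_le_one.trans (hC1 a)
    linarith only [this]
  obtain ⟨a, y, hy, rfl⟩ := M.cov x
  have h1 := (hC a y hy.le b).2
  have h2 : ‖M.cf a b y‖ ≤ M.MM 0 b :=
    (norm_le_rsupn zero_le_one 0 isBounded_ball (hb a).continuous (by simpa only [mem_ball, dist_zero_right] using hy)).trans
      (M.rsupn_le_MM 0 b a)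
  have h3 : C a ≤ 1 + ∑ a, C a := by
    have := Finset.single_le_sum (f := C) (fun a _ => zero_le_one.trans (hC1 a)) (Finset.mem_univ a)
    linarith only [this]
  calc ‖b (M.ψ a y)‖ ≤ C a * ‖M.cf a b y‖ := h1
    _ ≤ C a * M.MM 0 b := mul_le_mul_of_nonneg_left h2 (zero_le_one.trans (hC1 a))
    _ ≤ _ := mul_le_mul_of_nonneg_right h3 (M.MM_nonneg 0 b)

/-! ### comparison with the `L2` norm -/

theorem exists_det_bound (a : M.A) (r : ℝ) : ∃ c C : ℝ, 0 < c ∧ 0 < C ∧ ∀ y, ‖y‖ ≤ r →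
    c ≤ det4 (M.m a y) ∧ det4 (M.m a y) ≤ C := by
  by_cases hr : 0 ≤ r
  · have hne : (closedBall (0 : V4) r).Nonempty := ⟨0, by simpa only [mem_closedBall, dist_self] using hr⟩
    obtain ⟨y0, hy0, hmin⟩ := (isCompact_closedBall (0 : V4) r).exists_isMinOn hne (M.continuous_det_m a).continuousOn
    obtain ⟨y1, hy1, hmax⟩ := (isCompact_closedBall (0 : V4) r).exists_isMaxOn hne (M.continuous_det_m a).continuousOn
    exact ⟨det4 (M.m a y0), det4 (M.m a y1), M.m_det a y0, M.m_det a y1, fun y hy =>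
      ⟨hmin (by simpa only [mem_closedBall, dist_zero_right] using hy), hmax (by simpa only [mem_closedBall, dist_zero_right] using hy)⟩⟩
  · exact ⟨1, 1, one_pos, one_pos, fun y hy => absurd ((norm_nonneg y).trans hy) hr⟩

variable [MeasurableSpace X] [BorelSpace X]

theorem lintegral_image (c : M.A) {D : Set V4} (hD : MeasurableSet D) {g : X → ℝ≥0∞} (hg : Measurable g) :
    ∫⁻ x in M.ψ c '' D, g x ∂M.mu = ∫⁻ y in D, ENNReal.ofReal (det4 (M.m c y)) * g (M.ψ c y) := by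
  have hm : MeasurableSet (M.ψ c '' D) := (M.measurableEmbedding_ψ c).measurableSet_image.2 hD
  have h1 : M.mu.restrict (M.ψ c '' D) = (M.mu.restrict (range (M.ψ c))).restrict (M.ψ c '' D) := by
    rw [Measure.restrict_restrict hm, inter_eq_left.2 (image_subset_range _ _)]
  rw [h1, M.mu_restrict c, Measure.restrict_map (M.measurable_ψ c) hm,
    preimage_image_eq _ (M.ψ_inj c), lintegral_map hg (M.measurable_ψ c),
    restrict_withDensity hD, lintegral_withDensity_eq_lintegral_mul _ (M.measurable_dens' c)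
      (show Measurable fun y => g (M.ψ c y) from hg.comp (M.measurable_ψ c))]
  rfl

theorem iUnion_image_ball : (⋃ a, M.ψ a '' ball 0 1) = univ := by
  apply eq_univ_of_forall
  intro x
  obtain ⟨a, y, hy, rfl⟩ := M.cov x
  exact mem_iUnion.2 ⟨a, y, by simpa only [mem_ball, dist_zero_right] using hy, rfl⟩

theorem lintegral_le_sum {g : X → ℝ≥0∞} (hg : Measurable g) : ∫⁻ x, g x ∂M.mu ≤
    ∑ a, ∫⁻ y in ball 0 1, ENNReal.ofReal (det4 (M.m a y)) * g (M.ψ a y) := by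
  have h1 : ∫⁻ x, g x ∂M.mu = ∫⁻ x in ⋃ a, M.ψ a '' ball 0 1, g x ∂M.mu := by
    rw [M.iUnion_image_ball, Measure.restrict_univ]
  rw [h1]
  refine (lintegral_iUnion_le _ _).trans ?_
  rw [tsum_fintype]
  exact le_of_eq (Finset.sum_congr rfl fun a _ => M.lintegral_image a isOpen_ball.measurableSet hg)

theorem lintegral_sq_eq {f : V4 → L2} (hf : Continuous f) {B : Set V4} (hB : Bornology.IsBounded B) :
    ∫⁻ y in B, ENNReal.ofReal (‖f y‖ ^ 2) = ENNReal.ofReal (∫ y in B, ‖f y‖ ^ 2) :=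
  (ofReal_integral_eq_lintegral_ofReal (integrable_sq hf hB) (by filter_upwards with y; positivity)).symm

theorem norm_io_sq [IsFiniteMeasure M.mu] (b : M.Om) :
    ENNReal.ofReal (‖Hil.io M b‖ ^ 2) = ∫⁻ x, ENNReal.ofReal (‖toE ((b : X → L2) x)‖ ^ 2) ∂M.mu := by
  have h1 : ‖Hil.io M b‖ ^ 2 = ∫ x, ‖toE ((b : X → L2) x)‖ ^ 2 ∂M.mu := by
    rw [← real_inner_self_eq_norm_sq, L2.inner_def]
    apply integral_congr_ae
    filter_upwards [Hil.io_ae M b] with x hx
    rw [hx, real_inner_self_eq_norm_sq]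
  have h2 : Integrable (fun x => ‖toE ((b : X → L2) x)‖ ^ 2) M.mu :=
    (Hil.memLp_C0 M (Hil.Om_le_C0 M b.2)).integrable_norm_pow (by norm_num)
  rw [h1, ofReal_integral_eq_lintegral_ofReal h2 (by filter_upwards with x; positivity)]

theorem norm_le_norm_toE (A : L2) : ‖A‖ ≤ ‖toE A‖ := by
  rw [pi_norm_le_iff_of_nonneg (norm_nonneg _)]
  intro i
  exact PiLp.norm_apply_le (p := 2) (toE A) i

/-- `‖ι b‖ ≤ C NN 0 b` -/
theorem exists_norm_io_le [IsFiniteMeasure M.mu] : ∃ C : ℝ, 0 ≤ C ∧ ∀ (d : ℝ) (b : M.Om),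
    ‖Hil.io M b‖ ≤ C * M.NN 0 d (b : X → L2) := by
  choose C hC1 hC using fun a => M.exists_cf_bound a 1
  choose c D hc hD hcD using fun a => M.exists_det_bound a 1
  set K : M.A → ℝ := fun a => D a * (3 * C a) ^ 2 with hK
  have hK0 : ∀ a, 0 ≤ K a := fun a => mul_nonneg (hD a).le (sq_nonneg _)
  refine ⟨Real.sqrt (∑ a, K a), Real.sqrt_nonneg _, fun d b => ?_⟩
  have hN0 : 0 ≤ M.NN 0 d (b : X → L2) := Finset.sum_nonneg fun a _ => Real.sqrt_nonneg _
  have h1 : ENNReal.ofReal (‖Hil.io M b‖ ^ 2) ≤ ENNReal.ofReal ((∑ a, K a) * (M.NN 0 d (b : X → L2)) ^ 2) := by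
    rw [M.norm_io_sq b]
    have hmeas : Measurable fun x => ENNReal.ofReal (‖toE ((b : X → L2) x)‖ ^ 2) :=
      ((toE.continuous.measurable.comp (Hil.measurable_Om M b.2)).norm.pow_const 2).ennreal_ofReal
    refine (M.lintegral_le_sum hmeas).trans ?_
    rw [Finset.sum_mul, ENNReal.ofReal_sum_of_nonneg fun a _ => mul_nonneg (hK0 a) (sq_nonneg _)]
    refine Finset.sum_le_sum fun a _ => ?_
    have h2 : ∫⁻ y in ball 0 1, ENNReal.ofReal (det4 (M.m a y)) * ENNReal.ofReal (‖toE ((b : X → L2) (M.ψ a y))‖ ^ 2)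
        ≤ ∫⁻ y in ball 0 1, ENNReal.ofReal (K a) * ENNReal.ofReal (‖M.cf a (b : X → L2) y‖ ^ 2) := by
      refine setLIntegral_mono' isOpen_ball.measurableSet fun y hy => ?_
      have hy1 : ‖y‖ ≤ 1 := by
        rw [mem_ball_zero_iff] at hy; exact hy.le
      rw [← ENNReal.ofReal_mul (M.m_det a y).le, ← ENNReal.ofReal_mul (hK0 a)]
      apply ENNReal.ofReal_le_ofReal
      have h3 := (hC a y hy1 (b : X → L2)).2
      have h4 := Hil.norm_toE_le ((b : X → L2) (M.ψ a y))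
      have h5 : ‖toE ((b : X → L2) (M.ψ a y))‖ ≤ 3 * C a * ‖M.cf a (b : X → L2) y‖ := by
        have := mul_le_mul_of_nonneg_left h3 (by norm_num : (0 : ℝ) ≤ 3)
        linarith only [h3, h4]
      calc det4 (M.m a y) * ‖toE ((b : X → L2) (M.ψ a y))‖ ^ 2
          ≤ D a * (3 * C a * ‖M.cf a (b : X → L2) y‖) ^ 2 :=
            mul_le_mul (hcD a y hy1).2 (pow_le_pow_left₀ (norm_nonneg _) h5 2) (sq_nonneg _) (hD a).le
        _ = K a * ‖M.cf a (b : X → L2) y‖ ^ 2 := by rw [hK]; ring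
    refine h2.trans ?_
    rw [lintegral_const_mul' _ _ ENNReal.ofReal_ne_top, lintegral_sq_eq (b.2 a).continuous isBounded_ball,
      ← ENNReal.ofReal_mul (hK0 a)]
    apply ENNReal.ofReal_le_ofReal
    apply mul_le_mul_of_nonneg_left _ (hK0 a)
    have h6 : ∫ y in ball 0 1, ‖M.cf a (b : X → L2) y‖ ^ 2 = (rsob 0 d (ball 0 1) (M.cf a (b : X → L2))) ^ 2 := by
      rw [rsob_zero_def, Real.sq_sqrt (integral_nonneg fun y => by positivity)]
    rw [h6]
    have h7 : rsob 0 d (ball 0 1) (M.cf a (b : X → L2)) ≤ M.NN 0 d (b : X → L2) :=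
      Finset.single_le_sum (f := fun a => rsob 0 d (ball 0 1) (M.cf a (b : X → L2)))
        (fun a _ => Real.sqrt_nonneg _) (Finset.mem_univ a)
    exact pow_le_pow_left₀ (Real.sqrt_nonneg _) h7 2
  have hS0 : 0 ≤ ∑ a, K a := Finset.sum_nonneg fun a _ => hK0 a
  have h2 : ‖Hil.io M b‖ ^ 2 ≤ (∑ a, K a) * (M.NN 0 d (b : X → L2)) ^ 2 :=
    (ENNReal.ofReal_le_ofReal_iff (mul_nonneg hS0 (sq_nonneg _))).1 h1
  have h3 : (∑ a, K a) * (M.NN 0 d (b : X → L2)) ^ 2 = (Real.sqrt (∑ a, K a) * M.NN 0 d (b : X → L2)) ^ 2 := by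
    rw [mul_pow, Real.sq_sqrt hS0]
  rw [h3] at h2
  exact le_of_sq_le_sq h2 (mul_nonneg (Real.sqrt_nonneg _) hN0)

/-- `‖cf a b‖_{L2(ball 0 r)} ≤ C ‖ι b‖` -/
theorem exists_le_norm_io [IsFiniteMeasure M.mu] (a : M.A) (r : ℝ) : ∃ C : ℝ, 0 ≤ C ∧ ∀ (d : ℝ) (b : M.Om),
    rsob 0 d (ball 0 r) (M.cf a (b : X → L2)) ≤ C * ‖Hil.io M b‖ := by
  obtain ⟨C, hC1, hC⟩ := M.exists_cf_bound a r
  obtain ⟨c, D, hc, hD, hcD⟩ := M.exists_det_bound a r
  have hC0 : 0 ≤ C := zero_le_one.trans hC1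
  set K : ℝ := C ^ 2 * c⁻¹ with hK
  have hK0 : 0 ≤ K := by positivity
  refine ⟨Real.sqrt K, Real.sqrt_nonneg _, fun d b => ?_⟩
  have h1 : ENNReal.ofReal (∫ y in ball 0 r, ‖M.cf a (b : X → L2) y‖ ^ 2) ≤
      ENNReal.ofReal (K * ‖Hil.io M b‖ ^ 2) := by
    rw [ENNReal.ofReal_mul hK0, M.norm_io_sq b, ← lintegral_sq_eq (b.2 a).continuous isBounded_ball]
    have hmeas : Measurable fun x => ENNReal.ofReal (‖toE ((b : X → L2) x)‖ ^ 2) :=
      ((toE.continuous.measurable.comp (Hil.measurable_Om M b.2)).norm.pow_const 2).ennreal_ofReal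
    calc ∫⁻ y in ball 0 r, ENNReal.ofReal (‖M.cf a (b : X → L2) y‖ ^ 2)
        ≤ ∫⁻ y in ball 0 r, ENNReal.ofReal K * (ENNReal.ofReal (det4 (M.m a y)) *
            ENNReal.ofReal (‖toE ((b : X → L2) (M.ψ a y))‖ ^ 2)) := by
          refine setLIntegral_mono' isOpen_ball.measurableSet fun y hy => ?_
          have hy1 : ‖y‖ ≤ r := by
            rw [mem_ball_zero_iff] at hy; exact hy.le
          rw [← ENNReal.ofReal_mul (M.m_det a y).le, ← ENNReal.ofReal_mul hK0]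
          apply ENNReal.ofReal_le_ofReal
          have h3 := (hC y hy1 (b : X → L2)).1
          have h4 := norm_le_norm_toE ((b : X → L2) (M.ψ a y))
          have h5 : ‖M.cf a (b : X → L2) y‖ ≤ C * ‖toE ((b : X → L2) (M.ψ a y))‖ :=
            h3.trans (mul_le_mul_of_nonneg_left h4 hC0)
          have h6 : 1 ≤ c⁻¹ * det4 (M.m a y) := by
            rw [inv_mul_eq_div, one_le_div hc]; exact (hcD y hy1).1
          calc ‖M.cf a (b : X → L2) y‖ ^ 2 ≤ (C * ‖toE ((b : X → L2) (M.ψ a y))‖) ^ 2 :=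
                pow_le_pow_left₀ (norm_nonneg _) h5 2
            _ = C ^ 2 * ‖toE ((b : X → L2) (M.ψ a y))‖ ^ 2 * 1 := by ring
            _ ≤ C ^ 2 * ‖toE ((b : X → L2) (M.ψ a y))‖ ^ 2 * (c⁻¹ * det4 (M.m a y)) :=
                mul_le_mul_of_nonneg_left h6 (by positivity)
            _ = K * (det4 (M.m a y) * ‖toE ((b : X → L2) (M.ψ a y))‖ ^ 2) := by rw [hK]; ring
      _ = ENNReal.ofReal K * ∫⁻ x in M.ψ a '' ball 0 r, ENNReal.ofReal (‖toE ((b : X → L2) x)‖ ^ 2) ∂M.mu := by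
          rw [lintegral_const_mul' _ _ ENNReal.ofReal_ne_top, M.lintegral_image a isOpen_ball.measurableSet hmeas]
      _ ≤ _ := mul_le_mul_right (setLIntegral_le_lintegral _ _) _
  have h2 : ∫ y in ball 0 r, ‖M.cf a (b : X → L2) y‖ ^ 2 ≤ K * ‖Hil.io M b‖ ^ 2 :=
    (ENNReal.ofReal_le_ofReal_iff (mul_nonneg hK0 (sq_nonneg _))).1 h1
  rw [rsob_zero_def]
  refine (Real.sqrt_le_sqrt h2).trans (le_of_eq ?_)
  rw [Real.sqrt_mul hK0, Real.sqrt_sq (norm_nonneg _)]

/-- `NN 0 b ≤ C ‖ι b‖` -/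
theorem exists_NN_le_norm_io [IsFiniteMeasure M.mu] : ∃ C : ℝ, 0 ≤ C ∧ ∀ (d : ℝ) (b : M.Om),
    M.NN 0 d (b : X → L2) ≤ C * ‖Hil.io M b‖ := by
  choose C hC0 hC using fun a => M.exists_le_norm_io a 1
  refine ⟨∑ a, C a, Finset.sum_nonneg fun a _ => hC0 a, fun d b => ?_⟩
  rw [NN, Finset.sum_mul]
  exact Finset.sum_le_sum fun a _ => hC a d b

omit [MeasurableSpace X] [BorelSpace X]

/-! ### `ℝ≥0∞` forms of (N1) -/

theorem exists_N1_sob (a : M.A) (m : ℕ) (r : ℝ) : ∃ C : ℝ, 0 ≤ C ∧ ∀ d : ℝ, 0 ≤ d → d ≤ 1 → ∀ b ∈ M.Om,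
    sob m d (ball 0 r) (M.cf a b) ≤ ENNReal.ofReal (C * M.NN m d b) := by
  obtain ⟨C, hC0, hC⟩ := M.exists_N1 a m r
  refine ⟨C, hC0, fun d hd hd1 b hb => ?_⟩
  rw [sob_eq_ofReal m hd isBounded_ball (hb a)]
  exact ENNReal.ofReal_le_ofReal (hC d hd hd1 b hb)

theorem exists_N1_supn (a : M.A) (m : ℕ) (r : ℝ) : ∃ C : ℝ, 0 ≤ C ∧ ∀ b ∈ M.Om,
    supn m (ball 0 r) (M.cf a b) ≤ ENNReal.ofReal (C * M.MM m b) := by
  obtain ⟨C, hC0, hC⟩ := M.exists_N1' a m r
  refine ⟨C, hC0, fun b hb => ?_⟩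
  rw [supn_eq_ofReal m isBounded_ball (hb a)]
  exact ENNReal.ofReal_le_ofReal (hC b hb)

/-- from local `ℝ≥0∞` bounds to the global norm -/
theorem NN_le_of_sob {m : ℕ} {d : ℝ} (hd : 0 ≤ d) {b : X → L2} (hb : b ∈ M.Om) {C : M.A → ℝ} (hC : ∀ a, 0 ≤ C a)
    (h : ∀ a, sob m d (ball 0 1) (M.cf a b) ≤ ENNReal.ofReal (C a)) : M.NN m d b ≤ ∑ a, C a := by
  refine Finset.sum_le_sum fun a _ => ?_
  have h1 := h a
  rw [sob_eq_ofReal m hd isBounded_ball (hb a)] at h1
  exact (ENNReal.ofReal_le_ofReal_iff (hC a)).1 h1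

theorem MM_le_of_supn {m : ℕ} {b : X → L2} (hb : b ∈ M.Om) {C : M.A → ℝ} (hC : ∀ a, 0 ≤ C a)
    (h : ∀ a, supn m (ball 0 1) (M.cf a b) ≤ ENNReal.ofReal (C a)) : M.MM m b ≤ ∑ a, C a := by
  refine Finset.sum_le_sum fun a _ => ?_
  have h1 := h a
  rw [supn_eq_ofReal m isBounded_ball (hb a)] at h1
  exact (ENNReal.ofReal_le_ofReal_iff (hC a)).1 h1

end CM
end Vale.Agent.P204.GX
end

section

/-!
Density of the smooth forms in `L2`; smooth positive forms detect positivity.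
-/

set_option linter.all false

open MeasureTheory Set Filter
open scoped ContDiff InnerProductSpace Topology

namespace Vale.Agent.P204.GX.Hil
open Vale.Agent.P204.T4 Vale.Agent.P204.GX

variable {X : Type} [MetricSpace X] [MeasurableSpace X] [BorelSpace X] (M : CM X)

theorem measurable_hs : Measurable hs := continuous_hs.measurable

theorem measurable_fm (v : Lp E6 2 M.mu) : Measurable (fm (v : X → E6)) := by
  have h1 : Measurable (v : X → E6) := (Lp.stronglyMeasurable v).measurable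
  exact measurable_hs.comp (ofE.continuous.measurable.comp h1)

/-- `hs ∘ ofE` as a continuous linear map -/
noncomputable def fmL : E6 →L[ℝ] L2 := (ofE : E6 →L[ℝ] L2).comp stE

theorem integrable_fm [IsFiniteMeasure M.mu] (v : Lp E6 2 M.mu) :
    Integrable (fm (v : X → E6)) M.mu := by
  have h1 : Integrable (v : X → E6) M.mu := (Lp.memLp v).integrable (by norm_num)
  exact fmL.integrable_comp h1

theorem inner_io [IsFiniteMeasure M.mu] (v : Lp E6 2 M.mu) (b : M.Om) :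
    ⟪v, io M b⟫_ℝ = ∫ x, Q ((b : X → L2) x) (fm (v : X → E6) x) ∂M.mu := by
  rw [L2.inner_def]
  apply integral_congr_ae
  filter_upwards [io_ae M b] with x h1
  rw [h1, Q_fm]

theorem inner_io_ext [IsFiniteMeasure M.mu] (v : Lp E6 2 M.mu) (a : M.A) {γ : V4 → L2}
    (h : ContDiff ℝ ∞ γ) (hc : HasCompactSupport γ) :
    ⟪v, io M ⟨M.ext a γ, M.ext_mem_Om a h hc⟩⟫_ℝ =
      ∫ y, Q (γ y) (M.cf a (fm (v : X → E6)) y) := by
  rw [inner_io]
  exact M.integral_ext a γ _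

theorem eq_zero_of_orth [IsFiniteMeasure M.mu] (v : Lp E6 2 M.mu)
    (h : ∀ b : M.Om, ⟪v, io M b⟫_ℝ = 0) : v = 0 := by
  have hU := measurable_fm M v
  have hi := integrable_fm M v
  have h1 : ∀ a : M.A, ∀ᵐ y, M.cf a (fm (v : X → E6)) y = 0 := by
    intro a
    have hW := locInt_cf M hU hi a
    have h2 : ∀ i : Fin 6, ∀ᵐ y, Q (Pi.single i (1:ℝ)) (M.cf a (fm (v : X → E6)) y) = 0 := by
      intro i
      apply ae_eq_zero_of_integral_contDiff_smul_eq_zero
        (locInt_Q hW (G := fun _ => Pi.single i (1:ℝ)) continuous_const)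
      intro g hg hgc
      have h3 : ContDiff ℝ ∞ (fun y => g y • (Pi.single i (1:ℝ) : L2)) := hg.smul contDiff_const
      have h4 : HasCompactSupport (fun y => g y • (Pi.single i (1:ℝ) : L2)) := hgc.smul_right
      have h5 := inner_io_ext M v a h3 h4
      rw [h] at h5
      rw [h5]
      apply integral_congr_ae
      exact Eventually.of_forall fun y => by simp only [Q_smul_left, smul_eq_mul]
    have h6 := eventually_countable_forall.2 h2
    filter_upwards [h6] with y hy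
    apply eq_zero_of_Q_single
    intro i
    rw [Q_comm]; exact hy i
  have h7 : ∀ᵐ x ∂M.mu, fm (v : X → E6) x = 0 := by
    apply ae_of_chart M
    intro a
    filter_upwards [h1 a] with y hy
    rwa [cf_eq_zero_iff] at hy
  apply Lp.ext
  filter_upwards [h7, Lp.coeFn_zero E6 2 M.mu] with x hx h0
  rw [h0]
  have h8 : hs (fm (v : X → E6) x) = 0 := by
    rw [hx]; funext i; fin_cases i <;> simp only [hs, Pi.zero_apply, neg_zero, Fin.zero_eta, Fin.isValue, Matrix.cons_val_zero, Fin.mk_one, Matrix.cons_val_one, Fin.reduceFinMk, Matrix.cons_val]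
  rw [fm, hs_hs] at h8
  exact (map_eq_zero_iff ofE ofE.injective).1 h8

theorem denseRange_io [IsFiniteMeasure M.mu] : DenseRange (io M) := by
  have h1 : (LinearMap.range (io M)).topologicalClosure = ⊤ := by
    rw [Submodule.topologicalClosure_eq_top_iff, Submodule.eq_bot_iff]
    intro v hv
    apply eq_zero_of_orth M v
    intro b
    rw [real_inner_comm]
    exact (Submodule.mem_orthogonal _ _).1 hv _ (LinearMap.mem_range_self _ b)
  intro x
  have h2 : x ∈ (LinearMap.range (io M)).topologicalClosure := by rw [h1]; trivial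
  exact h2

omit [MeasurableSpace X] [BorelSpace X] in
theorem frame_m (a : M.A) (y : V4) : Frame (M.J a y) (M.m' a y) (M.m a y) where
  right v := M.m'_m a y v
  left v := M.m_m' a y v
  comm v := by
    have h1 := M.m_J a y (app (M.m' a y) v)
    rw [M.m_m'] at h1
    rw [← h1, M.m'_m]
  pos := by
    have h1 := det4_mm (M.m a y) (M.m' a y)
    rw [M.mm_m_m', det4_one] at h1
    have h2 := M.m_det a y
    by_contra hneg
    push Not at hneg
    linarith only [mul_nonneg (le_of_lt (sub_pos.2 h2)) (sub_nonneg.2 hneg), h1]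

omit [MeasurableSpace X] [BorelSpace X] in
/-- positivity in the chart and in the frame -/
theorem cone_cf_iff (a : M.A) (y : V4) (B : L2) :
    Cone (M.J a y) (pull (M.m a y) B) ↔ Cone J0 B := by
  rw [← (frame_m M a y).cone_iff, ← pull_mm, M.mm_m_m', pull_one]

theorem pos_detect [IsFiniteMeasure M.mu] (v : Lp E6 2 M.mu)
    (h : ∀ b : M.Om, (∀ x, Cone J0 ((b : X → L2) x)) → 0 ≤ ⟪v, io M b⟫_ℝ) :
    ∀ᵐ x ∂M.mu, ∀ B : L2, Cone J0 B → 0 ≤ ⟪v x, toE B⟫_ℝ := by
  have hU := measurable_fm M v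
  have hi := integrable_fm M v
  apply ae_of_chart M
  intro a
  have hW := locInt_cf M hU hi a
  have hJc : Continuous (M.J a) := (M.J_smooth a).continuous
  -- rank one forms
  have h1 : ∀ q : Fin 4 → ℚ, ∀ᵐ y, 0 ≤ Q (wd (fun i => (q i : ℝ)) (cc (M.J a y) (fun i => (q i : ℝ))))
      (M.cf a (fm (v : X → E6)) y) := by
    intro q
    set θ : V4 := fun i => (q i : ℝ) with hθ
    have hRs : ContDiff ℝ ∞ (fun y => wd θ (cc (M.J a y) θ)) := by
      have hcc : ContDiff ℝ ∞ (fun y => cc (M.J a y) θ) := by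
        unfold cc
        exact (contDiff_copp.comp (contDiff_const.prodMk (M.J_smooth a))).neg
      rw [contDiff_pi] at hcc
      rw [contDiff_pi]
      intro i
      fin_cases i
      · exact (contDiff_const.mul (hcc 1)).sub (contDiff_const.mul (hcc 0))
      · exact (contDiff_const.mul (hcc 2)).sub (contDiff_const.mul (hcc 0))
      · exact (contDiff_const.mul (hcc 3)).sub (contDiff_const.mul (hcc 0))
      · exact (contDiff_const.mul (hcc 2)).sub (contDiff_const.mul (hcc 1))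
      · exact (contDiff_const.mul (hcc 3)).sub (contDiff_const.mul (hcc 1))
      · exact (contDiff_const.mul (hcc 3)).sub (contDiff_const.mul (hcc 2))
    apply ae_nonneg_of_smooth (locInt_Q hW hRs.continuous)
    intro g hg hgc hg0
    have h3 : ContDiff ℝ ∞ (fun y => g y • wd θ (cc (M.J a y) θ)) := hg.smul hRs
    have h4 : HasCompactSupport (fun y => g y • wd θ (cc (M.J a y) θ)) := hgc.smul_right
    have h5 := inner_io_ext M v a h3 h4
    have h6 : 0 ≤ ⟪v, io M ⟨M.ext a (fun y => g y • wd θ (cc (M.J a y) θ)),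
        M.ext_mem_Om a h3 h4⟩⟫_ℝ := by
      apply h
      intro x
      by_cases hx : x ∈ range (M.ψ a)
      · obtain ⟨y, rfl⟩ := hx
        change Cone J0 (M.ext a (fun y => g y • wd θ (cc (M.J a y) θ)) (M.ψ a y))
        rw [M.ext_ψ_self, ← cone_cf_iff M a y, ← pull_mm, M.mm_m'_m, pull_one]
        obtain ⟨c1, c2⟩ := cone_wd (M.J_cx a y) θ
        refine ⟨by rw [pull_smul, c1], fun w => ?_⟩
        rw [ev_smul]
        exact mul_nonneg (hg0 y) (c2 w)
      · change Cone J0 (M.ext a (fun y => g y • wd θ (cc (M.J a y) θ)) x)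
        rw [M.ext_of_notMem a _ hx]
        refine ⟨pull_zero _, fun w => ?_⟩
        simp [ev_eq]
    rw [h5] at h6
    refine h6.trans_eq ?_
    apply integral_congr_ae
    exact Eventually.of_forall fun y => by simp only [Q_smul_left]
  have h7 := eventually_countable_forall.2 h1
  filter_upwards [h7] with y hy B hB
  set W := M.cf a (fm (v : X → E6)) y with hWdef
  have hcx := M.J_cx a y
  have hps := M.J_pos a y
  have hD : Cone (M.J a y) (pP (M.J a y) W) := by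
    apply cone_of_rat hcx hps
    · intro i
      exact Q_inv_pM hcx hps (pull_pP hcx W) _
    · intro q
      have h8 := hy q
      have h9 := cone_wd hcx (fun i => (q i : ℝ))
      have h10 := Q_inv_pP hcx hps h9.1 W
      rw [Q_comm, h10]
      exact h8
  have hB' : Cone (M.J a y) (pull (M.m a y) B) := (cone_cf_iff M a y B).2 hB
  have h11 := Q_cone_nonneg hcx hps hB' hD
  have h12 := Q_inv_pP hcx hps hB'.1 W
  rw [h12] at h11
  have h13 : Q (pull (M.m a y) B) W = det4 (M.m a y) * Q B (fm (v : X → E6) (M.ψ a y)) :=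
    Q_pull _ _ _
  rw [h13] at h11
  have h14 := M.m_det a y
  rw [← Q_fm (v : X → E6) (M.ψ a y) B]
  by_contra hneg
  push Not at hneg
  nlinarith only [h11, h14, hneg]

end Vale.Agent.P204.GX.Hil
end

section

/-!
Local-to-global estimates for the averaging operators `S0`.
-/

set_option linter.all false

open MeasureTheory Set Metric
open scoped ContDiff ENNReal NNReal BigOperators

namespace Vale.Agent.P204.GX
open T4

namespace CM
variable {X : Type} [MetricSpace X] (M : CM X)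

/-! ### uniform choice of the scale -/

theorem exists_min {P : M.A → ℝ → Prop} (hP : ∀ a, ∃ δ0 : ℝ, 0 < δ0 ∧ ∀ δ, δ ≤ δ0 → P a δ) :
    ∃ δ0 : ℝ, 0 < δ0 ∧ ∀ δ, δ ≤ δ0 → ∀ a, P a δ := by
  choose f hf hf' using hP
  have hA : ∀ s : Finset M.A, ∃ v : ℝ, 0 < v ∧ ∀ a ∈ s, v ≤ f a := by
    intro s
    induction s using Finset.induction_on with
    | empty => exact ⟨1, one_pos, fun p hp => absurd hp (Finset.notMem_empty _)⟩
    | insert p s _ ih =>
      obtain ⟨v1, h1, h2⟩ := ih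
      refine ⟨min v1 (f p), lt_min h1 (hf _), fun q hq => ?_⟩
      rcases Finset.mem_insert.1 hq with rfl | hq
      · exact min_le_right _ _
      · exact (min_le_left _ _).trans (h2 q hq)
  obtain ⟨v, h1, h2⟩ := hA Finset.univ
  exact ⟨v, h1, fun δ hδ a => hf' a δ (hδ.trans (h2 a (Finset.mem_univ _)))⟩

/-- everything we need to know about a scale -/
structure Scale (δ : ℝ) : Prop where
  pos : 0 < δ
  le_z1 : δ ≤ M.z1
  le_one : δ ≤ 1
  lt_vinv : δ < vinv
  fam : ∀ a, Fam (M.HH a) δ (ball 0 1) (ball 0 2)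
  sub : ∀ a, ∃ Θ, Sub (M.HH a) (M.eL a) Θ δ (ball 0 1)
  smo : ∀ a (m : ℕ) {G : ℝ → (M.A → V4) → V4 → (L2 →L[ℝ] L2)}, Amp G →
    ∃ C : ℝ≥0, ∀ δ' : ℝ, 0 < δ' → δ' ≤ δ → ∀ b : V4 → L2, ContDiff ℝ ∞ b →
      supn m (ball 0 1) (TT G (M.HH a) δ' b) ≤
        C * ENNReal.ofReal ((δ' ^ (2 + m))⁻¹) * eLpNorm b 2 (volume.restrict (ball 0 2))

theorem exists_scale : ∃ δ0 : ℝ, 0 < δ0 ∧ ∀ δ, 0 < δ → δ ≤ δ0 → M.Scale δ := by
  have h1 := M.exists_min (P := fun a δ => Fam (M.HH a) δ (ball 0 1) (ball 0 2))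
    fun a => exists_Fam (M.contDiff_HH a) (M.HH_zero a) (by norm_num)
  have h2 := M.exists_min (P := fun a δ => ∃ Θ, Sub (M.HH a) (M.eL a) Θ δ (ball 0 1)) (by
    intro a
    obtain ⟨δ0, Θ, h0, h⟩ := exists_Sub (M.contDiff_HH a) (M.eL a) (r := 1) (r' := 2) one_pos (by norm_num)
      (fun y hy => M.HH_eL a (by linarith))
    exact ⟨δ0, h0, fun δ hδ => ⟨Θ, h.smooth, fun z hz => h.eq z (hz.trans hδ)⟩⟩)
  have h3 := M.exists_min (P := fun a δ => ∀ (m : ℕ) {G : ℝ → (M.A → V4) → V4 → (L2 →L[ℝ] L2)},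
    Amp G → ∃ C : ℝ≥0, ∀ δ' : ℝ, 0 < δ' → δ' ≤ δ → ∀ b : V4 → L2, ContDiff ℝ ∞ b →
      supn m (ball 0 1) (TT G (M.HH a) δ' b) ≤
        C * ENNReal.ofReal ((δ' ^ (2 + m))⁻¹) * eLpNorm b 2 (volume.restrict (ball 0 2))) (by
    intro a
    obtain ⟨δ0, h0, h⟩ := supn_TT_smoothing (M.contDiff_HH a) (M.HH_zero a) (M.eL a) (r := 1)
      (r' := 2) one_pos (by norm_num) (fun y hy => M.HH_eL a (by linarith only [hy]))
    refine ⟨min δ0 1, by positivity, fun δ hδ m G hG => ?_⟩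
    obtain ⟨C, hC⟩ := h m hG
    exact ⟨C, fun δ' h1 h2 => hC δ' h1 (h2.trans (hδ.trans (min_le_left _ _)))
      (h2.trans (hδ.trans (min_le_right _ _)))⟩)
  obtain ⟨d1, d1p, h1⟩ := h1
  obtain ⟨d2, d2p, h2⟩ := h2
  obtain ⟨d3, d3p, h3⟩ := h3
  have hz := M.z1_pos
  have hv := vinv_pos
  refine ⟨min (min d1 d2) (min d3 (min M.z1 (min 1 (vinv / 2)))), by positivity, fun δ hδ0 hδ => ?_⟩
  have e1 : δ ≤ d1 := hδ.trans ((min_le_left _ _).trans (min_le_left _ _))
  have e2 : δ ≤ d2 := hδ.trans ((min_le_left _ _).trans (min_le_right _ _))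
  have e3 : δ ≤ d3 := hδ.trans ((min_le_right _ _).trans (min_le_left _ _))
  have e4 : δ ≤ min M.z1 (min 1 (vinv / 2)) := hδ.trans ((min_le_right _ _).trans (min_le_right _ _))
  have e5 : δ ≤ min 1 (vinv / 2) := e4.trans (min_le_right _ _)
  exact
    { pos := hδ0
      le_z1 := e4.trans (min_le_left _ _)
      le_one := e5.trans (min_le_left _ _)
      lt_vinv := by have := e5.trans (min_le_right _ _); linarith only [hδ0, this]
      fam := h1 _ e1
      sub := h2 _ e2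
      smo := fun a m G hG => h3 _ e3 a m hG }

variable {M} {δ1 : ℝ}

/-- the amplitude of `S0` -/
noncomputable abbrev GG (a : M.A) : ℝ → (M.A → V4) → V4 → (L2 →L[ℝ] L2) :=
  fun (δ : ℝ) z y => M.rr z • M.PP a (δ • z) y

theorem Scale.cf_S0 (h : M.Scale δ1) (a : M.A) {δ : ℝ} (h0 : 0 < δ) (h1 : δ ≤ δ1) (b : M.Om) :
    EqOn (M.cf a (M.S0L δ b : X → L2)) (TT (GG a) (M.HH a) δ (M.cf a (b : X → L2))) (ball 0 1) := by
  intro y hy
  rw [mem_ball_zero_iff] at hy
  rw [M.S0L_coe h0.le (h1.trans h.le_z1)]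
  exact M.cf_S0_TT a h0.le (h1.trans h.le_z1) (fun a => (b.2 a).continuous) (by linarith only [hy])

theorem sum_mul_const {C : M.A → ℝ} {Y : ℝ} : ∑ a, C a * Y = (∑ a, C a) * Y :=
  (Finset.sum_mul _ _ _).symm

theorem coe_mul_ofReal (c : ℝ≥0) (x : ℝ) :
    (c : ℝ≥0∞) * ENNReal.ofReal x = ENNReal.ofReal ((c : ℝ) * x) := by
  rw [ENNReal.ofReal_mul (NNReal.coe_nonneg c), ENNReal.ofReal_coe_nnreal]

/-- (O1) -/
theorem Scale.o1 (h : M.Scale δ1) (m : ℕ) : ∃ C : ℝ, 0 ≤ C ∧ ∀ δ δ' : ℝ, 0 < δ → δ ≤ δ1 → 0 ≤ δ' →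
    δ' ≤ 1 → ∀ b : M.Om, M.NN m δ' (M.S0L δ b : X → L2) ≤ C * M.NN m δ' (b : X → L2) := by
  choose C1 hC1 using fun a => sob_TT' (h.fam a) isOpen_ball isBounded_ball m (M.amp_PP a)
  choose C2 hC2 hC2' using fun a => M.exists_N1_sob a m 2
  refine ⟨∑ a, (C1 a : ℝ) * C2 a,
    Finset.sum_nonneg fun a _ => mul_nonneg (NNReal.coe_nonneg _) (hC2 a), ?_⟩
  intro δ δ' h0 h1 h2 h3 b
  have hN := M.NN_nonneg m h2 (b : X → L2)
  rw [← sum_mul_const]
  refine M.NN_le_of_sob h2 (M.S0L δ b).2 (fun a => ?_) fun a => ?_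
  · have := hC2 a; positivity
  · rw [sob_congr m δ' isOpen_ball (h.cf_S0 a h0 h1 b)]
    refine (hC1 a δ δ' h0.le h1 h3 _ (b.2 a)).trans ?_
    refine (mul_le_mul_right (hC2' a δ' h2 h3 _ b.2) _).trans ?_
    rw [mul_assoc, coe_mul_ofReal]

/-- (O1) for the sup norms -/
theorem Scale.o1M (h : M.Scale δ1) (m : ℕ) : ∃ C : ℝ, 0 ≤ C ∧ ∀ δ : ℝ, 0 < δ → δ ≤ δ1 →
    ∀ b : M.Om, M.MM m (M.S0L δ b : X → L2) ≤ C * M.MM m (b : X → L2) := by
  choose C1 hC1 using fun a => supn_TT' (h.fam a) isBounded_ball m (M.amp_PP a)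
  choose C2 hC2 hC2' using fun a => M.exists_N1_supn a m 2
  refine ⟨∑ a, (C1 a : ℝ) * C2 a,
    Finset.sum_nonneg fun a _ => mul_nonneg (NNReal.coe_nonneg _) (hC2 a), ?_⟩
  intro δ h0 h1 b
  have hN := M.MM_nonneg m (b : X → L2)
  rw [← sum_mul_const]
  refine M.MM_le_of_supn (M.S0L δ b).2 (fun a => ?_) fun a => ?_
  · have := hC2 a; positivity
  · rw [supn_congr m isOpen_ball (h.cf_S0 a h0 h1 b)]
    refine (hC1 a δ h0.le h1 _ (b.2 a)).trans ?_
    refine (mul_le_mul_right (hC2' a _ b.2) _).trans ?_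
    rw [mul_assoc, coe_mul_ofReal]

theorem Scale.cf_sub_S0 (h : M.Scale δ1) (a : M.A) {δ : ℝ} (h0 : 0 < δ) (h1 : δ ≤ δ1) (b : M.Om) :
    EqOn (M.cf a ((b - M.S0L δ b : M.Om) : X → L2))
      (fun y => M.cf a (b : X → L2) y - TT (GG a) (M.HH a) δ (M.cf a (b : X → L2)) y)
      (ball 0 1) := by
  intro y hy
  have e1 : ((b - M.S0L δ b : M.Om) : X → L2) = (b : X → L2) - (M.S0L δ b : X → L2) := rfl
  rw [e1, M.cf_sub, Pi.sub_apply, h.cf_S0 a h0 h1 b hy]

/-- (O2) -/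
theorem Scale.o2 (h : M.Scale δ1) (m : ℕ) : ∃ C : ℝ, 0 ≤ C ∧ ∀ δ δ' : ℝ, 0 < δ → δ ≤ δ1 → 0 < δ' →
    δ' ≤ 1 → ∀ b : M.Om, M.NN m δ' ((b - M.S0L δ b : M.Om) : X → L2) ≤
      C * (δ / δ') * M.NN (m + 1) δ' (b : X → L2) := by
  choose C1 hC1 using fun a => sob_sub_TT (h.fam a) isOpen_ball isBounded_ball (M.HH_zero a)
    (M.contDiff_PP a) (M.PP_zero a) M.bump_rr m
  choose C2 hC2 hC2' using fun a => M.exists_N1_sob a (m + 1) 2
  refine ⟨∑ a, (C1 a : ℝ) * C2 a,
    Finset.sum_nonneg fun a _ => mul_nonneg (NNReal.coe_nonneg _) (hC2 a), ?_⟩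
  intro δ δ' h0 h1 h2 h3 b
  have hN := M.NN_nonneg (m + 1) h2.le (b : X → L2)
  rw [mul_assoc, ← sum_mul_const]
  refine M.NN_le_of_sob h2.le (b - M.S0L δ b).2 (fun a => ?_) fun a => ?_
  · have := hC2 a; positivity
  · rw [sob_congr m δ' isOpen_ball (h.cf_sub_S0 a h0 h1 b)]
    refine (hC1 a δ δ' h0.le h1 h2 h3 _ (b.2 a)).trans ?_
    refine (mul_le_mul_right (hC2' a δ' h2.le h3 _ b.2) _).trans ?_
    rw [coe_mul_ofReal, ← ENNReal.ofReal_mul (by positivity)]
    apply ENNReal.ofReal_le_ofReal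
    apply le_of_eq
    ring

/-- (O2) for the sup norms -/
theorem Scale.o2M (h : M.Scale δ1) (m : ℕ) : ∃ C : ℝ, 0 ≤ C ∧ ∀ δ : ℝ, 0 < δ → δ ≤ δ1 →
    ∀ b : M.Om, M.MM m ((b - M.S0L δ b : M.Om) : X → L2) ≤
      C * δ * M.MM (m + 1) (b : X → L2) := by
  choose C1 hC1 using fun a => supn_sub_TT (h.fam a) isBounded_ball (M.HH_zero a)
    (M.contDiff_PP a) (M.PP_zero a) M.bump_rr m
  choose C2 hC2 hC2' using fun a => M.exists_N1_supn a (m + 1) 2
  refine ⟨∑ a, (C1 a : ℝ) * C2 a,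
    Finset.sum_nonneg fun a _ => mul_nonneg (NNReal.coe_nonneg _) (hC2 a), ?_⟩
  intro δ h0 h1 b
  have hN := M.MM_nonneg (m + 1) (b : X → L2)
  rw [mul_assoc, ← sum_mul_const]
  refine M.MM_le_of_supn (b - M.S0L δ b).2 (fun a => ?_) fun a => ?_
  · have := hC2 a; positivity
  · rw [supn_congr m isOpen_ball (h.cf_sub_S0 a h0 h1 b)]
    refine (hC1 a δ h0.le h1 _ (b.2 a)).trans ?_
    refine (mul_le_mul_right (hC2' a _ b.2) _).trans ?_
    rw [coe_mul_ofReal, ← ENNReal.ofReal_mul (by positivity)]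
    apply ENNReal.ofReal_le_ofReal
    apply le_of_eq
    ring

section meas
variable [MeasurableSpace X] [BorelSpace X] [IsFiniteMeasure M.mu]

/-- local `L2` norms in terms of the global one -/
theorem exists_eLp (a : M.A) : ∃ C : ℝ, 0 ≤ C ∧ ∀ b : M.Om,
    eLpNorm (M.cf a (b : X → L2)) 2 (volume.restrict (ball 0 2)) ≤
      ENNReal.ofReal (C * ‖Hil.io M b‖) := by
  obtain ⟨C1, h1, h1'⟩ := M.exists_N1_sob a 0 2
  obtain ⟨C2, h2, h2'⟩ := M.exists_NN_le_norm_io
  refine ⟨C1 * C2, by positivity, fun b => ?_⟩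
  have h3 := h1' 1 zero_le_one le_rfl (b : X → L2) b.2
  refine le_trans h3 (ENNReal.ofReal_le_ofReal ?_)
  rw [mul_assoc]
  exact mul_le_mul_of_nonneg_left (h2' 1 b) h1

/-- (SS) -/
theorem Scale.ss (h : M.Scale δ1) (m : ℕ) : ∃ C : ℝ, 0 ≤ C ∧ ∀ δ : ℝ, 0 < δ → δ ≤ δ1 →
    ∀ b : M.Om, M.NN m δ (M.S0L δ b : X → L2) ≤ C * ‖Hil.io M b‖ := by
  choose Θ hΘ using h.sub
  choose C1 hC1 using fun a => sob_TT_smoothing (h.fam a) isOpen_ball isBounded_ball (hΘ a) m
    (M.amp_PP a)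
  choose C2 hC2 hC2' using fun a => exists_eLp (M := M) a
  refine ⟨∑ a, (C1 a : ℝ) * C2 a,
    Finset.sum_nonneg fun a _ => mul_nonneg (NNReal.coe_nonneg _) (hC2 a), ?_⟩
  intro δ h0 h1 b
  rw [← sum_mul_const]
  refine M.NN_le_of_sob h0.le (M.S0L δ b).2 (fun a => ?_) fun a => ?_
  · have := hC2 a; positivity
  · rw [sob_congr m δ isOpen_ball (h.cf_S0 a h0 h1 b)]
    refine (hC1 a δ h0 h1 _ (b.2 a)).trans ?_
    refine (mul_le_mul_right (hC2' a b) _).trans ?_
    rw [mul_assoc, coe_mul_ofReal]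

/-- (SSM) -/
theorem Scale.ssm (h : M.Scale δ1) (m : ℕ) : ∃ C : ℝ, 0 ≤ C ∧ ∀ δ : ℝ, 0 < δ → δ ≤ δ1 →
    ∀ b : M.Om, M.MM m (M.S0L δ b : X → L2) ≤ C * (δ ^ (2 + m))⁻¹ * ‖Hil.io M b‖ := by
  choose C1 hC1 using fun a => h.smo a m (M.amp_PP a)
  choose C2 hC2 hC2' using fun a => exists_eLp (M := M) a
  refine ⟨∑ a, (C1 a : ℝ) * C2 a,
    Finset.sum_nonneg fun a _ => mul_nonneg (NNReal.coe_nonneg _) (hC2 a), ?_⟩
  intro δ h0 h1 b
  rw [mul_assoc, ← sum_mul_const]
  refine M.MM_le_of_supn (M.S0L δ b).2 (fun a => ?_) fun a => ?_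
  · have := hC2 a; positivity
  · rw [supn_congr m isOpen_ball (h.cf_S0 a h0 h1 b)]
    refine (hC1 a δ h0 h1 _ (b.2 a)).trans ?_
    refine (mul_le_mul_right (hC2' a b) _).trans ?_
    rw [coe_mul_ofReal, ← ENNReal.ofReal_mul (by positivity)]
    apply ENNReal.ofReal_le_ofReal
    apply le_of_eq
    ring

end meas

end CM
end Vale.Agent.P204.GX
end

section

/-!
The commutator estimate (SC), preservation of weakly closed forms.
-/

set_option linter.all false

open MeasureTheory Set Metric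
open scoped ContDiff ENNReal NNReal BigOperators InnerProductSpace

namespace Vale.Agent.P204.GX
open T4

namespace CM
variable {X : Type} [MetricSpace X] {M : CM X} {δ1 : ℝ}

/-- the commutator amplitude -/
noncomputable def cc (a : M.A) (z : M.A → V4) (y : V4) : L2 →L[ℝ] L2 :=
  (pML (M.J a y)).comp (M.PP a z y) - (M.PP a z y).comp (pML (M.J a (M.HH a z y)))

theorem contDiff_cc (a : M.A) : ContDiff ℝ ∞ (Function.uncurry (cc a)) := by
  have h1 : ContDiff ℝ ∞ fun p : (M.A → V4) × V4 => pML (M.J a p.2) :=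
    contDiff_pML.comp ((M.J_smooth a).comp contDiff_snd)
  have h2 : ContDiff ℝ ∞ fun p : (M.A → V4) × V4 => pML (M.J a (M.HH a p.1 p.2)) :=
    contDiff_pML.comp ((M.J_smooth a).comp (M.contDiff_HH a))
  have h3 : ContDiff ℝ ∞ fun p : (M.A → V4) × V4 => M.PP a p.1 p.2 := M.contDiff_PP a
  exact (h1.clm_comp h3).sub (h3.clm_comp h2)

theorem cc_zero (a : M.A) (y : V4) : cc a 0 y = 0 := by
  unfold cc
  rw [M.PP_zero, M.HH_zero]
  simp

theorem exists_amp (a : M.A) : ∃ G : ℝ → (M.A → V4) → V4 → (L2 →L[ℝ] L2), Amp G ∧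
    ∀ δ z y, M.rr z • cc a (δ • z) y = δ • G δ z y := by
  obtain ⟨g, hg, hg'⟩ := exists_hadamard (contDiff_cc a) (cc_zero a)
  refine ⟨fun δ z y => M.rr z • g δ z y, ⟨?_, ?_⟩, ?_⟩
  · exact M.contDiff_rrscale.smul hg
  · intro δ z y hz
    simp only [M.bump_rr.supp z hz, zero_smul]
  · intro δ z y
    rw [hg', smul_comm]

theorem Scale.cf_sc (h : M.Scale δ1) (a : M.A) {G : ℝ → (M.A → V4) → V4 → (L2 →L[ℝ] L2)}
    (hG : Amp G) (hG' : ∀ δ z y, M.rr z • cc a (δ • z) y = δ • G δ z y)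
    {δ : ℝ} (h0 : 0 < δ) (h1 : δ ≤ δ1) (b : M.Om) :
    EqOn (M.cf a ((Hil.pmO M (M.S0L δ b) - M.S0L δ (Hil.pmO M b) : M.Om) : X → L2))
      (fun y => δ • TT G (M.HH a) δ (M.cf a (b : X → L2)) y) (ball 0 1) := by
  intro y hy
  have e1 : ((Hil.pmO M (M.S0L δ b) - M.S0L δ (Hil.pmO M b) : M.Om) : X → L2) =
    (fun x => pM J0 ((M.S0L δ b : X → L2) x)) - (M.S0L δ (Hil.pmO M b) : X → L2) := rfl
  rw [e1, M.cf_sub, Pi.sub_apply, M.cf_pM, h.cf_S0 a h0 h1 b hy, h.cf_S0 a h0 h1 _ hy]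
  have hb : Continuous (M.cf a (b : X → L2)) := (b.2 a).continuous
  have hpb : Continuous (M.cf a (Hil.pmO M b : X → L2)) := ((Hil.pmO M b).2 a).continuous
  have i1 := integrable_TT (M.amp_PP a) (M.contDiff_HH a) hb δ y
  have i2 := integrable_TT (M.amp_PP a) (M.contDiff_HH a) hpb δ y
  show pML (M.J a y) (TT _ _ _ _ _) - TT _ _ _ _ _ = δ • TT _ _ _ _ _
  unfold TT
  rw [← (pML (M.J a y)).integral_comp_comm i1, ← integral_sub ((pML (M.J a y)).integrable_comp i1) i2,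
    ← integral_smul]
  refine integral_congr_ae (Filter.Eventually.of_forall fun z => ?_)
  show pML (M.J a y) ((M.rr z • M.PP a (δ • z) y) (M.cf a (b : X → L2) (M.HH a (δ • z) y))) -
    (M.rr z • M.PP a (δ • z) y) (M.cf a (Hil.pmO M b : X → L2) (M.HH a (δ • z) y)) =
    δ • (G δ z y) (M.cf a (b : X → L2) (M.HH a (δ • z) y))
  have e2 : M.cf a (Hil.pmO M b : X → L2) (M.HH a (δ • z) y) =
      pML (M.J a (M.HH a (δ • z) y)) (M.cf a (b : X → L2) (M.HH a (δ • z) y)) := by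
    have := congrFun (M.cf_pML a (b : X → L2)) (M.HH a (δ • z) y)
    exact this
  rw [e2, ← ContinuousLinearMap.smul_apply, ← hG']
  simp only [cc, ContinuousLinearMap.smul_apply, ContinuousLinearMap.sub_apply,
    ContinuousLinearMap.comp_apply, map_smul, smul_sub]

section meas
variable [MeasurableSpace X] [BorelSpace X] [IsFiniteMeasure M.mu]

/-- (SC) -/
theorem Scale.sc (h : M.Scale δ1) (m : ℕ) : ∃ C : ℝ, 0 ≤ C ∧ ∀ δ : ℝ, 0 < δ → δ ≤ δ1 →
    ∀ b : M.Om, M.NN m δ ((Hil.pmO M (M.S0L δ b) - M.S0L δ (Hil.pmO M b) : M.Om) : X → L2) ≤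
      C * δ * ‖Hil.io M b‖ := by
  choose Θ hΘ using h.sub
  choose G hG hG' using fun a => exists_amp (M := M) a
  choose C1 hC1 using fun a => sob_TT_smoothing (h.fam a) isOpen_ball isBounded_ball (hΘ a) m
    (hG a)
  choose C2 hC2 hC2' using fun a => exists_eLp (M := M) a
  refine ⟨∑ a, (C1 a : ℝ) * C2 a,
    Finset.sum_nonneg fun a _ => mul_nonneg (NNReal.coe_nonneg _) (hC2 a), ?_⟩
  intro δ h0 h1 b
  rw [mul_assoc, ← sum_mul_const]
  refine M.NN_le_of_sob h0.le (Hil.pmO M (M.S0L δ b) - M.S0L δ (Hil.pmO M b)).2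
    (fun a => ?_) fun a => ?_
  · have := hC2 a; positivity
  · rw [sob_congr m δ isOpen_ball (h.cf_sc a (hG a) (hG' a) h0 h1 b),
      sob_smul m δ _ δ (contDiff_TT_right (hG a) (M.contDiff_HH a) (b.2 a) δ), abs_of_pos h0]
    refine (mul_le_mul_right ((hC1 a δ h0 h1 _ (b.2 a)).trans
      (mul_le_mul_right (hC2' a b) _)) _).trans ?_
    rw [coe_mul_ofReal, ← ENNReal.ofReal_mul h0.le]
    apply ENNReal.ofReal_le_ofReal
    apply le_of_eq
    ring

theorem pr_eq_inner (a b : M.Om) : M.pr (a : X → L2) (b : X → L2) =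
    ⟪Hil.io M a, Hil.stH M (Hil.io M b)⟫_ℝ := by
  rw [Hil.pair_io]; rfl

/-- the averaging operators preserve weakly closed forms -/
theorem Scale.sweak (h : M.Scale δ1) {δ : ℝ} (h0 : 0 < δ) (h1 : δ ≤ δ1) (e : M.Om) (he : e ∈ M.Ex) :
    ∃ C : ℝ, 0 ≤ C ∧ ∀ u : Lp E6 2 M.mu,
    (∀ e' ∈ M.Ex, ⟪Hil.io M e', Hil.stH M u⟫_ℝ = 0) → ∀ b : M.Om,
    |⟪Hil.io M e, Hil.stH M (Hil.io M (M.S0L δ b))⟫_ℝ| ≤ C * ‖u - Hil.io M b‖ := by
  obtain ⟨B, hB0, hB⟩ := M.exists_dual he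
  -- bound of the L2 norm by the sup norm
  obtain ⟨Cm, hCm0, hCm⟩ : ∃ Cm : ℝ, 0 ≤ Cm ∧ ∀ e' : M.Om, (∀ x, ‖(e' : X → L2) x‖ ≤ B) →
      ‖Hil.io M e'‖ ≤ Cm := by
    refine ⟨(M.mu.real univ) ^ (2 : ENNReal).toReal⁻¹ * (3 * B), by positivity, fun e' he' => ?_⟩
    refine (Lp.norm_le_of_ae_bound (C := 3 * B) (by positivity) ?_)
    filter_upwards [Hil.io_ae M e'] with x hx
    rw [hx]
    exact (Hil.norm_toE_le _).trans (by have := he' x; linarith only [this])
  refine ⟨Cm * ‖Hil.stH M‖, by positivity, fun u hu b => ?_⟩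
  rw [← pr_eq_inner, M.S0L_coe h0.le (h1.trans h.le_z1),
    M.pr_S0 h0.le (h1.trans h.le_z1) (fun a => (e.2 a).continuous) b.2]
  have key : ∀ z, |M.rr z * M.pr (e : X → L2) (M.U (δ • z) b)| ≤
      M.rr z * (Cm * ‖Hil.stH M‖ * ‖u - Hil.io M b‖) := by
    intro z
    by_cases hz : ‖z‖ ≤ 1
    · obtain ⟨e', he', hb', hp⟩ := hB (δ • z) (by
        rw [norm_smul, Real.norm_eq_abs, abs_of_pos h0]
        have := h.lt_vinv
        calc δ * ‖z‖ ≤ δ * 1 := by gcongr
          _ < vinv := by linarith only [h1, this])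
      rw [abs_mul, abs_of_nonneg (M.bump_rr.nonneg z), hp b, pr_eq_inner]
      apply mul_le_mul_of_nonneg_left _ (M.bump_rr.nonneg z)
      have e1 : ⟪Hil.io M e', Hil.stH M (Hil.io M b)⟫_ℝ =
          - ⟪Hil.io M e', Hil.stH M (u - Hil.io M b)⟫_ℝ := by
        rw [map_sub, inner_sub_right, hu e' he']; ring
      rw [e1, abs_neg]
      refine (abs_real_inner_le_norm _ _).trans ?_
      rw [mul_assoc]
      gcongr
      · exact hCm e' hb'
      · exact (Hil.stH M).le_opNorm _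
    · rw [M.bump_rr.supp z (by push Not at hz; exact hz)]
      simp only [zero_mul, abs_zero, Std.le_refl]
  have hint : Integrable M.rr := by
    have := M.bump_rr.smooth.continuous.integrable_of_hasCompactSupport M.hasCompactSupport_rr
      (μ := volume)
    exact this
  calc |∫ z, M.rr z * M.pr (e : X → L2) (M.U (δ • z) b)|
      ≤ ∫ z, M.rr z * (Cm * ‖Hil.stH M‖ * ‖u - Hil.io M b‖) := by
        rw [← Real.norm_eq_abs]
        exact norm_integral_le_of_norm_le (hint.mul_const _)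
          (Filter.Eventually.of_forall fun z => by rw [Real.norm_eq_abs]; exact key z)
    _ = Cm * ‖Hil.stH M‖ * ‖u - Hil.io M b‖ := by
        rw [integral_mul_const, M.bump_rr.int, one_mul]

/-- weakly closed smooth forms are closed -/
theorem closed_of_weak (b : M.Om) (hb : ∀ e ∈ M.Ex, ⟪Hil.io M e, Hil.stH M (Hil.io M b)⟫_ℝ = 0) :
    b ∈ M.Cl := by
  intro a
  refine weak4 ((b.2 a).of_le (by norm_num)) fun η hη hηc => ?_
  have h1 : (⟨M.ext a (d1 η), M.ext_mem_Om a (d1_smooth ⟨hη, hηc⟩) (d1_support ⟨hη, hηc⟩)⟩ :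
      M.Om) ∈ M.Ex := Submodule.subset_span ⟨a, η, ⟨hη, hηc⟩, rfl⟩
  have h2 := hb _ h1
  rw [← pr_eq_inner] at h2
  unfold pr at h2
  rw [M.integral_ext a] at h2
  exact h2

end meas

end CM
end Vale.Agent.P204.GX
end

section

/-!
The smoothing system of a closed manifold.
-/

set_option linter.all false

open MeasureTheory Set Metric
open scoped ContDiff ENNReal NNReal BigOperators InnerProductSpace Topology

namespace Vale.Agent.P204.GX
open T4 _root_.P204.GX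

namespace CM
variable {X : Type} [MetricSpace X] {M : CM X} {δ1 : ℝ}
variable [MeasurableSpace X] [BorelSpace X]

/-- the smoothing system, at all sufficiently small scales -/
theorem exists_Sys0 (M : CM X) (hs : M.Scale δ1) : ∃ Z : Sys0 (Lp E6 2 M.mu) M.Om,
    Z.ι = Hil.io M ∧ Z.st = Hil.stH M ∧ Z.pm = Hil.pmO M ∧ Z.pmH = Hil.pmH M ∧
    Z.Cl = M.Cl ∧ Z.Ex = M.Ex ∧ Z.δ0 = δ1 ∧ (∀ δ b, Z.S0 δ b = M.S0L δ b) ∧
    (∀ (b : M.Om) x, ‖(b : X → L2) x‖ ≤ Z.M 0 b) ∧
    (∀ m δ (b : M.Om), 0 < δ → Z.N m δ b = M.NN m δ (b : X → L2)) := by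
  choose C1 hC1 h1 using hs.o1
  choose C2 hC2 h2 using hs.o2
  choose C3 hC3 h3 using hs.o1M
  choose C4 hC4 h4 using hs.o2M
  choose C5 hC5 h5 using hs.ss
  choose C6 hC6 h6 using hs.ssm
  choose C7 hC7 h7 using hs.sc
  choose C8 hC8 h8 using M.exists_NN_le_MM
  choose C9 hC9 h9 using M.exists_NN_pM
  choose C10 hC10 h10 using M.exists_MM_pM
  obtain ⟨c11, hc11, h11⟩ := M.exists_norm_io_le
  obtain ⟨c12, hc12, h12⟩ := M.exists_NN_le_norm_io
  obtain ⟨C0, hC0, h0⟩ := M.exists_M0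
  have hC0' : 0 ≤ C0 := zero_le_one.trans hC0
  set K : ℕ → ℝ := fun m => 1 + C1 m + C2 m + C3 m + C4 m + C5 m + C0 * C6 m + C7 m + C8 m + C9 m
    + C10 m + c11 + c12 + c11 * C5 0 with hK
  have hpos : ∀ m, 0 ≤ C1 m ∧ 0 ≤ C2 m ∧ 0 ≤ C3 m ∧ 0 ≤ C4 m ∧ 0 ≤ C5 m ∧ 0 ≤ C0 * C6 m ∧
      0 ≤ C7 m ∧ 0 ≤ C8 m ∧ 0 ≤ C9 m ∧ 0 ≤ C10 m ∧ 0 ≤ c11 * C5 0 := fun m =>
    ⟨hC1 m, hC2 m, hC3 m, hC4 m, hC5 m, mul_nonneg hC0' (hC6 m), hC7 m, hC8 m, hC9 m, hC10 m,
      mul_nonneg hc11 (hC5 0)⟩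
  have k1 : ∀ m, 1 ≤ K m := fun m => by obtain ⟨a1, a2, a3, a4, a5, a6, a7, a8, a9, a10, a11⟩ := hpos m; simp only [hK]; linarith
  have l1 : ∀ m, C1 m ≤ K m := fun m => by obtain ⟨a1, a2, a3, a4, a5, a6, a7, a8, a9, a10, a11⟩ := hpos m; simp only [hK]; linarith
  have l2 : ∀ m, C2 m ≤ K m := fun m => by obtain ⟨a1, a2, a3, a4, a5, a6, a7, a8, a9, a10, a11⟩ := hpos m; simp only [hK]; linarith
  have l3 : ∀ m, C3 m ≤ K m := fun m => by obtain ⟨a1, a2, a3, a4, a5, a6, a7, a8, a9, a10, a11⟩ := hpos m; simp only [hK]; linarith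
  have l4 : ∀ m, C4 m ≤ K m := fun m => by obtain ⟨a1, a2, a3, a4, a5, a6, a7, a8, a9, a10, a11⟩ := hpos m; simp only [hK]; linarith
  have l5 : ∀ m, C5 m ≤ K m := fun m => by obtain ⟨a1, a2, a3, a4, a5, a6, a7, a8, a9, a10, a11⟩ := hpos m; simp only [hK]; linarith only [hc11, hc12, a1, a2, a3, a4, a6, a7, a8, a9, a10, a11]
  have l6 : ∀ m, C0 * C6 m ≤ K m := fun m => by obtain ⟨a1, a2, a3, a4, a5, a6, a7, a8, a9, a10, a11⟩ := hpos m; simp only [hK]; linarith
  have l7 : ∀ m, C7 m ≤ K m := fun m => by obtain ⟨a1, a2, a3, a4, a5, a6, a7, a8, a9, a10, a11⟩ := hpos m; simp only [hK]; linarith only [hc11, hc12, a1, a2, a3, a4, a5, a6, a8, a9, a10, a11]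
  have l8 : ∀ m, C8 m ≤ K m := fun m => by obtain ⟨a1, a2, a3, a4, a5, a6, a7, a8, a9, a10, a11⟩ := hpos m; simp only [hK]; linarith only [hc11, hc12, a1, a2, a3, a4, a5, a6, a7, a9, a10, a11]
  have l9 : ∀ m, C9 m ≤ K m := fun m => by obtain ⟨a1, a2, a3, a4, a5, a6, a7, a8, a9, a10, a11⟩ := hpos m; simp only [hK]; linarith only [hc11, hc12, a1, a2, a3, a4, a5, a6, a7, a8, a10, a11]
  have l10 : ∀ m, C10 m ≤ K m := fun m => by obtain ⟨a1, a2, a3, a4, a5, a6, a7, a8, a9, a10, a11⟩ := hpos m; simp only [hK]; linarith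
  have l11 : c11 ≤ K 0 := by obtain ⟨a1, a2, a3, a4, a5, a6, a7, a8, a9, a10, a11⟩ := hpos 0; simp only [hK]; linarith
  have l12 : c12 ≤ K 0 := by obtain ⟨a1, a2, a3, a4, a5, a6, a7, a8, a9, a10, a11⟩ := hpos 0; simp only [hK]; linarith only [hc11, a1, a2, a3, a4, a5, a6, a7, a8, a9, a10, a11]
  have l13 : c11 * C5 0 ≤ K 0 := by obtain ⟨a1, a2, a3, a4, a5, a6, a7, a8, a9, a10, a11⟩ := hpos 0; simp only [hK]; linarith
  have hNN : ∀ m δ (b : M.Om), 0 ≤ M.NN m |δ| (b : X → L2) := fun m δ b => M.NN_nonneg m (abs_nonneg δ) _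
  have hMM : ∀ m (b : M.Om), 0 ≤ M.MM m (b : X → L2) := fun m b => M.MM_nonneg m _
  refine ⟨{
    ι := Hil.io M
    ι_inj := Hil.io_injective M
    ι_dense := Hil.denseRange_io M
    st := Hil.stH M
    st_st := Hil.stH_stH M
    st_symm := Hil.stH_symm M
    pm := Hil.pmO M
    pmH := Hil.pmH M
    pmH_ι := Hil.pmH_io M
    pmH_pmH := Hil.pmH_pmH M
    pmH_symm := Hil.pmH_symm M
    st_pmH := Hil.stH_pmH M
    Cl := M.Cl
    Ex := M.Ex
    Ex_le := M.Ex_le_Cl
    stokes := ?_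
    closed_of_weak := closed_of_weak
    N := fun m δ b => M.NN m |δ| (b : X → L2)
    M := fun m b => C0 * M.MM m (b : X → L2)
    K := K
    δ0 := δ1
    one_le_K := k1
    δ0_pos := hs.pos
    δ0_le := hs.le_one
    N_nonneg := hNN
    N_add := fun m δ a b => M.NN_add m (abs_nonneg δ) a.2 b.2
    N_smul := fun m δ r b => M.NN_smul m |δ| r b.2
    N_mono := ?_
    N_succ := fun m δ b _ => M.NN_succ m (abs_nonneg δ) _
    N_scale := ?_
    M_nonneg := fun m b => mul_nonneg hC0' (hMM m b)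
    M_add := ?_
    M_smul := ?_
    M_succ := fun m b => mul_le_mul_of_nonneg_left (M.MM_succ m _) hC0'
    norm_le_N := ?_
    N_le_norm := ?_
    N_le_M := ?_
    M_pm := ?_
    N_pm := ?_
    complete := ?_
    S0 := M.S0L
    S_norm := ?_
    S_weak0 := fun δ h0 h1 e he => hs.sweak h0 h1 e he
    S_Ex := fun δ e h0 h1 he => M.S0L_Ex h0.le (h1.trans hs.le_z1) he
    SS := ?_
    SSM := ?_
    O1 := ?_
    O2 := ?_
    O1M := ?_
    O2M := ?_
    SC := ?_ }, rfl, rfl, rfl, rfl, rfl, rfl, rfl, fun _ _ => rfl, fun b x => h0 _ b.2 x,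
    fun m δ b hδ => ?_⟩
  · intro e he c hc
    rw [← pr_eq_inner]
    exact M.stokesX he hc
  · intro m δ δ' b h h'
    exact M.NN_mono m (abs_nonneg δ) (by rw [abs_of_pos h, abs_of_pos (h.trans_le h')]; exact h') _
  · intro m δ b h h'
    show δ ^ m * M.NN m |1| _ ≤ M.NN m |δ| _
    rw [abs_of_pos h, abs_one]
    exact M.NN_scale m h.le h' _
  · intro m a b
    have := M.MM_add m a.2 b.2
    show C0 * M.MM m ((a : X → L2) + (b : X → L2)) ≤ _
    calc C0 * M.MM m ((a : X → L2) + (b : X → L2)) ≤ C0 * (M.MM m (a : X → L2) + M.MM m (b : X → L2)) := by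
          gcongr
      _ = _ := by ring
  · intro m r b
    have := M.MM_smul m r b.2
    show C0 * M.MM m (r • (b : X → L2)) = _
    rw [this]; ring
  · intro δ b h
    refine (h11 |δ| b).trans ?_
    exact mul_le_mul_of_nonneg_right l11 (hNN 0 δ b)
  · intro δ b h
    refine (h12 |δ| b).trans ?_
    exact mul_le_mul_of_nonneg_right l12 (norm_nonneg _)
  · intro m δ b h h'
    show M.NN m |δ| _ ≤ _
    rw [abs_of_pos h]
    calc M.NN m δ (b : X → L2) ≤ C8 m * M.MM m (b : X → L2) := h8 m δ h.le h' _ b.2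
      _ ≤ K m * (C0 * M.MM m (b : X → L2)) := by
        have e1 := l8 m
        have e2 := hMM m b
        have e3 : M.MM m (b : X → L2) ≤ C0 * M.MM m (b : X → L2) := by nlinarith only [hC0, e2]
        have e4 : 0 ≤ K m := zero_le_one.trans (k1 m)
        gcongr
  · intro m b
    have e1 := h10 m _ b.2
    have e2 := l10 m
    have e3 := hMM m b
    show C0 * M.MM m (fun x => pM J0 ((b : X → L2) x)) ≤ K m * (C0 * M.MM m (b : X → L2))
    calc C0 * M.MM m (fun x => pM J0 ((b : X → L2) x)) ≤ C0 * (K m * M.MM m (b : X → L2)) := by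
          gcongr
          exact e1.trans (by gcongr)
      _ = _ := by ring
  · intro m δ b h h'
    have e1 := h9 m |δ| (abs_nonneg _) (by rw [abs_of_pos h]; exact h') _ b.2
    exact e1.trans (mul_le_mul_of_nonneg_right (l9 m) (hNN m δ b))
  · intro b hb
    have hb' : ∀ m, Summable fun k => M.MM m (b k : X → L2) := by
      intro m
      have := (hb m).mul_left C0⁻¹
      refine this.congr fun k => ?_
      rw [← mul_assoc, inv_mul_cancel₀ (by linarith only [hC0]), one_mul]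
    obtain ⟨s, hs⟩ := M.complete_MM b hb'
    refine ⟨s, fun m => ?_⟩
    have := (hs m).const_mul C0
    rw [mul_zero] at this
    exact this
  · intro δ b h h'
    calc ‖Hil.io M (M.S0L δ b)‖ ≤ c11 * M.NN 0 δ (M.S0L δ b : X → L2) := h11 δ _
      _ ≤ c11 * (C5 0 * ‖Hil.io M b‖) := by gcongr; exact h5 0 δ h h' b
      _ = (c11 * C5 0) * ‖Hil.io M b‖ := by ring
      _ ≤ K 0 * ‖Hil.io M b‖ := by gcongr
  · intro m δ b h h'
    show M.NN m |δ| _ ≤ _
    rw [abs_of_pos h]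
    exact (h5 m δ h h' b).trans (by gcongr; exact l5 m)
  · intro m δ b h h'
    have e1 := h6 m δ h h' b
    calc C0 * M.MM m (M.S0L δ b : X → L2) ≤ C0 * (C6 m * (δ ^ (2 + m))⁻¹ * ‖Hil.io M b‖) := by gcongr
      _ = (C0 * C6 m) * (δ ^ (2 + m))⁻¹ * ‖Hil.io M b‖ := by ring
      _ ≤ K m * (δ ^ (2 + m))⁻¹ * ‖Hil.io M b‖ := by gcongr; exact l6 m
  · intro m δ δ' b h h' hd hd1
    have hd0 : 0 < δ' := h.trans_le hd
    show M.NN m |δ'| _ ≤ _ * M.NN m |δ'| _
    rw [abs_of_pos hd0]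
    have e2 := M.NN_nonneg m hd0.le (b : X → L2)
    exact (h1 m δ δ' h h' hd0.le hd1 b).trans (by gcongr; exact l1 m)
  · intro m δ δ' b h h' hd hd1
    have hd0 : 0 < δ' := h.trans_le hd
    show M.NN m |δ'| _ ≤ _ * M.NN (m + 1) |δ'| _
    rw [abs_of_pos hd0]
    have e2 := M.NN_nonneg (m + 1) hd0.le (b : X → L2)
    exact (h2 m δ δ' h h' hd0 hd1 b).trans (by gcongr; exact l2 m)
  · intro m δ b h h'
    have e1 := h3 m δ h h' b
    have e2 := hMM m b
    calc C0 * M.MM m (M.S0L δ b : X → L2) ≤ C0 * (K m * M.MM m (b : X → L2)) := by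
          gcongr
          exact e1.trans (by gcongr; exact l3 m)
      _ = _ := by ring
  · intro m δ b h h'
    have e1 := h4 m δ h h' b
    have e2 := hMM (m + 1) b
    calc C0 * M.MM m ((b - M.S0L δ b : M.Om) : X → L2) ≤ C0 * (K m * δ * M.MM (m + 1) (b : X → L2)) := by
          gcongr
          exact e1.trans (by gcongr; exact l4 m)
      _ = _ := by ring
  · intro m δ b h h'
    show M.NN m |δ| _ ≤ _
    rw [abs_of_pos h]
    exact (h7 m δ h h' b).trans (by gcongr; exact l7 m)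
  · show M.NN m |δ| _ = _
    rw [abs_of_pos hδ]

end CM
end Vale.Agent.P204.GX
end

section
set_option linter.all false
/-!
Pointwise bounds for the averaging operators: the kernel bound on `X`, fields P0 and P1.
-/
open MeasureTheory Set Metric
open scoped ContDiff ENNReal Topology

namespace Vale.Agent.P204.GX
open Vale.Agent.P204.T4

namespace CM
variable {X : Type} [MetricSpace X] (M : CM X)

theorem pw_det_lower (a : M.A) (r : ℝ) : ∃ c : ℝ, 0 < c ∧ ∀ y : V4, ‖y‖ ≤ r → c ≤ det4 (M.m a y) := by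
  rcases (closedBall (0 : V4) r).eq_empty_or_nonempty with h | h
  · refine ⟨1, one_pos, fun y hy => ?_⟩
    have : y ∈ closedBall (0 : V4) r := mem_closedBall_zero_iff.2 hy
    rw [h] at this; exact absurd this (notMem_empty _)
  · obtain ⟨p, hp, hmin⟩ := (isCompact_closedBall (0 : V4) r).exists_isMinOn h
      (M.continuous_det_m a).continuousOn
    exact ⟨_, M.m_det a p, fun y hy => hmin (mem_closedBall_zero_iff.2 hy)⟩

variable [MeasurableSpace X] [BorelSpace X]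

/-- transfer of integrals over small balls from a chart to `X` -/
theorem pw_ball_transfer (a : M.A) : ∃ C : ℝ, 1 ≤ C ∧ ∀ y : V4, ‖y‖ < 1 → ∀ r : ℝ, r ≤ 1 →
    ∀ g : X → ℝ≥0∞, Measurable g → ∫⁻ w in ball y r, g (M.ψ a w)
      ≤ ENNReal.ofReal C * ∫⁻ x in ball (M.ψ a y) (C * r), g x ∂M.mu := by
  obtain ⟨c0, hc0, hc⟩ := M.pw_det_lower a 2
  obtain ⟨C1, hC1, hlip⟩ := M.lip a 2
  refine ⟨1 + C1 + c0⁻¹, by have : 0 < c0⁻¹ := by positivity
                            linarith, fun y hy r hr g hg => ?_⟩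
  set C := 1 + C1 + c0⁻¹ with hC
  have hC0 : 0 < C := by positivity
  set ν : Measure V4 := volume.withDensity fun y => ENNReal.ofReal (det4 (M.m a y)) with hν
  have h1 : ball y r ⊆ M.ψ a ⁻¹' ball (M.ψ a y) (C * r) := by
    intro w hw
    have hw1 : dist w y < r := hw
    have hr0 : 0 < r := dist_nonneg.trans_lt hw1
    have hwn : ‖w‖ ≤ 2 := by
      have h2 : ‖w - y‖ < r := by rwa [← dist_eq_norm]
      have h3 : ‖w‖ ≤ ‖w - y‖ + ‖y‖ := by
        calc ‖w‖ = ‖(w - y) + y‖ := by rw [sub_add_cancel]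
          _ ≤ _ := norm_add_le _ _
      linarith only [hy, hr, h2, h3]
    have h2 := (hlip w y hwn (by linarith only [hy])).1
    show dist (M.ψ a w) (M.ψ a y) < C * r
    have h3 : ‖w - y‖ < r := by rwa [← dist_eq_norm]
    have h4 : 0 < c0⁻¹ := by positivity
    calc dist (M.ψ a w) (M.ψ a y) ≤ C1 * ‖w - y‖ := h2
      _ < C1 * r := by gcongr
      _ ≤ C * r := by
        apply mul_le_mul_of_nonneg_right _ hr0.le
        rw [hC]; linarith only [h4]
  have h2 : ∫⁻ w in ball y r, g (M.ψ a w) ∂ν ≤ ∫⁻ x in ball (M.ψ a y) (C * r), g x ∂M.mu := by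
    calc ∫⁻ w in ball y r, g (M.ψ a w) ∂ν
        ≤ ∫⁻ w in M.ψ a ⁻¹' ball (M.ψ a y) (C * r), g (M.ψ a w) ∂ν := lintegral_mono_set h1
      _ = ∫⁻ x in ball (M.ψ a y) (C * r), g x ∂(Measure.map (M.ψ a) ν) :=
          (setLIntegral_map isOpen_ball.measurableSet hg (M.measurable_ψ a)).symm
      _ = ∫⁻ x in ball (M.ψ a y) (C * r), g x ∂(M.mu.restrict (range (M.ψ a))) := by
          rw [M.mu_restrict a]
      _ ≤ ∫⁻ x in ball (M.ψ a y) (C * r), g x ∂M.mu :=
          lintegral_mono' (Measure.restrict_mono le_rfl Measure.restrict_le_self) le_rfl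
  have hgψ : Measurable (fun w => g (M.ψ a w)) := hg.comp (M.measurable_ψ a)
  have h3 : ∫⁻ w in ball y r, g (M.ψ a w) ∂ν
      = ∫⁻ w in ball y r, ENNReal.ofReal (det4 (M.m a w)) * g (M.ψ a w) :=
    setLIntegral_withDensity_eq_setLIntegral_mul volume (M.measurable_dens' a) hgψ
      isOpen_ball.measurableSet
  have h4 : ENNReal.ofReal c0 * ∫⁻ w in ball y r, g (M.ψ a w)
      ≤ ∫⁻ w in ball y r, ENNReal.ofReal (det4 (M.m a w)) * g (M.ψ a w) := by
    rw [← lintegral_const_mul _ hgψ]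
    refine setLIntegral_mono' isOpen_ball.measurableSet fun w hw => ?_
    have hwn : ‖w‖ ≤ 2 := by
      have h2 : ‖w - y‖ < r := by rw [← dist_eq_norm]; exact hw
      have h3 : ‖w‖ ≤ ‖w - y‖ + ‖y‖ := by
        calc ‖w‖ = ‖(w - y) + y‖ := by rw [sub_add_cancel]
          _ ≤ _ := norm_add_le _ _
      linarith only [hy, hr, h2, h3]
    exact mul_le_mul_left (ENNReal.ofReal_le_ofReal (hc w hwn)) _
  have h5 : ENNReal.ofReal c0⁻¹ * ENNReal.ofReal c0 = 1 := by
    rw [← ENNReal.ofReal_mul (by positivity), inv_mul_cancel₀ hc0.ne', ENNReal.ofReal_one]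
  calc ∫⁻ w in ball y r, g (M.ψ a w)
      = ENNReal.ofReal c0⁻¹ * (ENNReal.ofReal c0 * ∫⁻ w in ball y r, g (M.ψ a w)) := by
        rw [← mul_assoc, h5, one_mul]
    _ ≤ ENNReal.ofReal c0⁻¹ * ∫⁻ x in ball (M.ψ a y) (C * r), g x ∂M.mu := by
        apply mul_le_mul_right
        exact h4.trans (h3.symm.le.trans h2)
    _ ≤ ENNReal.ofReal C * ∫⁻ x in ball (M.ψ a y) (C * r), g x ∂M.mu := by
        apply mul_le_mul_left
        apply ENNReal.ofReal_le_ofReal
        rw [hC]; linarith only [hC1]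

/-- **Kernel bound on `X`.** -/
theorem exists_KX : ∃ δ0 c : ℝ, 0 < δ0 ∧ 1 ≤ c ∧ δ0 ≤ M.z1 ∧ ∀ (a : M.A) (y : V4), ‖y‖ < 1 →
    ∀ δ : ℝ, 0 < δ → δ ≤ δ0 → ∀ g : X → ℝ≥0∞, Measurable g →
      ∫⁻ z in closedBall (0 : M.A → V4) 1, g (M.ψ a (M.HH a (δ • z) y))
        ≤ ENNReal.ofReal (c * (δ ^ 4)⁻¹) * ∫⁻ x in ball (M.ψ a y) (c * δ), g x ∂M.mu := by
  have hk : ∀ a : M.A, ∃ (δ0 c : ℝ), 0 < δ0 ∧ 0 < c ∧ c * δ0 ≤ 2 - 1 ∧ ∀ δ : ℝ, 0 < δ → δ ≤ δ0 →
      ∀ y : V4, ‖y‖ < 1 → ∀ f : V4 → ℝ≥0∞, Measurable f →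
      ∫⁻ z in closedBall (0 : M.A → V4) 1, f (M.HH a (δ • z) y) ≤
        ENNReal.ofReal (c * (δ ^ 4)⁻¹) * ∫⁻ w in ball y (c * δ), f w := fun a =>
    KK.kernel_le (M.contDiff_HH a) (M.HH_zero a) (M.eL a) (r := 1) (r' := 2) (by norm_num)
      (fun y hy => M.HH_eL a (by linarith))
  choose d c hd hc hcd hk using hk
  choose C hC hT using fun a => M.pw_ball_transfer a
  set S : ℝ := 1 + M.z1⁻¹ + ∑ a, (d a)⁻¹ with hS
  have hSn : 0 ≤ ∑ a, (d a)⁻¹ := Finset.sum_nonneg fun a _ => (inv_pos.2 (hd a)).le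
  have hz := M.z1_pos
  have hS0 : 0 < S := by positivity
  have hSd : ∀ a, S⁻¹ ≤ d a := by
    intro a
    rw [inv_le_comm₀ hS0 (hd a)]
    have h1 : (d a)⁻¹ ≤ ∑ a, (d a)⁻¹ := Finset.single_le_sum (f := fun a => (d a)⁻¹)
      (fun b _ => (inv_pos.2 (hd b)).le) (Finset.mem_univ a)
    have h2 : 0 < M.z1⁻¹ := inv_pos.2 hz
    linarith only [h1, h2]
  have hSz : S⁻¹ ≤ M.z1 := by
    rw [inv_le_comm₀ hS0 hz]
    linarith only [hSn]
  set cc : ℝ := 1 + ∑ a, C a * c a with hcc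
  have hcc1 : ∀ a, C a * c a ≤ cc := by
    intro a
    have h1 : C a * c a ≤ ∑ a, C a * c a := Finset.single_le_sum (f := fun a => C a * c a)
      (fun b _ => mul_nonneg (by have := hC b; linarith only [this]) (hc b).le) (Finset.mem_univ a)
    linarith only [h1]
  have hcc0 : 1 ≤ cc := by
    have : 0 ≤ ∑ a, C a * c a := Finset.sum_nonneg fun a _ =>
      mul_nonneg (by have := hC a; linarith only [this]) (hc a).le
    linarith only [this]
  refine ⟨S⁻¹, cc, by positivity, hcc0, hSz, fun a y hy δ h0 h1 g hg => ?_⟩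
  have hδ : δ ≤ d a := h1.trans (hSd a)
  have e1 := hk a δ h0 hδ y hy (fun w => g (M.ψ a w)) (hg.comp (M.measurable_ψ a))
  have hr1 : c a * δ ≤ 1 := by
    have := mul_le_mul_of_nonneg_left hδ (hc a).le
    have := hcd a
    linarith
  have e2 := hT a y hy (c a * δ) hr1 g hg
  have hC0 : 0 ≤ C a := by have := hC a; linarith only [this]
  calc ∫⁻ z in closedBall (0 : M.A → V4) 1, g (M.ψ a (M.HH a (δ • z) y))
      ≤ ENNReal.ofReal (c a * (δ ^ 4)⁻¹) * ∫⁻ w in ball y (c a * δ), g (M.ψ a w) := e1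
    _ ≤ ENNReal.ofReal (c a * (δ ^ 4)⁻¹) *
        (ENNReal.ofReal (C a) * ∫⁻ x in ball (M.ψ a y) (C a * (c a * δ)), g x ∂M.mu) :=
        mul_le_mul_right e2 _
    _ = ENNReal.ofReal (c a * (δ ^ 4)⁻¹ * C a) * ∫⁻ x in ball (M.ψ a y) (C a * (c a * δ)), g x ∂M.mu := by
        rw [← mul_assoc, ← ENNReal.ofReal_mul (by have := hc a; positivity)]
    _ ≤ ENNReal.ofReal (cc * (δ ^ 4)⁻¹) * ∫⁻ x in ball (M.ψ a y) (cc * δ), g x ∂M.mu := by
        apply mul_le_mul'
        · apply ENNReal.ofReal_le_ofReal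
          have h3 : 0 ≤ (δ ^ 4)⁻¹ := by positivity
          have := mul_le_mul_of_nonneg_right (hcc1 a) h3
          linarith only [this]
        · apply lintegral_mono_set
          apply ball_subset_ball
          have := mul_le_mul_of_nonneg_right (hcc1 a) h0.le
          linarith only [this]


omit [MeasurableSpace X] [BorelSpace X] in
theorem pw_rr_bound : ∃ R : ℝ, 0 ≤ R ∧ ∀ z : M.A → V4, |M.rr z| ≤ R := by
  obtain ⟨R, hR⟩ := M.bump_rr.smooth.continuous.bounded_above_of_compact_support M.hasCompactSupport_rr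
  exact ⟨R, (norm_nonneg _).trans (hR 0), fun z => hR z⟩

/-- averaged integrals are bounded by ball means on `X` -/
theorem exists_avg : ∃ δ0 c : ℝ, 0 < δ0 ∧ 1 ≤ c ∧ δ0 ≤ M.z1 ∧ ∀ (a : M.A) (y : V4), ‖y‖ < 1 →
    ∀ δ : ℝ, 0 < δ → δ ≤ δ0 → ∀ b : X → L2, Measurable b → (∃ B, ∀ x, ‖b x‖ ≤ B) →
    ∀ (κ : ℝ) (F : (M.A → V4) → L2), 0 ≤ κ →
      (∀ z : M.A → V4, ‖z‖ ≤ 1 → ‖F z‖ ≤ κ * ‖b (M.ψ a (M.HH a (δ • z) y))‖) →
      ‖∫ z, M.rr z • F z‖ ≤ κ * (c * (δ ^ 4)⁻¹ * ∫ x in ball (M.ψ a y) (c * δ), ‖b x‖ ∂M.mu) := by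
  obtain ⟨δ0, c, hδ0, hc, hz, hK⟩ := M.exists_KX
  obtain ⟨R, hR0, hR⟩ := M.pw_rr_bound
  set c' : ℝ := c * (1 + R) with hc'
  have hcc' : c ≤ c' := by rw [hc']; nlinarith only [hR0, hc]
  refine ⟨δ0, c', hδ0, hc.trans hcc', hz, ?_⟩
  intro a y hy δ h0 h1 b hb hB κ F hκ hF
  obtain ⟨B, hB⟩ := hB
  have hint : Integrable (fun x => ‖b x‖) M.mu := by
    refine Integrable.of_bound hb.norm.aestronglyMeasurable B (Filter.Eventually.of_forall fun x => ?_)
    rw [norm_norm]; exact hB x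
  have e1 := hK a y hy δ h0 h1 (fun x => ‖b x‖ₑ) hb.enorm
  have e2 : ‖∫ z, M.rr z • F z‖ₑ ≤ ENNReal.ofReal (R * κ) *
      ∫⁻ z in closedBall (0 : M.A → V4) 1, ‖b (M.ψ a (M.HH a (δ • z) y))‖ₑ := by
    refine (enorm_integral_le_lintegral_enorm _).trans ?_
    rw [← lintegral_const_mul' _ _ ENNReal.ofReal_ne_top,
      ← lintegral_indicator isClosed_closedBall.measurableSet]
    apply lintegral_mono
    intro z
    show ‖M.rr z • F z‖ₑ ≤ (closedBall (0 : M.A → V4) 1).indicator _ z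
    by_cases hz1 : z ∈ closedBall (0 : M.A → V4) 1
    · rw [indicator_of_mem hz1]
      have hz2 : ‖z‖ ≤ 1 := mem_closedBall_zero_iff.1 hz1
      rw [enorm_smul, ENNReal.ofReal_mul hR0, mul_assoc]
      apply mul_le_mul'
      · rw [Real.enorm_eq_ofReal_abs]; exact ENNReal.ofReal_le_ofReal (hR z)
      · rw [← ofReal_norm, ← ofReal_norm, ← ENNReal.ofReal_mul hκ]
        exact ENNReal.ofReal_le_ofReal (hF z hz2)
    · rw [indicator_of_notMem hz1, M.rr_zero hz1, zero_smul, enorm_zero]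
  have e3 : ∫⁻ x in ball (M.ψ a y) (c * δ), ‖b x‖ₑ ∂M.mu
      = ENNReal.ofReal (∫ x in ball (M.ψ a y) (c * δ), ‖b x‖ ∂M.mu) := by
    have h2 : Integrable b (M.mu.restrict (ball (M.ψ a y) (c * δ))) := by
      refine Integrable.of_bound hb.aestronglyMeasurable B (Filter.Eventually.of_forall fun x => hB x)
    exact (ofReal_integral_norm_eq_lintegral_enorm h2).symm
  have e4 : ‖∫ z, M.rr z • F z‖ₑ ≤ ENNReal.ofReal (R * κ * (c * (δ ^ 4)⁻¹ *
      ∫ x in ball (M.ψ a y) (c * δ), ‖b x‖ ∂M.mu)) := by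
    refine e2.trans ?_
    rw [ENNReal.ofReal_mul (p := R * κ) (by positivity)]
    apply mul_le_mul_right
    refine e1.trans (le_of_eq ?_)
    rw [e3, ← ENNReal.ofReal_mul (by positivity)]
  rw [← ofReal_norm] at e4
  have hI0 : 0 ≤ ∫ x in ball (M.ψ a y) (c * δ), ‖b x‖ ∂M.mu := integral_nonneg fun x => norm_nonneg _
  have e5 := (ENNReal.ofReal_le_ofReal_iff (by positivity)).1 e4
  have e6 : ∫ x in ball (M.ψ a y) (c * δ), ‖b x‖ ∂M.mu ≤ ∫ x in ball (M.ψ a y) (c' * δ), ‖b x‖ ∂M.mu := by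
    apply setIntegral_mono_set hint.integrableOn (Filter.Eventually.of_forall fun x => norm_nonneg _)
    apply HasSubset.Subset.eventuallyLE
    exact ball_subset_ball (mul_le_mul_of_nonneg_right hcc' h0.le)
  refine e5.trans ?_
  have hd : 0 ≤ (δ ^ 4)⁻¹ := by positivity
  calc R * κ * (c * (δ ^ 4)⁻¹ * ∫ x in ball (M.ψ a y) (c * δ), ‖b x‖ ∂M.mu)
      = κ * ((R * c) * (δ ^ 4)⁻¹ * ∫ x in ball (M.ψ a y) (c * δ), ‖b x‖ ∂M.mu) := by ring
    _ ≤ κ * (c' * (δ ^ 4)⁻¹ * ∫ x in ball (M.ψ a y) (c' * δ), ‖b x‖ ∂M.mu) := by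
      apply mul_le_mul_of_nonneg_left _ hκ
      have h7 : R * c ≤ c' := by rw [hc']; linarith only [hc]
      have h8 : 0 ≤ c' := by linarith only [hc, hcc']
      gcongr

omit [MeasurableSpace X] [BorelSpace X] in
theorem exists_PP_bound (a : M.A) : ∃ C : ℝ, 0 ≤ C ∧ ∀ w : M.A → V4, ‖w‖ ≤ M.z1 → ∀ y : V4, ‖y‖ ≤ 1 →
    ‖M.PP a w y‖ ≤ C := by
  obtain ⟨C, hC⟩ := ((isCompact_closedBall (0 : M.A → V4) M.z1).prod
    (isCompact_closedBall (0 : V4) 1)).exists_bound_of_continuousOn (M.contDiff_PP a).continuous.continuousOn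
  refine ⟨max C 0, le_max_right _ _, fun w hw y hy => (hC (w, y) ⟨?_, ?_⟩).trans (le_max_left _ _)⟩
  · exact mem_closedBall_zero_iff.2 hw
  · exact mem_closedBall_zero_iff.2 hy

/-- **P0** -/
theorem exists_P0 : ∃ δ0 c : ℝ, 0 < δ0 ∧ 1 ≤ c ∧ δ0 ≤ M.z1 ∧ ∀ (δ : ℝ) (b : X → L2),
    (∀ a, Continuous (M.cf a b)) → ∀ x : X, 0 < δ → δ ≤ δ0 →
    ‖M.S0 δ b x‖ ≤ c * (δ ^ 4)⁻¹ * ∫ y in ball x (c * δ), ‖b y‖ ∂M.mu := by
  obtain ⟨δ0, c, hδ0, hc, hz, hK⟩ := M.exists_avg
  choose C1 hC11 hC1 using fun a => M.exists_cf_bound a 2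
  choose C2 hC20 hC2 using fun a => M.exists_PP_bound a
  set κ : ℝ := ∑ a, C1 a * (C2 a * C1 a) with hκ
  have hC10 : ∀ a, 0 ≤ C1 a := fun a => zero_le_one.trans (hC11 a)
  have hnn : ∀ a, 0 ≤ C1 a * (C2 a * C1 a) := fun a =>
    mul_nonneg (hC10 a) (mul_nonneg (hC20 a) (hC10 a))
  have hκ0 : 0 ≤ κ := Finset.sum_nonneg fun a _ => hnn a
  refine ⟨δ0, c * (1 + κ), hδ0, by nlinarith only [hc, hκ0], hz, fun δ b hb x h0 h1 => ?_⟩
  have hbm : Measurable b := M.measurable_of_C0 hb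
  obtain ⟨B, -, hB⟩ := M.bounded_of_C0 hb
  obtain ⟨a, y, hy, rfl⟩ := M.cov x
  have hδz : δ ≤ M.z1 := h1.trans hz
  have e1 := (hC1 a y (by linarith only [hy]) (M.S0 δ b)).2
  rw [M.cf_S0 a h0.le hδz hb (by linarith)] at e1
  have e2 := hK a y hy δ h0 h1 b hbm ⟨B, hB⟩ (C2 a * C1 a) (fun z => M.ker a b (δ • z) y)
    (mul_nonneg (hC20 a) (hC10 a)) (fun z hz1 => by
      have hw : ‖δ • z‖ ≤ M.z1 := M.norm_smul_le_z1 h0.le hδz hz1
      have h2 : ‖M.HH a (δ • z) y‖ ≤ 2 := by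
        have h3 := M.norm_HH_sub_le a hw (y := y) (by linarith)
        calc ‖M.HH a (δ • z) y‖ = ‖(M.HH a (δ • z) y - y) + y‖ := by rw [sub_add_cancel]
          _ ≤ ‖M.HH a (δ • z) y - y‖ + ‖y‖ := norm_add_le _ _
          _ ≤ 2 := by linarith
      have h4 := (hC1 a _ h2 b).1
      rw [M.ker_eq]
      calc ‖M.PP a (δ • z) y (M.cf a b (M.HH a (δ • z) y))‖
          ≤ ‖M.PP a (δ • z) y‖ * ‖M.cf a b (M.HH a (δ • z) y)‖ := ContinuousLinearMap.le_opNorm _ _
        _ ≤ C2 a * (C1 a * ‖b (M.ψ a (M.HH a (δ • z) y))‖) :=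
            mul_le_mul (hC2 a _ hw y hy.le) h4 (norm_nonneg _) (hC20 a)
        _ = C2 a * C1 a * ‖b (M.ψ a (M.HH a (δ • z) y))‖ := by ring)
  have hle : C1 a * (C2 a * C1 a) ≤ κ :=
    Finset.single_le_sum (f := fun a => C1 a * (C2 a * C1 a)) (fun b _ => hnn b) (Finset.mem_univ a)
  have hint : Integrable (fun x => ‖b x‖) M.mu := by
    refine Integrable.of_bound hbm.norm.aestronglyMeasurable B (Filter.Eventually.of_forall fun x => ?_)
    rw [norm_norm]; exact hB x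
  have hcc : c ≤ c * (1 + κ) := by nlinarith only [hκ0, hc]
  have e6 : ∫ x in ball (M.ψ a y) (c * δ), ‖b x‖ ∂M.mu
      ≤ ∫ x in ball (M.ψ a y) (c * (1 + κ) * δ), ‖b x‖ ∂M.mu := by
    apply setIntegral_mono_set hint.integrableOn (Filter.Eventually.of_forall fun x => norm_nonneg _)
    apply HasSubset.Subset.eventuallyLE
    exact ball_subset_ball (mul_le_mul_of_nonneg_right hcc h0.le)
  have hI0 : 0 ≤ ∫ x in ball (M.ψ a y) (c * δ), ‖b x‖ ∂M.mu := integral_nonneg fun x => norm_nonneg _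
  have hd : 0 ≤ (δ ^ 4)⁻¹ := by positivity
  have hc0 : 0 ≤ c := by linarith only [hc]
  calc ‖M.S0 δ b (M.ψ a y)‖ ≤ C1 a * ‖∫ z, M.rr z • M.ker a b (δ • z) y‖ := e1
    _ ≤ C1 a * (C2 a * C1 a * (c * (δ ^ 4)⁻¹ * ∫ x in ball (M.ψ a y) (c * δ), ‖b x‖ ∂M.mu)) :=
        mul_le_mul_of_nonneg_left e2 (hC10 a)
    _ = C1 a * (C2 a * C1 a) * (c * (δ ^ 4)⁻¹ * ∫ x in ball (M.ψ a y) (c * δ), ‖b x‖ ∂M.mu) := by ring
    _ ≤ (1 + κ) * (c * (δ ^ 4)⁻¹ * ∫ x in ball (M.ψ a y) (c * (1 + κ) * δ), ‖b x‖ ∂M.mu) := by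
        gcongr
        linarith only [hle]
    _ = c * (1 + κ) * (δ ^ 4)⁻¹ * ∫ x in ball (M.ψ a y) (c * (1 + κ) * δ), ‖b x‖ ∂M.mu := by ring

end CM
end Vale.Agent.P204.GX
end

section
set_option linter.all false
/-!
Pointwise bound P1: the invariant part of the average of an anti-invariant form gains a factor `δ`.
-/
open MeasureTheory Set Metric
open scoped ContDiff ENNReal Topology

namespace Vale.Agent.P204.GX
open Vale.Agent.P204.T4

/-- invariant part as a continuous linear map -/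
noncomputable def pPL (J : M4) : L2 →L[ℝ] L2 := (1 / 2 : ℝ) • (ContinuousLinearMap.id ℝ L2 + pullL J)
/-- anti-invariant part as a continuous linear map -/
noncomputable def pMLw (J : M4) : L2 →L[ℝ] L2 := (1 / 2 : ℝ) • (ContinuousLinearMap.id ℝ L2 - pullL J)

theorem pPL_apply (J : M4) (A : L2) : pPL J A = pP J A := rfl
theorem contDiff_pPL : ContDiff ℝ ∞ pPL := by
  unfold pPL
  exact (contDiff_const.add contDiff_pullL).const_smul (1 / 2 : ℝ)

theorem contDiff_pMLw : ContDiff ℝ ∞ pMLw := by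
  unfold pMLw
  exact (contDiff_const.sub contDiff_pullL).const_smul (1 / 2 : ℝ)

theorem pPL_comp_pML {J : M4} (hJ : IsCx J) : (pPL J).comp (pMLw J) = 0 := by
  ext A i
  show pP J (pM J A) i = 0
  have h : pP J (pM J A) = 0 := by
    unfold pP
    rw [pull_pM hJ]; simp
  rw [h]; rfl

namespace CM
variable {X : Type} [MetricSpace X] (M : CM X)

/-- the operator `pP_{J(y)} ∘ P_w(y) ∘ pM_{J(H_w y)}` -/
noncomputable def CPM (a : M.A) (w : M.A → V4) (y : V4) : L2 →L[ℝ] L2 :=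
  (pPL (M.J a y)).comp ((M.PP a w y).comp (pMLw (M.J a (M.HH a w y))))

theorem CPM_apply (a : M.A) (w : M.A → V4) (y : V4) (A : L2) :
    M.CPM a w y A = pP (M.J a y) (M.PP a w y (pM (M.J a (M.HH a w y)) A)) := rfl

theorem contDiff_CPM (a : M.A) : ContDiff ℝ ∞ (Function.uncurry (M.CPM a)) := by
  have h1 : ContDiff ℝ ∞ fun p : (M.A → V4) × V4 => pPL (M.J a p.2) :=
    contDiff_pPL.comp ((M.J_smooth a).comp contDiff_snd)
  have h2 : ContDiff ℝ ∞ fun p : (M.A → V4) × V4 => pMLw (M.J a (M.HH a p.1 p.2)) :=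
    contDiff_pMLw.comp ((M.J_smooth a).comp (M.contDiff_HH a))
  exact h1.clm_comp ((M.contDiff_PP a).clm_comp h2)

theorem CPM_zero (a : M.A) (y : V4) : M.CPM a 0 y = 0 := by
  unfold CPM
  rw [M.PP_zero, M.HH_zero, ContinuousLinearMap.id_comp]
  exact pPL_comp_pML (M.J_cx a y)

theorem exists_CPM_bound (a : M.A) : ∃ C : ℝ, 0 ≤ C ∧ ∀ w : M.A → V4, ‖w‖ ≤ M.z1 → ∀ y : V4, ‖y‖ ≤ 1 →
    ‖M.CPM a w y‖ ≤ C * ‖w‖ := by
  obtain ⟨C, hC0, hC⟩ := KK.exists_lip (r := 1) (R := M.z1) (M.contDiff_CPM a)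
  refine ⟨C, hC0, fun w hw y hy => ?_⟩
  have := hC w hw y hy
  rwa [M.CPM_zero, sub_zero] at this

theorem pw_cont_pM {u : X → L2} (hu : ∀ a, Continuous (M.cf a u)) :
    ∀ a, Continuous (M.cf a fun x => pM J0 (u x)) := by
  intro a
  have e : M.cf a (fun x => pM J0 (u x)) = fun y => pMLw (M.J a y) (M.cf a u y) := by
    funext y; exact M.cf_pM a u y
  rw [e]
  exact (contDiff_pMLw.continuous.comp (M.J_smooth a).continuous).clm_apply (hu a)

variable [MeasurableSpace X] [BorelSpace X]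

/-- **P1** -/
theorem exists_P1 : ∃ δ0 c : ℝ, 0 < δ0 ∧ 1 ≤ c ∧ δ0 ≤ M.z1 ∧ ∀ (δ : ℝ) (b : X → L2),
    (∀ a, Continuous (M.cf a b)) → ∀ x : X, 0 < δ → δ ≤ δ0 →
    ‖pP J0 (M.S0 δ (fun x => pM J0 (b x)) x)‖
      ≤ c * δ * (δ ^ 4)⁻¹ * ∫ y in ball x (c * δ), ‖b y‖ ∂M.mu := by
  obtain ⟨δ0, c, hδ0, hc, hz, hK⟩ := M.exists_avg
  choose C1 hC11 hC1 using fun a => M.exists_cf_bound a 2
  choose C2 hC20 hC2 using fun a => M.exists_CPM_bound a
  set κ : ℝ := ∑ a, C1 a * (C2 a * C1 a) with hκ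
  have hC10 : ∀ a, 0 ≤ C1 a := fun a => zero_le_one.trans (hC11 a)
  have hnn : ∀ a, 0 ≤ C1 a * (C2 a * C1 a) := fun a =>
    mul_nonneg (hC10 a) (mul_nonneg (hC20 a) (hC10 a))
  have hκ0 : 0 ≤ κ := Finset.sum_nonneg fun a _ => hnn a
  refine ⟨δ0, c * (1 + κ), hδ0, by nlinarith only [hc, hκ0], hz, fun δ b hb x h0 h1 => ?_⟩
  have hbm : Measurable b := M.measurable_of_C0 hb
  obtain ⟨B, -, hB⟩ := M.bounded_of_C0 hb
  obtain ⟨a, y, hy, rfl⟩ := M.cov x
  have hδz : δ ≤ M.z1 := h1.trans hz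
  set u : X → L2 := fun x => pM J0 (b x) with hu
  have hub := M.pw_cont_pM hb
  have e1 := (hC1 a y (by linarith only [hy]) (fun x => pP J0 (M.S0 δ u x))).2
  rw [M.cf_pP, M.cf_S0 a h0.le hδz hub (by linarith only [hy])] at e1
  -- move the projection under the integral
  have hker : ∀ z : M.A → V4, ‖z‖ ≤ 1 → pPL (M.J a y) (M.ker a u (δ • z) y)
      = M.CPM a (δ • z) y (M.cf a b (M.HH a (δ • z) y)) := by
    intro z _
    rw [M.ker_eq, M.CPM_apply, pPL_apply]
    congr 2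
    exact M.cf_pM a b _
  have hint0 : Integrable (fun z => M.rr z • M.ker a u (δ • z) y) := by
    have h3 : Continuous fun z => M.ker a u (δ • z) y :=
      Continuous.comp (g := Function.uncurry (M.ker a u)) (f := fun z => (δ • z, y))
        (M.continuous_ker a (hub a)) ((M.continuous_smul_param δ).prodMk continuous_const)
    exact M.integrable_rr_smul h3 (fun z _ => rfl)
  have e0 : pP (M.J a y) (∫ z, M.rr z • M.ker a u (δ • z) y)
      = ∫ z, M.rr z • M.CPM a (δ • z) y (M.cf a b (M.HH a (δ • z) y)) := by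
    have h3 := (pPL (M.J a y)).integral_comp_comm hint0
    rw [← pPL_apply, ← h3]
    have h4 : ∀ z, (pPL (M.J a y)) (M.rr z • M.ker a u (δ • z) y)
        = M.rr z • (pPL (M.J a y)) (M.ker a u (δ • z) y) := fun z => map_smul _ _ _
    simp only [h4]
    exact M.integral_rr_congr hker
  rw [e0] at e1
  have e2 := hK a y hy δ h0 h1 b hbm ⟨B, hB⟩ (C2 a * C1 a * δ)
    (fun z => M.CPM a (δ • z) y (M.cf a b (M.HH a (δ • z) y)))
    (mul_nonneg (mul_nonneg (hC20 a) (hC10 a)) h0.le) (fun z hz1 => by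
      have hw : ‖δ • z‖ ≤ M.z1 := M.norm_smul_le_z1 h0.le hδz hz1
      have hw' : ‖δ • z‖ ≤ δ := by
        rw [norm_smul, Real.norm_eq_abs, abs_of_pos h0]
        have := mul_le_mul_of_nonneg_left hz1 h0.le
        linarith
      have h2 : ‖M.HH a (δ • z) y‖ ≤ 2 := by
        have h3 := M.norm_HH_sub_le a hw (y := y) (by linarith)
        calc ‖M.HH a (δ • z) y‖ = ‖(M.HH a (δ • z) y - y) + y‖ := by rw [sub_add_cancel]
          _ ≤ ‖M.HH a (δ • z) y - y‖ + ‖y‖ := norm_add_le _ _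
          _ ≤ 2 := by linarith
      have h4 := (hC1 a _ h2 b).1
      have h5 : ‖M.CPM a (δ • z) y‖ ≤ C2 a * δ :=
        (hC2 a _ hw y hy.le).trans (mul_le_mul_of_nonneg_left hw' (hC20 a))
      calc ‖M.CPM a (δ • z) y (M.cf a b (M.HH a (δ • z) y))‖
          ≤ ‖M.CPM a (δ • z) y‖ * ‖M.cf a b (M.HH a (δ • z) y)‖ := ContinuousLinearMap.le_opNorm _ _
        _ ≤ (C2 a * δ) * (C1 a * ‖b (M.ψ a (M.HH a (δ • z) y))‖) :=
            mul_le_mul h5 h4 (norm_nonneg _) (mul_nonneg (hC20 a) h0.le)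
        _ = C2 a * C1 a * δ * ‖b (M.ψ a (M.HH a (δ • z) y))‖ := by ring)
  have hle : C1 a * (C2 a * C1 a) ≤ κ :=
    Finset.single_le_sum (f := fun a => C1 a * (C2 a * C1 a)) (fun b _ => hnn b) (Finset.mem_univ a)
  have hint : Integrable (fun x => ‖b x‖) M.mu := by
    refine Integrable.of_bound hbm.norm.aestronglyMeasurable B (Filter.Eventually.of_forall fun x => ?_)
    rw [norm_norm]; exact hB x
  have hcc : c ≤ c * (1 + κ) := by nlinarith only [hκ0, hc]
  have e6 : ∫ x in ball (M.ψ a y) (c * δ), ‖b x‖ ∂M.mu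
      ≤ ∫ x in ball (M.ψ a y) (c * (1 + κ) * δ), ‖b x‖ ∂M.mu := by
    apply setIntegral_mono_set hint.integrableOn (Filter.Eventually.of_forall fun x => norm_nonneg _)
    apply HasSubset.Subset.eventuallyLE
    exact ball_subset_ball (mul_le_mul_of_nonneg_right hcc h0.le)
  have hI0 : 0 ≤ ∫ x in ball (M.ψ a y) (c * δ), ‖b x‖ ∂M.mu := integral_nonneg fun x => norm_nonneg _
  have hd : 0 ≤ (δ ^ 4)⁻¹ := by positivity
  have hc0 : 0 ≤ c := by linarith only [hc]
  calc ‖pP J0 (M.S0 δ u (M.ψ a y))‖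
      ≤ C1 a * ‖∫ z, M.rr z • M.CPM a (δ • z) y (M.cf a b (M.HH a (δ • z) y))‖ := e1
    _ ≤ C1 a * (C2 a * C1 a * δ * (c * (δ ^ 4)⁻¹ * ∫ x in ball (M.ψ a y) (c * δ), ‖b x‖ ∂M.mu)) :=
        mul_le_mul_of_nonneg_left e2 (hC10 a)
    _ = C1 a * (C2 a * C1 a) * (c * δ * (δ ^ 4)⁻¹ * ∫ x in ball (M.ψ a y) (c * δ), ‖b x‖ ∂M.mu) := by ring
    _ ≤ (1 + κ) * (c * δ * (δ ^ 4)⁻¹ * ∫ x in ball (M.ψ a y) (c * (1 + κ) * δ), ‖b x‖ ∂M.mu) := by
        gcongr
        linarith only [hle]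
    _ = c * (1 + κ) * δ * (δ ^ 4)⁻¹ * ∫ x in ball (M.ψ a y) (c * (1 + κ) * δ), ‖b x‖ ∂M.mu := by ring

end CM
end Vale.Agent.P204.GX
end

section

/-!
# Pointwise positivity after transport (fields `P3`, `PF`), part 1: linear algebra
-/

open scoped BigOperators ContDiff Topology ENNReal
open MeasureTheory Set

namespace Vale.Agent.P204.GX
open T4

theorem ev_pP_self {J : M4} (hJ : IsCx J) (A : L2) (v : V4) :
    ev (pP J A) v (app J v) = ev A v (app J v) := by
  unfold pP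
  rw [ev_smul, ev_add, ev_pull, hJ, ev_neg_right, ← ev_antisymm]
  ring

theorem ev_symm_of_inv {J : M4} (hJ : IsCx J) {B : L2} (hB : pull J B = B) (u w : V4) :
    ev B u (app J w) = ev B w (app J u) := by
  have h1 : ev B u (app J w) = ev B (app J u) (app J (app J w)) := by
    rw [← ev_pull, hB]
  rw [h1, hJ, ev_neg_right, ← ev_antisymm]

theorem cone_pert {J J' P : M4} (hJ' : IsCx J') {B : L2} (hB : Cone J' B) (v : V4) :
    -(1 / 4) * ev B (app J' (app P (app J v) - app J' (app P v)))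
      (app J' (app J' (app P (app J v) - app J' (app P v)))) ≤ ev (pull P B) v (app J v) := by
  set E := app P (app J v) - app J' (app P v) with hE
  set u := app P v with hu
  set s := app J' E with hs
  have h1 : app P (app J v) = app J' (u + (-1 : ℝ) • s) := by
    rw [app_add, app_smul, hs, hJ', hE]
    simp
  have h2 : ev (pull P B) v (app J v) = ev B u (app J' u) - ev B u (app J' s) := by
    rw [ev_pull, ← hu, h1, app_add, app_smul, ev_add_right, ev_smul_right]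
    ring
  have h3 := hB.2 (u + (-(1 / 2) : ℝ) • s)
  rw [app_add, app_smul, ev_add_left, ev_add_right, ev_add_right, ev_smul_left, ev_smul_right,
    ev_smul_left, ev_smul_right, ev_symm_of_inv hJ' hB.1 s u] at h3
  rw [h2]
  linarith only [h3]

theorem abs_ent_le (A : L2) (k l : Fin 4) : |ent A k l| ≤ ‖A‖ := by
  have h1 : ∀ i : Fin 6, |A i| ≤ ‖A‖ := fun i => norm_le_pi_norm A i
  have h0 := norm_nonneg A
  fin_cases k <;> fin_cases l <;> simp only [ent, Fin.isValue, Fin.zero_eta, Matrix.cons_val', Matrix.cons_val_zero, Matrix.cons_val_fin_one, abs_zero, norm_nonneg, Fin.mk_one, Matrix.cons_val_one, ge_iff_le, Fin.reduceFinMk, Matrix.cons_val, abs_neg] <;> first | exact h0 | exact h1 _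

theorem abs_ev_le (A : L2) (v w : V4) : |ev A v w| ≤ 16 * ‖A‖ * ‖v‖ * ‖w‖ := by
  unfold ev
  have h1 : ∀ i j : Fin 4, |ent A i j * v i * w j| ≤ ‖A‖ * ‖v‖ * ‖w‖ := by
    intro i j
    rw [abs_mul, abs_mul]
    have hv : |v i| ≤ ‖v‖ := norm_le_pi_norm v i
    have hw : |w j| ≤ ‖w‖ := norm_le_pi_norm w j
    have he := abs_ent_le A i j
    gcongr
  calc |∑ i, ∑ j, ent A i j * v i * w j|
      ≤ ∑ i, |∑ j, ent A i j * v i * w j| := Finset.abs_sum_le_sum_abs _ _
    _ ≤ ∑ i, ∑ j, |ent A i j * v i * w j| :=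
        Finset.sum_le_sum fun i _ => Finset.abs_sum_le_sum_abs _ _
    _ ≤ ∑ i : Fin 4, ∑ j : Fin 4, ‖A‖ * ‖v‖ * ‖w‖ :=
        Finset.sum_le_sum fun i _ => Finset.sum_le_sum fun j _ => h1 i j
    _ = 16 * ‖A‖ * ‖v‖ * ‖w‖ := by simp only [Finset.sum_const, Finset.card_univ, Fintype.card_fin, nsmul_eq_mul, Nat.cast_ofNat]; ring

theorem norm_app_le (P : M4) (v : V4) : ‖app P v‖ ≤ 4 * ‖P‖ * ‖v‖ := by
  rw [pi_norm_le_iff_of_nonneg (by positivity)]
  intro i
  unfold app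
  have h1 : ∀ j : Fin 4, |P i j * v j| ≤ ‖P‖ * ‖v‖ := by
    intro j
    rw [abs_mul]
    have hv : |v j| ≤ ‖v‖ := norm_le_pi_norm v j
    have hP : |P i j| ≤ ‖P‖ := (norm_le_pi_norm (P i) j).trans (norm_le_pi_norm P i)
    gcongr
  calc ‖∑ j, P i j * v j‖ ≤ ∑ j, |P i j * v j| := Finset.abs_sum_le_sum_abs _ _
    _ ≤ ∑ j : Fin 4, ‖P‖ * ‖v‖ := Finset.sum_le_sum fun j _ => h1 j
    _ = 4 * ‖P‖ * ‖v‖ := by simp only [Finset.sum_const, Finset.card_univ, Fintype.card_fin, nsmul_eq_mul, Nat.cast_ofNat]; ring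

theorem norm_pull_le' (P : M4) (A : L2) : ‖pull P A‖ ≤ 192 * ‖P‖ ^ 2 * ‖A‖ := by
  have h := CM.norm_pull_le (P := P) (C := 4 * ‖P‖) (by positivity) (norm_app_le P) A
  calc ‖pull P A‖ ≤ 12 * (4 * ‖P‖) ^ 2 * ‖A‖ := h
    _ = 192 * ‖P‖ ^ 2 * ‖A‖ := by ring

/-- The perturbation in matrix form. -/
theorem cone_pert_bound {J J' P : M4} (hJ' : IsCx J') {B : L2} (hB : Cone J' B) (v : V4) :
    -(256 * ‖J'‖ * ‖mm J' (mm P J - mm J' P)‖ ^ 2 * ‖B‖ * ‖v‖ ^ 2) ≤
      ev (pull P B) v (app J v) := by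
  have h1 := cone_pert (J := J) (P := P) hJ' hB v
  have h2 : app J' (app P (app J v) - app J' (app P v)) = app (mm J' (mm P J - mm J' P)) v := by
    rw [app_mm]
    congr 1
    have : app (mm P J - mm J' P) v = app (mm P J) v - app (mm J' P) v := by
      funext i
      simp only [app, Pi.sub_apply, sub_mul, Finset.sum_sub_distrib]
    rw [this, app_mm, app_mm]
  rw [h2] at h1
  set R := mm J' (mm P J - mm J' P) with hR
  have h3 := abs_ev_le B (app R v) (app J' (app R v))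
  have h4 := norm_app_le R v
  have h5 := norm_app_le J' (app R v)
  have h6 : |ev B (app R v) (app J' (app R v))| ≤
      16 * ‖B‖ * (4 * ‖R‖ * ‖v‖) * (4 * ‖J'‖ * (4 * ‖R‖ * ‖v‖)) := by
    refine h3.trans ?_
    gcongr
    exact h5.trans (by gcongr)
  have h7 := le_abs_self (ev B (app R v) (app J' (app R v)))
  linarith only [h1, h6, h7]

/-- A smooth family vanishing at `0` is `O(z)` locally uniformly. -/
theorem exists_lip0 {Z E : Type} [NormedAddCommGroup Z] [NormedSpace ℝ Z] [FiniteDimensional ℝ Z]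
    [NormedAddCommGroup E] [NormedSpace ℝ E] {c : Z → V4 → E}
    (hc : ContDiff ℝ ∞ (Function.uncurry c)) (h0 : ∀ y, c 0 y = 0) (r s : ℝ) :
    ∃ C : ℝ, 0 ≤ C ∧ ∀ z y, ‖z‖ ≤ s → ‖y‖ ≤ r → ‖c z y‖ ≤ C * ‖z‖ := by
  have hd : Continuous fun p : Z × V4 => fderiv ℝ (Function.uncurry c) p :=
    hc.continuous_fderiv (by simp)
  obtain ⟨C, hC⟩ := ((isCompact_closedBall (0 : Z) s).prod
    (isCompact_closedBall (0 : V4) r)).exists_bound_of_continuousOn hd.continuousOn
  refine ⟨max C 0, le_max_right _ _, fun z y hz hy => ?_⟩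
  have hconv : Convex ℝ ((Metric.closedBall (0 : Z) s) ×ˢ (Metric.closedBall (0 : V4) r)) :=
    (convex_closedBall _ _).prod (convex_closedBall _ _)
  have hs : 0 ≤ s := (norm_nonneg z).trans hz
  have h1 : ((z, y) : Z × V4) ∈ (Metric.closedBall (0 : Z) s) ×ˢ (Metric.closedBall (0 : V4) r) :=
    ⟨by simpa only [Metric.mem_closedBall, dist_zero_right] using hz, by simpa only [Metric.mem_closedBall, dist_zero_right] using hy⟩
  have h2 : ((0, y) : Z × V4) ∈ (Metric.closedBall (0 : Z) s) ×ˢ (Metric.closedBall (0 : V4) r) :=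
    ⟨by simpa only [Metric.mem_closedBall, dist_self] using hs, by simpa only [Metric.mem_closedBall, dist_zero_right] using hy⟩
  have h3 := hconv.norm_image_sub_le_of_norm_fderiv_le (𝕜 := ℝ) (C := max C 0)
    (fun p _ => (hc.differentiable (by simp)) p)
    (fun p hp => (hC p hp).trans (le_max_left _ _)) h2 h1
  simp only [Function.uncurry_apply_pair, h0, sub_zero] at h3
  refine h3.trans ?_
  gcongr
  simp only [Prod.mk_sub_mk, sub_zero, sub_self, Prod.norm_mk, norm_zero, norm_nonneg, sup_of_le_left, Std.le_refl]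

/-- Finitely many positive numbers have a positive lower bound. -/
theorem exists_lower {ι : Type} [Fintype ι] (f : ι → ℝ) (hf : ∀ i, 0 < f i) :
    ∃ δ : ℝ, 0 < δ ∧ δ ≤ 1 ∧ ∀ i, δ ≤ f i := by
  have h1 : 0 ≤ ∑ i, (f i)⁻¹ := Finset.sum_nonneg fun i _ => (inv_pos.2 (hf i)).le
  refine ⟨(1 + ∑ i, (f i)⁻¹)⁻¹, by positivity, ?_, fun i => ?_⟩
  · exact inv_le_one_of_one_le₀ (by linarith)
  · rw [inv_le_comm₀ (by positivity) (hf i)]
    have := Finset.single_le_sum (f := fun i => (f i)⁻¹) (fun i _ => (inv_pos.2 (hf i)).le)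
      (Finset.mem_univ i)
    have this' : (f i)⁻¹ ≤ ∑ i, (f i)⁻¹ := this
    linarith

theorem exists_upper {ι : Type} [Fintype ι] (f : ι → ℝ) :
    ∃ C : ℝ, 1 ≤ C ∧ ∀ i, f i ≤ C := by
  refine ⟨1 + ∑ i, |f i|, ?_, fun i => ?_⟩
  · have : 0 ≤ ∑ i, |f i| := Finset.sum_nonneg fun i _ => abs_nonneg _
    linarith
  · have := Finset.single_le_sum (f := fun i => |f i|) (fun i _ => abs_nonneg _)
      (Finset.mem_univ i)
    have this' : |f i| ≤ ∑ i, |f i| := this
    have h2 := le_abs_self (f i)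
    linarith

end Vale.Agent.P204.GX
end

section

/-!
# Pointwise positivity after transport, part 2: integrals in charts
-/

open scoped BigOperators ContDiff Topology ENNReal
open MeasureTheory Set

namespace Vale.Agent.P204.GX
open T4

namespace CM
variable {X : Type} [MetricSpace X] (M : CM X)

section transfer
variable [MeasurableSpace X] [BorelSpace X]

theorem lintegral_mu_restrict (a : M.A) (f : X → ℝ≥0∞) (hf : Measurable f) :
    ∫⁻ x in range (M.ψ a), f x ∂M.mu = ∫⁻ y, f (M.ψ a y) * ENNReal.ofReal (det4 (M.m a y)) := by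
  rw [M.mu_restrict a, lintegral_map hf (M.measurable_ψ a)]
  have h := lintegral_withDensity_eq_lintegral_mul volume (M.measurable_dens' a)
    (hf.comp (M.measurable_ψ a))
  refine h.trans (lintegral_congr fun y => ?_)
  simp only [Pi.mul_apply, Function.comp]
  rw [mul_comm]

omit [MeasurableSpace X] [BorelSpace X] in
theorem exists_det_lower (a : M.A) (r : ℝ) : ∃ c : ℝ, 0 < c ∧ ∀ y : V4, ‖y‖ ≤ r →
    c ≤ det4 (M.m a y) := by
  rcases (Metric.closedBall (0 : V4) r).eq_empty_or_nonempty with h | h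
  · refine ⟨1, one_pos, fun y hy => ?_⟩
    have : y ∈ Metric.closedBall (0 : V4) r := by simpa only [Metric.mem_closedBall, dist_zero_right] using hy
    rw [h] at this
    exact absurd this (notMem_empty _)
  · obtain ⟨p, hp, hmin⟩ := (isCompact_closedBall (0 : V4) r).exists_isMinOn h
      (M.continuous_det_m a).continuousOn
    exact ⟨_, M.m_det a p, fun y hy => hmin (by simpa only [Metric.mem_closedBall, dist_zero_right] using hy)⟩

omit [MeasurableSpace X] [BorelSpace X] in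
theorem exists_det_upper (a : M.A) (r : ℝ) : ∃ c : ℝ, 0 < c ∧ ∀ y : V4, ‖y‖ ≤ r →
    det4 (M.m a y) ≤ c := by
  obtain ⟨B, hB⟩ := (isCompact_closedBall (0 : V4) r).exists_bound_of_continuousOn
      (M.continuous_det_m a).continuousOn
  refine ⟨max B 1, by positivity, fun y hy => ?_⟩
  have := hB y (by simpa only [Metric.mem_closedBall, dist_zero_right] using hy)
  exact (le_abs_self _).trans (this.trans (le_max_left _ _))

/-- Integrals over chart sets are dominated by integrals over subsets of `X`. -/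
theorem exists_transfer (a : M.A) (r : ℝ) : ∃ C : ℝ, 0 < C ∧ ∀ (D : Set V4), MeasurableSet D →
    (∀ y ∈ D, ‖y‖ ≤ r) → ∀ (E : Set X), MeasurableSet E → (∀ y ∈ D, M.ψ a y ∈ E) →
    ∀ b : X → L2, Measurable b →
    ∫⁻ w in D, ‖M.cf a b w‖ₑ ≤ ENNReal.ofReal C * ∫⁻ x in E, ‖b x‖ₑ ∂M.mu := by
  obtain ⟨C0, hC0, hcf⟩ := M.exists_cf_bound a r
  obtain ⟨c0, hc0, hdet⟩ := M.exists_det_lower a r
  refine ⟨C0 / c0, by positivity, fun D hD hDr E hE hDE b hb => ?_⟩
  have h1 : ∀ w ∈ D, ‖M.cf a b w‖ₑ ≤ ENNReal.ofReal (C0 / c0) *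
      (‖b (M.ψ a w)‖ₑ * ENNReal.ofReal (det4 (M.m a w))) := by
    intro w hw
    have h2 := (hcf w (hDr w hw) b).1
    have h3 := hdet w (hDr w hw)
    have h4 : ‖M.cf a b w‖ ≤ C0 / c0 * (‖b (M.ψ a w)‖ * det4 (M.m a w)) := by
      calc ‖M.cf a b w‖ ≤ C0 * ‖b (M.ψ a w)‖ := h2
        _ = C0 / c0 * (‖b (M.ψ a w)‖ * c0) := by field_simp
        _ ≤ C0 / c0 * (‖b (M.ψ a w)‖ * det4 (M.m a w)) := by gcongr
    rw [← ofReal_norm, ← ofReal_norm, ← ENNReal.ofReal_mul (norm_nonneg _),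
      ← ENNReal.ofReal_mul (by positivity)]
    exact ENNReal.ofReal_le_ofReal h4
  have hmeas : Measurable fun x => indicator E (fun x => ‖b x‖ₑ) x :=
    hb.enorm.indicator hE
  calc ∫⁻ w in D, ‖M.cf a b w‖ₑ
      ≤ ∫⁻ w in D, ENNReal.ofReal (C0 / c0) *
        (‖b (M.ψ a w)‖ₑ * ENNReal.ofReal (det4 (M.m a w))) := setLIntegral_mono' hD h1
    _ = ENNReal.ofReal (C0 / c0) *
        ∫⁻ w in D, ‖b (M.ψ a w)‖ₑ * ENNReal.ofReal (det4 (M.m a w)) := by
        rw [lintegral_const_mul]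
        exact ((hb.comp (M.measurable_ψ a)).enorm).mul (M.measurable_dens' a)
    _ = ENNReal.ofReal (C0 / c0) *
        ∫⁻ w in D, indicator E (fun x => ‖b x‖ₑ) (M.ψ a w) *
          ENNReal.ofReal (det4 (M.m a w)) := by
        congr 1
        refine setLIntegral_congr_fun hD fun w hw => ?_
        simp only [indicator_of_mem (hDE w hw)]
    _ ≤ ENNReal.ofReal (C0 / c0) *
        ∫⁻ w, indicator E (fun x => ‖b x‖ₑ) (M.ψ a w) *
          ENNReal.ofReal (det4 (M.m a w)) := by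
        gcongr
        exact Measure.restrict_le_self
    _ = ENNReal.ofReal (C0 / c0) *
        ∫⁻ x in range (M.ψ a), indicator E (fun x => ‖b x‖ₑ) x ∂M.mu := by
        rw [M.lintegral_mu_restrict a _ hmeas]
    _ ≤ ENNReal.ofReal (C0 / c0) * ∫⁻ x, indicator E (fun x => ‖b x‖ₑ) x ∂M.mu := by
        gcongr
        exact Measure.restrict_le_self
    _ = _ := by rw [lintegral_indicator hE]

/-- The same for balls. -/
theorem exists_transfer_ball (a : M.A) : ∃ C L : ℝ, 0 < C ∧ 0 < L ∧ ∀ y : V4, ‖y‖ < 1 →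
    ∀ s : ℝ, s ≤ 1 → ∀ b : X → L2, Measurable b →
    ∫⁻ w in Metric.ball y s, ‖M.cf a b w‖ₑ ≤
      ENNReal.ofReal C * ∫⁻ x in Metric.ball (M.ψ a y) (L * s), ‖b x‖ₑ ∂M.mu := by
  obtain ⟨C, hC, h⟩ := M.exists_transfer a 2
  obtain ⟨L, hL, hLip⟩ := M.lip a 2
  refine ⟨C, L, hC, hL, fun y hy s hs b hb => ?_⟩
  have hin : ∀ w ∈ Metric.ball y s, ‖w‖ ≤ 2 := by
    intro w hw
    rw [Metric.mem_ball, dist_eq_norm] at hw
    have : w = y + (w - y) := by abel
    rw [this]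
    exact (norm_add_le _ _).trans (by linarith)
  refine h _ measurableSet_ball hin _ measurableSet_ball (fun w hw => ?_) b hb
  have h1 := (hLip w y (hin w hw) (by linarith)).1
  rw [Metric.mem_ball, dist_eq_norm] at hw
  exact lt_of_le_of_lt h1 (mul_lt_mul_of_pos_left hw hL)

/-- From integrals in all charts back to `X`. -/
theorem exists_gather : ∃ C : ℝ, 0 < C ∧ ∀ b : X → L2, Measurable b →
    ∫⁻ x, ‖b x‖ₑ ∂M.mu ≤ ENNReal.ofReal C * ∑ a, ∫⁻ y in Metric.ball (0 : V4) 1, ‖M.cf a b y‖ₑ := by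
  choose C hC hcf using fun a => M.exists_cf_bound a 1
  choose B hB hdet using fun a => M.exists_det_upper a 1
  obtain ⟨K, hK, hKle⟩ := exists_upper fun a => C a * B a
  refine ⟨K, by linarith, fun b hb => ?_⟩
  have hcov : (univ : Set X) ⊆ ⋃ a, M.ψ a '' Metric.ball 0 1 := by
    intro x _
    obtain ⟨a, y, hy, hx⟩ := M.cov x
    exact mem_iUnion.2 ⟨a, y, by simpa only [Metric.mem_ball, dist_zero_right] using hy, hx⟩
  have himg : ∀ a, MeasurableSet (M.ψ a '' Metric.ball (0 : V4) 1) := fun a =>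
    ((M.measurableEmbedding_ψ a).measurableSet_image.2 measurableSet_ball)
  have h1 : ∀ a : M.A, ∫⁻ x in M.ψ a '' Metric.ball 0 1, ‖b x‖ₑ ∂M.mu ≤
      ENNReal.ofReal K * ∫⁻ y in Metric.ball (0 : V4) 1, ‖M.cf a b y‖ₑ := by
    intro a
    have h2 : ∫⁻ x in M.ψ a '' Metric.ball 0 1, ‖b x‖ₑ ∂M.mu =
        ∫⁻ x in range (M.ψ a), indicator (M.ψ a '' Metric.ball 0 1) (fun x => ‖b x‖ₑ) x ∂M.mu := by
      rw [lintegral_indicator (himg a), Measure.restrict_restrict (himg a),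
        inter_eq_left.2 (image_subset_range _ _)]
    rw [h2, M.lintegral_mu_restrict a _ (hb.enorm.indicator (himg a)),
      ← lintegral_const_mul' _ _ ENNReal.ofReal_ne_top, ← lintegral_indicator measurableSet_ball]
    refine lintegral_mono fun y => ?_
    by_cases hy : y ∈ Metric.ball (0 : V4) 1
    · have hmem : M.ψ a y ∈ M.ψ a '' Metric.ball 0 1 := mem_image_of_mem _ hy
      have hy' : ‖y‖ ≤ 1 := by
        rw [mem_ball_zero_iff] at hy; exact hy.le
      simp only [indicator_of_mem hmem, indicator_of_mem hy]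
      rw [← ofReal_norm, ← ofReal_norm, ← ENNReal.ofReal_mul (norm_nonneg _),
        ← ENNReal.ofReal_mul (by linarith)]
      apply ENNReal.ofReal_le_ofReal
      have h3 := (hcf a y hy' b).2
      have h4 := hdet a y hy'
      have h5 := M.m_det a y
      calc ‖b (M.ψ a y)‖ * det4 (M.m a y) ≤ (C a * ‖M.cf a b y‖) * B a := by
            have := hC a
            gcongr
        _ = (C a * B a) * ‖M.cf a b y‖ := by ring
        _ ≤ K * ‖M.cf a b y‖ := by gcongr; exact hKle a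
    · have hmem : M.ψ a y ∉ M.ψ a '' Metric.ball 0 1 := by
        rintro ⟨z, hz, hzy⟩
        rw [M.ψ_inj a hzy] at hz
        exact hy hz
      simp only [indicator_of_notMem hmem, indicator_of_notMem hy, zero_mul]
      exact le_rfl
  calc ∫⁻ x, ‖b x‖ₑ ∂M.mu = ∫⁻ x in ⋃ a, M.ψ a '' Metric.ball 0 1, ‖b x‖ₑ ∂M.mu := by
        rw [univ_subset_iff.1 hcov, Measure.restrict_univ]
    _ ≤ ∑ a, ∫⁻ x in M.ψ a '' Metric.ball 0 1, ‖b x‖ₑ ∂M.mu := by
        rw [← tsum_fintype (L := SummationFilter.unconditional _)]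
        exact lintegral_iUnion_le _ _
    _ ≤ ∑ a, ENNReal.ofReal K * ∫⁻ y in Metric.ball (0 : V4) 1, ‖M.cf a b y‖ₑ :=
        Finset.sum_le_sum fun a _ => h1 a
    _ = _ := by rw [Finset.mul_sum]

end transfer
end CM
end Vale.Agent.P204.GX
end

section

/-!
# The field `P3`: almost positivity of the smoothing of a positive form
-/

open scoped BigOperators ContDiff Topology ENNReal
open MeasureTheory Set

namespace Vale.Agent.P204.GX
open T4

/-- evaluation as a continuous linear functional -/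
noncomputable def evL (v w : V4) : L2 →L[ℝ] ℝ :=
  LinearMap.toContinuousLinearMap
    { toFun := fun A => ev A v w
      map_add' := fun A B => ev_add A B v w
      map_smul' := fun c A => ev_smul c A v w }

theorem evL_apply (v w : V4) (A : L2) : evL v w A = ev A v w := rfl

theorem contDiff_mm' : ContDiff ℝ ∞ fun p : M4 × M4 => mm p.1 p.2 := by
  rw [contDiff_pi]; intro i
  rw [contDiff_pi]; intro j
  unfold mm
  refine ContDiff.sum fun k _ => ?_
  have h1 : ContDiff ℝ ∞ fun p : M4 × M4 => p.1 i k :=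
    (contDiff_apply_apply ℝ ℝ i k).comp contDiff_fst
  have h2 : ContDiff ℝ ∞ fun p : M4 × M4 => p.2 k j :=
    (contDiff_apply_apply ℝ ℝ k j).comp contDiff_snd
  exact h1.mul h2

theorem mm_zero (P : M4) : mm P 0 = 0 := by
  funext i j
  simp [mm]

namespace CM
variable {X : Type} [MetricSpace X] (M : CM X)

/-- the perturbation matrix -/
noncomputable def Rp (a : M.A) (w : M.A → V4) (y : V4) : M4 :=
  mm (M.J a (M.HH a w y)) (mm (Dm (M.HH a w) y) (M.J a y) -
    mm (M.J a (M.HH a w y)) (Dm (M.HH a w) y))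

theorem contDiff_JH (a : M.A) :
    ContDiff ℝ ∞ fun p : (M.A → V4) × V4 => M.J a (M.HH a p.1 p.2) :=
  (M.J_smooth a).comp (M.contDiff_HH a)

theorem contDiff_Rp (a : M.A) : ContDiff ℝ ∞ (Function.uncurry (M.Rp a)) := by
  have hJ := M.contDiff_JH a
  have hD := M.contDiff_DHH a
  have hJ0 : ContDiff ℝ ∞ fun p : (M.A → V4) × V4 => M.J a p.2 :=
    (M.J_smooth a).comp contDiff_snd
  have h1 : ContDiff ℝ ∞ fun p : (M.A → V4) × V4 => mm (Dm (M.HH a p.1) p.2) (M.J a p.2) :=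
    contDiff_mm'.comp (hD.prodMk hJ0)
  have h2 : ContDiff ℝ ∞ fun p : (M.A → V4) × V4 =>
      mm (M.J a (M.HH a p.1 p.2)) (Dm (M.HH a p.1) p.2) :=
    contDiff_mm'.comp (hJ.prodMk hD)
  exact contDiff_mm'.comp (hJ.prodMk (h1.sub h2))

theorem Rp_zero (a : M.A) (y : V4) : M.Rp a 0 y = 0 := by
  unfold Rp
  have h : M.HH a 0 = fun y => y := funext fun y => M.HH_zero a y
  rw [h, Dm_id, mm_one, one_mm, sub_self, mm_zero]

/-- The pointwise estimate. -/
theorem exists_ev_ker (a : M.A) : ∃ K : ℝ, 0 ≤ K ∧ ∀ (b : X → L2), (∀ x, Cone J0 (b x)) →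
    ∀ w : M.A → V4, ‖w‖ ≤ 1 → ∀ y : V4, ‖y‖ ≤ 1 → ∀ v : V4,
    -(K * ‖w‖ ^ 2 * ‖v‖ ^ 2 * ‖M.cf a b (M.HH a w y)‖) ≤
      ev (M.ker a b w y) v (app (M.J a y) v) := by
  obtain ⟨C, hC, hR⟩ := exists_lip0 (M.contDiff_Rp a) (M.Rp_zero a) 1 1
  obtain ⟨B, hB⟩ := ((isCompact_closedBall (0 : M.A → V4) 1).prod
    (isCompact_closedBall (0 : V4) 1)).exists_bound_of_continuousOn
      (M.contDiff_JH a).continuous.continuousOn
  refine ⟨256 * |B| * C ^ 2, by positivity, fun b hb w hw y hy v => ?_⟩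
  have h1 : Cone (M.J a (M.HH a w y)) (M.cf a b (M.HH a w y)) := M.cone_pull a _ (hb _)
  have h2 := cone_pert_bound (J := M.J a y) (P := Dm (M.HH a w) y) (M.J_cx a _) h1 v
  have h3 : ‖M.J a (M.HH a w y)‖ ≤ |B| :=
    (hB (w, y) ⟨by simpa only [Metric.mem_closedBall, dist_zero_right] using hw, by simpa only [Metric.mem_closedBall, dist_zero_right] using hy⟩).trans (le_abs_self _)
  have h4 : ‖mm (M.J a (M.HH a w y)) (mm (Dm (M.HH a w) y) (M.J a y) -
    mm (M.J a (M.HH a w y)) (Dm (M.HH a w) y))‖ ≤ C * ‖w‖ := hR w y hw hy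
  refine le_trans ?_ h2
  rw [neg_le_neg_iff]
  calc _ ≤ 256 * |B| * (C * ‖w‖) ^ 2 * ‖M.cf a b (M.HH a w y)‖ * ‖v‖ ^ 2 := by gcongr
    _ = _ := by ring

theorem exists_rr_bound : ∃ C : ℝ, 0 < C ∧ ∀ z, M.rr z ≤ C := by
  obtain ⟨C, hC⟩ := M.hasCompactSupport_rr.exists_bound_of_continuous M.bump_rr.smooth.continuous
  exact ⟨max C 1, by positivity, fun z => (le_abs_self _).trans ((hC z).trans (le_max_left _ _))⟩

theorem continuous_cfHH (a : M.A) {b : X → L2} (hb : Continuous (M.cf a b)) (δ : ℝ) (y : V4) :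
    Continuous fun z : M.A → V4 => M.cf a b (M.HH a (δ • z) y) := by
  have h1 : Continuous fun z : M.A → V4 => M.HH a (δ • z) y :=
    Continuous.comp (g := Function.uncurry (M.HH a)) (f := fun z : M.A → V4 => (δ • z, y))
      (M.contDiff_HH a).continuous ((M.continuous_smul_param δ).prodMk continuous_const)
  exact hb.comp h1

/-- the averaged mass -/
noncomputable def am (a : M.A) (b : X → L2) (δ : ℝ) (y : V4) : ℝ :=
  ∫ z, M.rr z • ‖M.cf a b (M.HH a (δ • z) y)‖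

theorem exists_ev_S0 (a : M.A) : ∃ K : ℝ, 0 ≤ K ∧ ∀ (b : X → L2), b ∈ M.Om →
    (∀ x, Cone J0 (b x)) → ∀ δ : ℝ, 0 ≤ δ → δ ≤ 1 → δ ≤ M.z1 → ∀ y : V4, ‖y‖ ≤ 1 → ∀ v : V4,
    -(K * δ ^ 2 * ‖v‖ ^ 2 * M.am a b δ y) ≤
      ev (M.cf a (M.S0 δ b) y) v (app (M.J a y) v) := by
  obtain ⟨K, hK, h⟩ := M.exists_ev_ker a
  refine ⟨K, hK, fun b hbO hb δ h0 h1 hz1 y hy v => ?_⟩
  have hbc : ∀ a, Continuous (M.cf a b) := fun a => (hbO a).continuous
  rw [M.cf_S0 a h0 hz1 hbc (by linarith)]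
  have hker : Continuous fun z : M.A → V4 => M.ker a b (δ • z) y :=
    Continuous.comp (g := Function.uncurry (M.ker a b)) (f := fun z : M.A → V4 => (δ • z, y))
        (M.continuous_ker a (hbc a)) ((M.continuous_smul_param δ).prodMk continuous_const)
  have hint := M.integrable_rr_smul (f := fun z => M.ker a b (δ • z) y) hker fun z _ => rfl
  rw [← evL_apply, ← (evL v (app (M.J a y) v)).integral_comp_comm hint]
  have hint2 : Integrable fun z => M.rr z • ‖M.cf a b (M.HH a (δ • z) y)‖ :=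
    M.integrable_rr_smul (M.continuous_cfHH a (hbc a) δ y).norm fun z _ => rfl
  unfold am
  rw [neg_eq_neg_one_mul, ← integral_const_mul, ← integral_const_mul]
  refine integral_mono ((hint2.const_mul _).const_mul _)
    ((evL v (app (M.J a y) v)).integrable_comp hint) fun z => ?_
  simp only [smul_eq_mul, map_smul, evL_apply]
  have hr := M.bump_rr.nonneg z
  by_cases hz : ‖z‖ ≤ 1
  · have hδz : ‖δ • z‖ ≤ δ := by
      rw [norm_smul, Real.norm_eq_abs, abs_of_nonneg h0]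
      calc δ * ‖z‖ ≤ δ * 1 := by gcongr
        _ = δ := mul_one _
    have h2 := h b hb (δ • z) (hδz.trans h1) y hy v
    have h3 : K * ‖δ • z‖ ^ 2 * ‖v‖ ^ 2 * ‖M.cf a b (M.HH a (δ • z) y)‖ ≤
        K * δ ^ 2 * ‖v‖ ^ 2 * ‖M.cf a b (M.HH a (δ • z) y)‖ := by gcongr
    have h4 : -(K * δ ^ 2 * ‖v‖ ^ 2 * ‖M.cf a b (M.HH a (δ • z) y)‖) ≤
        ev (M.ker a b (δ • z) y) v (app (M.J a y) v) := by linarith only [h2, h3]
    have h5 := mul_le_mul_of_nonneg_left h4 hr
    linarith only [h5]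
  · rw [M.bump_rr.supp z (not_le.1 hz)]
    simp only [zero_mul, mul_zero, Std.le_refl]

variable [MeasurableSpace X] [BorelSpace X]

theorem integrable_norm {b : X → L2} (hb : b ∈ M.Om) :
    Integrable (fun x => ‖b x‖) M.mu := by
  obtain ⟨C, -, hC⟩ := M.bounded_of_C0 fun a => (hb a).continuous
  refine (integrable_const C).mono' (M.measurable_of_Om hb).norm.aestronglyMeasurable ?_
  exact Filter.Eventually.of_forall fun x => by rw [norm_norm]; exact hC x

theorem ofReal_setIntegral {b : X → L2} (hb : b ∈ M.Om) (E : Set X) :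
    ENNReal.ofReal (∫ x in E, ‖b x‖ ∂M.mu) = ∫⁻ x in E, ‖b x‖ₑ ∂M.mu := by
  have h1 : Integrable b (M.mu.restrict E) := by
    rw [← integrable_norm_iff (M.measurable_of_Om hb).aestronglyMeasurable]
    exact (M.integrable_norm hb).restrict
  exact ofReal_integral_norm_eq_lintegral_enorm h1

/-- The averaged mass is controlled by the mass of a ball. -/
theorem exists_am_le (a : M.A) : ∃ δ0 C L : ℝ, 0 < δ0 ∧ 0 < C ∧ 0 < L ∧ ∀ b ∈ M.Om,
    ∀ δ : ℝ, 0 < δ → δ ≤ δ0 → ∀ y : V4, ‖y‖ < 1 →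
    M.am a b δ y ≤ C * (δ ^ 4)⁻¹ * ∫ x in Metric.ball (M.ψ a y) (L * δ), ‖b x‖ ∂M.mu := by
  obtain ⟨δ1, c, hδ1, hc, hcle, hker⟩ := lintegral_kernel_le (M.contDiff_HH a) (M.HH_zero a)
    (M.eL a) (r := 1) (r' := 2) one_lt_two (fun y hy => M.HH_eL a (by linarith))
  obtain ⟨C, L, hC, hL, htr⟩ := M.exists_transfer_ball a
  obtain ⟨B, hB, hrr⟩ := M.exists_rr_bound
  refine ⟨δ1, B * c * C, L * c, hδ1, by positivity, by positivity, fun b hb δ h0 h1 y hy => ?_⟩
  have hbc : Continuous (M.cf a b) := (hb a).continuous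
  have hcont := (M.continuous_cfHH a hbc δ y).norm
  have hcomp : IsCompact (Metric.closedBall (0 : M.A → V4) 1) := isCompact_closedBall _ _
  have hint : IntegrableOn (fun z => ‖M.cf a b (M.HH a (δ • z) y)‖)
      (Metric.closedBall (0 : M.A → V4) 1) := hcont.continuousOn.integrableOn_compact hcomp
  have hcδ : c * δ ≤ 1 := by
    have : c * δ ≤ c * δ1 := by gcongr
    linarith only [hcle, this]
  have h2 : M.am a b δ y ≤ B * ∫ z in Metric.closedBall (0 : M.A → V4) 1,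
      ‖M.cf a b (M.HH a (δ • z) y)‖ := by
    unfold am
    rw [M.integral_rr, ← integral_const_mul]
    refine setIntegral_mono_on ?_ (hint.const_mul B) Metric.isClosed_closedBall.measurableSet
      fun z _ => ?_
    · exact (M.bump_rr.smooth.continuous.smul hcont).continuousOn.integrableOn_compact hcomp
    · rw [smul_eq_mul]
      exact mul_le_mul_of_nonneg_right (hrr z) (norm_nonneg _)
  have h3 : ENNReal.ofReal (∫ z in Metric.closedBall (0 : M.A → V4) 1,
      ‖M.cf a b (M.HH a (δ • z) y)‖) ≤ ENNReal.ofReal (c * (δ ^ 4)⁻¹ * (C *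
        ∫ x in Metric.ball (M.ψ a y) (L * (c * δ)), ‖b x‖ ∂M.mu)) := by
    have hint' : IntegrableOn (fun z => M.cf a b (M.HH a (δ • z) y))
      (Metric.closedBall (0 : M.A → V4) 1) :=
        (M.continuous_cfHH a hbc δ y).continuousOn.integrableOn_compact hcomp
    rw [ofReal_integral_norm_eq_lintegral_enorm hint', ENNReal.ofReal_mul (by positivity),
      ENNReal.ofReal_mul hC.le, M.ofReal_setIntegral hb]
    refine (hker δ h0 h1 y hy (fun w => ‖M.cf a b w‖ₑ) hbc.enorm.measurable).trans ?_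
    gcongr
    exact htr y hy (c * δ) hcδ b (M.measurable_of_Om hb)
  have hI : 0 ≤ ∫ x in Metric.ball (M.ψ a y) (L * (c * δ)), ‖b x‖ ∂M.mu :=
    integral_nonneg fun x => norm_nonneg _
  have h4 := (ENNReal.ofReal_le_ofReal_iff (by positivity)).1 h3
  have h5 : L * (c * δ) = L * c * δ := by ring
  rw [h5] at h4
  calc M.am a b δ y ≤ B * ∫ z in Metric.closedBall (0 : M.A → V4) 1,
      ‖M.cf a b (M.HH a (δ • z) y)‖ := h2
    _ ≤ B * (c * (δ ^ 4)⁻¹ * (C *
        ∫ x in Metric.ball (M.ψ a y) (L * c * δ), ‖b x‖ ∂M.mu)) := by gcongr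
    _ = _ := by ring

theorem mono_ball {b : X → L2} (hb : b ∈ M.Om) (x : X) {s t : ℝ} (h : s ≤ t) :
    ∫ y in Metric.ball x s, ‖b y‖ ∂M.mu ≤ ∫ y in Metric.ball x t, ‖b y‖ ∂M.mu :=
  setIntegral_mono_set (M.integrable_norm hb).integrableOn
    (Filter.Eventually.of_forall fun y => norm_nonneg _)
    (Filter.Eventually.of_forall fun y hy => Metric.ball_subset_ball h hy)

/-- The field `P3`. -/
theorem exists_P3 : ∃ δ0 c : ℝ, 0 < δ0 ∧ 1 ≤ c ∧ ∀ (δ : ℝ) (b : M.Om) (x : X), 0 < δ → δ ≤ δ0 →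
    (∀ y, Cone J0 ((b : X → L2) y)) →
    Cone J0 (pP J0 (M.S0 δ b x) +
      (c * δ ^ 2 * (δ ^ 4)⁻¹ * ∫ y in Metric.ball x (c * δ), ‖(b : X → L2) y‖ ∂M.mu) • F0) := by
  choose δ1 C L hδ1 hC hL ham using M.exists_am_le
  choose K hK hev using M.exists_ev_S0
  choose Cf hCf1 hCf using fun a => M.exists_frame_bound a 1
  obtain ⟨δ2, hδ2, hδ21, hδ2le⟩ := exists_lower δ1 hδ1
  obtain ⟨c1, hc1, hc1le⟩ := exists_upper fun a => K a * C a * Cf a ^ 2
  obtain ⟨c2, hc2, hc2le⟩ := exists_upper L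
  have hz1 := M.z1_pos
  refine ⟨min δ2 M.z1, max c1 c2, lt_min hδ2 hz1, hc1.trans (le_max_left _ _),
    fun δ b x h0 h1 hb => ?_⟩
  have hδ2' : δ ≤ δ2 := h1.trans (min_le_left _ _)
  have hz1' : δ ≤ M.z1 := h1.trans (min_le_right _ _)
  set a := M.ch x with ha
  set y := M.cy x with hy
  have hyx : M.ψ a y = x := M.ψ_cy x
  have hy1 : ‖y‖ < 1 := M.norm_cy x
  set I := ∫ y in Metric.ball x (max c1 c2 * δ), ‖(b : X → L2) y‖ ∂M.mu with hI
  have hI0 : 0 ≤ I := integral_nonneg fun x => norm_nonneg _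
  have hbO : (b : X → L2) ∈ M.Om := b.2
  have h2 : M.am a b δ y ≤ C a * (δ ^ 4)⁻¹ * I := by
    refine (ham a b hbO δ h0 (hδ2'.trans (hδ2le a)) y hy1).trans ?_
    have hCa := hC a
    have h3 : L a * δ ≤ max c1 c2 * δ := by
      have := (hc2le a).trans (le_max_right c1 c2)
      gcongr
    have h4 := M.mono_ball hbO x h3
    rw [hyx]
    gcongr
  refine ⟨?_, fun v => ?_⟩
  · rw [pull_add, pull_pP isCx_J0, pull_smul]
    congr 2
    rw [← Fm_J0_eq]; exact pull_Fm isCx_J0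
  · rw [ev_add, ev_smul, ev_pP_self isCx_J0, ev_F0]
    have h5 : M.S0 δ b x = pull (M.m' a y) (M.cf a (M.S0 δ b) y) := by
      have := M.eq_pull_m' (M.S0 δ b) a y
      rwa [hyx] at this
    have h6 : app (M.m' a y) (app J0 v) = app (M.J a y) (app (M.m' a y) v) := by
      have := (M.frame a y).comm v
      first | exact this | exact this.symm
    have h7 := hev a b hbO hb δ h0.le (hδ2'.trans hδ21) hz1' y hy1.le (app (M.m' a y) v)
    rw [h5, ev_pull, h6]
    have h8 : ‖app (M.m' a y) v‖ ≤ Cf a * ‖v‖ := by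
      have := (hCf a y hy1.le (app (M.m' a y) v)).2
      rwa [M.m_m'] at this
    have h9 := le_sum_sq v
    have hKa := hK a
    have hCa := hC a
    have hCfa := hCf1 a
    have h10 : K a * δ ^ 2 * ‖app (M.m' a y) v‖ ^ 2 * M.am a b δ y ≤
        max c1 c2 * δ ^ 2 * (δ ^ 4)⁻¹ * I * ∑ i, v i ^ 2 := by
      calc K a * δ ^ 2 * ‖app (M.m' a y) v‖ ^ 2 * M.am a b δ y
          ≤ K a * δ ^ 2 * ‖app (M.m' a y) v‖ ^ 2 * (C a * (δ ^ 4)⁻¹ * I) := by gcongr
        _ ≤ K a * δ ^ 2 * (Cf a * ‖v‖) ^ 2 * (C a * (δ ^ 4)⁻¹ * I) := by gcongr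
        _ = (K a * C a * Cf a ^ 2) * (δ ^ 2 * (δ ^ 4)⁻¹ * I * ‖v‖ ^ 2) := by ring
        _ ≤ max c1 c2 * (δ ^ 2 * (δ ^ 4)⁻¹ * I * ∑ i, v i ^ 2) := by
            have := (hc1le a).trans (le_max_left c1 c2)
            gcongr
        _ = _ := by ring
    linarith only [h7, h10]

end CM
end Vale.Agent.P204.GX
end

section

/-!
# The field `PF`: the mass of the smoothing
-/

open scoped BigOperators ContDiff Topology ENNReal
open MeasureTheory Set

namespace Vale.Agent.P204.GX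
open T4

namespace CM
variable {X : Type} [MetricSpace X] (M : CM X)

/-- the constant section `F` -/
theorem F_mem_Om : (fun _ : X => F0) ∈ M.Om := M.F_smooth

variable [MeasurableSpace X] [BorelSpace X]

theorem integrable_pr_U {δ : ℝ} (h0 : 0 ≤ δ) (h1 : δ ≤ M.z1) {e b : X → L2}
    (he : ∀ a, Continuous (M.cf a e)) (hb : b ∈ M.Om) :
    Integrable fun z => M.rr z * M.pr e (M.U (δ • z) b) := by
  have hcut : ∀ a, Continuous (M.cut e a) := fun a =>
    (M.contDiff_zl a).continuous.smul (he a)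
  have hker : ∀ a, Continuous fun p : V4 × (M.A → V4) => M.ker a b (δ • p.2) p.1 := fun a =>
    Continuous.comp (g := Function.uncurry (M.ker a b))
      (f := fun p : V4 × (M.A → V4) => (δ • p.2, p.1)) (M.contDiff_ker a hb).continuous
      ((continuous_snd.const_smul δ).prodMk continuous_fst)
  have hint : ∀ a, Integrable (fun p : V4 × (M.A → V4) =>
      M.rr p.2 * Q (M.cut e a p.1) (M.ker a b (δ • p.2) p.1)) (volume.prod volume) := by
    intro a
    have hc : Continuous fun p : V4 × (M.A → V4) =>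
        M.rr p.2 * Q (M.cut e a p.1) (M.ker a b (δ • p.2) p.1) :=
      (M.bump_rr.smooth.continuous.comp continuous_snd).mul
        (continuous_Q.comp (((hcut a).comp continuous_fst).prodMk (hker a)))
    refine hc.integrable_of_hasCompactSupport ?_
    refine HasCompactSupport.intro ((isCompact_closedBall (0 : V4) 2).prod
      (isCompact_closedBall (0 : M.A → V4) 1)) fun p hp => ?_
    by_cases h2 : p.1 ∈ Metric.closedBall (0 : V4) 2
    · have h3 : p.2 ∉ Metric.closedBall (0 : M.A → V4) 1 := fun h => hp ⟨h2, h⟩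
      rw [M.rr_zero h3, zero_mul]
    · have : M.cut e a p.1 = 0 := by
        unfold cut
        rw [M.zl_eq_zero a (fun h => h2 (Metric.ball_subset_closedBall h)), zero_smul]
      rw [this]; simp only [Q, Pi.zero_apply, Fin.isValue, zero_mul, sub_self, add_zero, mul_zero]
  have h2 : (fun z => M.rr z * M.pr e (M.U (δ • z) b)) =
      fun z => ∑ a, ∫ y, M.rr z * Q (M.cut e a y) (M.ker a b (δ • z) y) := by
    funext z
    by_cases hz : ‖z‖ ≤ 1
    · rw [M.pr_chart (M.norm_smul_le_z1 h0 h1 hz) he hb, Finset.mul_sum]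
      exact Finset.sum_congr rfl fun a _ => (integral_const_mul _ _).symm
    · rw [M.rr_zero (by simpa only [Metric.mem_closedBall, dist_zero_right, not_le] using hz)]
      simp only [zero_mul, integral_zero, Finset.sum_const_zero]
  rw [h2]
  exact integrable_finset_sum _ fun a _ => (hint a).swap.integral_prod_left

/-- `L¹` bound of the transport. -/
theorem exists_L1_U : ∃ s C : ℝ, 0 < s ∧ 0 < C ∧ ∀ b ∈ M.Om, ∀ w : M.A → V4, ‖w‖ ≤ s →
    ∫ x, ‖M.U w b x‖ ∂M.mu ≤ C * ∫ x, ‖b x‖ ∂M.mu := by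
  have h1 : ∀ a : M.A, ∃ s C : ℝ, 0 < s ∧ 0 < C ∧ ∀ b ∈ M.Om, ∀ w : M.A → V4, ‖w‖ ≤ s →
      ∫⁻ y in Metric.ball (0 : V4) 1, ‖M.cf a (M.U w b) y‖ₑ ≤
        ENNReal.ofReal C * ∫⁻ x, ‖b x‖ₑ ∂M.mu := by
    intro a
    obtain ⟨δ1, hδ1, hFam⟩ := exists_Fam (M.contDiff_HH a) (M.HH_zero a) (r := 1) (r' := 2)
      one_lt_two
    obtain ⟨B, hB⟩ := ((isCompact_closedBall (0 : M.A → V4) δ1).prod
      (isCompact_closedBall (0 : V4) 1)).exists_bound_of_continuousOn
        (M.contDiff_DHH a).continuous.continuousOn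
    obtain ⟨C, hC, htr⟩ := M.exists_transfer a 2
    have hz1 := M.z1_pos
    refine ⟨min δ1 M.z1, (192 * (|B| + 1) ^ 2) * (2 * C), lt_min hδ1 hz1, by positivity,
      fun b hb w hw => ?_⟩
    have hw1 : ‖w‖ ≤ δ1 := hw.trans (min_le_left _ _)
    have hw2 : ‖w‖ ≤ M.z1 := hw.trans (min_le_right _ _)
    calc ∫⁻ y in Metric.ball (0 : V4) 1, ‖M.cf a (M.U w b) y‖ₑ
        ≤ ∫⁻ y in Metric.ball (0 : V4) 1, ENNReal.ofReal (192 * (|B| + 1) ^ 2) *
          ‖M.cf a b (M.HH a w y)‖ₑ := by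
          refine setLIntegral_mono' measurableSet_ball fun y hy => ?_
          rw [mem_ball_zero_iff] at hy
          rw [M.cf_U a hw2 b (by linarith), ← ofReal_norm, ← ofReal_norm,
            ← ENNReal.ofReal_mul (by positivity)]
          apply ENNReal.ofReal_le_ofReal
          refine (norm_pull_le' _ _).trans ?_
          have h2 : ‖Dm (M.HH a w) y‖ ≤ |B| + 1 := by
            have h3 := hB (w, y) ⟨by simpa only [Metric.mem_closedBall, dist_zero_right] using hw1, by simpa only [Metric.mem_closedBall, dist_zero_right] using hy.le⟩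
            have h4 := le_abs_self B
            simp only at h3
            linarith only [h3, h4]
          gcongr
      _ = ENNReal.ofReal (192 * (|B| + 1) ^ 2) *
          ∫⁻ y in Metric.ball (0 : V4) 1, ‖M.cf a b (M.HH a w y)‖ₑ := by
          rw [lintegral_const_mul' _ _ ENNReal.ofReal_ne_top]
      _ ≤ ENNReal.ofReal (192 * (|B| + 1) ^ 2) *
          (2 * ∫⁻ y in Metric.ball (0 : V4) 2, ‖M.cf a b y‖ₑ) := by
          gcongr
          exact lintegral_comp_le' (hFam δ1 le_rfl) Metric.isOpen_ball w hw1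
            (fun y => ‖M.cf a b y‖ₑ)
      _ ≤ ENNReal.ofReal (192 * (|B| + 1) ^ 2) *
          (2 * (ENNReal.ofReal C * ∫⁻ x, ‖b x‖ₑ ∂M.mu)) := by
          gcongr
          have := htr (Metric.ball 0 2) measurableSet_ball
            (fun y hy => by rw [mem_ball_zero_iff] at hy; exact hy.le) univ MeasurableSet.univ
            (fun y _ => mem_univ _) b (M.measurable_of_Om hb)
          rwa [Measure.restrict_univ] at this
      _ = _ := by
          rw [ENNReal.ofReal_mul (p := 192 * (|B| + 1) ^ 2) (by positivity),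
            ENNReal.ofReal_mul (p := 2) (by norm_num)]
          have : ENNReal.ofReal 2 = 2 := by simp
          rw [this]
          ring
  choose s C hs hC h using h1
  obtain ⟨s0, hs0, -, hs0le⟩ := exists_lower s hs
  obtain ⟨K, hK, hga⟩ := M.exists_gather
  refine ⟨s0, K * (1 + ∑ a, C a), hs0, ?_, fun b hb w hw => ?_⟩
  · have : 0 ≤ ∑ a, C a := Finset.sum_nonneg fun a _ => (hC a).le
    positivity
  · have hUb := M.U_mem_Om w hb
    have hsum : 0 ≤ ∑ a, C a := Finset.sum_nonneg fun a _ => (hC a).le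
    have h2 : ENNReal.ofReal (∫ x, ‖M.U w b x‖ ∂M.mu) ≤
        ENNReal.ofReal (K * (1 + ∑ a, C a) * ∫ x, ‖b x‖ ∂M.mu) := by
      have e1 := M.ofReal_setIntegral hUb univ
      have e2 := M.ofReal_setIntegral hb univ
      rw [Measure.restrict_univ] at e1 e2
      rw [e1, ENNReal.ofReal_mul (by positivity), e2]
      refine (hga _ (M.measurable_of_Om hUb)).trans ?_
      rw [ENNReal.ofReal_mul hK.le, mul_assoc]
      gcongr
      calc ∑ a, ∫⁻ y in Metric.ball (0 : V4) 1, ‖M.cf a (M.U w b) y‖ₑ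
          ≤ ∑ a, ENNReal.ofReal (C a) * ∫⁻ x, ‖b x‖ₑ ∂M.mu :=
            Finset.sum_le_sum fun a _ => h a b hb w (hw.trans (hs0le a))
        _ = ENNReal.ofReal (∑ a, C a) * ∫⁻ x, ‖b x‖ₑ ∂M.mu := by
            rw [ENNReal.ofReal_sum_of_nonneg fun a _ => (hC a).le, Finset.sum_mul]
        _ ≤ _ := by
            gcongr
            linarith only []
    have h3 : 0 ≤ ∫ x, ‖b x‖ ∂M.mu := integral_nonneg fun x => norm_nonneg _
    exact (ENNReal.ofReal_le_ofReal_iff (by positivity)).1 h2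

omit [MeasurableSpace X] [BorelSpace X] in
/-- The transport of `F` is `O(w)`-close to `F`. -/
theorem exists_F_U : ∃ C : ℝ, 0 ≤ C ∧ ∀ w : M.A → V4, ‖w‖ ≤ 1 → ‖w‖ ≤ M.z1 → ∀ x,
    ‖F0 - M.U w (fun _ => F0) x‖ ≤ C * ‖w‖ := by
  have h1 : ∀ a : M.A, ∃ C : ℝ, 0 ≤ C ∧ ∀ w : M.A → V4, ‖w‖ ≤ 1 → ‖w‖ ≤ M.z1 →
      ∀ y : V4, ‖y‖ ≤ 1 → ‖F0 - M.U w (fun _ => F0) (M.ψ a y)‖ ≤ C * ‖w‖ := by
    intro a
    have hc : ContDiff ℝ ∞ (Function.uncurry fun (w : M.A → V4) (y : V4) =>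
        M.cf a (fun _ => F0) y - M.ker a (fun _ => F0) w y) :=
      ((M.F_smooth a).comp contDiff_snd).sub (M.contDiff_ker a M.F_mem_Om)
    have h0 : ∀ y, M.cf a (fun _ => F0) y - M.ker a (fun _ => F0) 0 y = 0 := by
      intro y
      have h : M.HH a 0 = fun y => y := funext fun y => M.HH_zero a y
      unfold ker
      rw [h, Dm_id, pull_one, sub_self]
    obtain ⟨C, hC, hlip⟩ := exists_lip0 hc h0 1 1
    obtain ⟨D, hD, hcf⟩ := M.exists_cf_bound a 1
    refine ⟨D * C, by positivity, fun w hw hw' y hy => ?_⟩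
    have h2 := (hcf y hy ((fun _ => F0) - M.U w (fun _ => F0))).2
    have h3 : M.cf a ((fun _ => F0) - M.U w (fun _ => F0)) y =
        M.cf a (fun _ => F0) y - M.ker a (fun _ => F0) w y := by
      rw [M.cf_sub, Pi.sub_apply, M.cf_U a hw' _ (by linarith only [hy])]
      rfl
    rw [h3] at h2
    calc ‖F0 - M.U w (fun _ => F0) (M.ψ a y)‖ ≤ D * (C * ‖w‖) :=
          h2.trans (by gcongr; exact hlip w y hw hy)
      _ = D * C * ‖w‖ := by ring
  choose C hC h using h1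
  refine ⟨∑ a, C a, Finset.sum_nonneg fun a _ => hC a, fun w hw hw' x => ?_⟩
  have h2 := h (M.ch x) w hw hw' (M.cy x) (M.norm_cy x).le
  rw [M.ψ_cy] at h2
  refine h2.trans ?_
  gcongr
  exact Finset.single_le_sum (fun a _ => hC a) (Finset.mem_univ _)

/-- The field `PF`. -/
theorem exists_PF : ∃ δ0 c : ℝ, 0 < δ0 ∧ 1 ≤ c ∧ ∀ (δ : ℝ) (b : M.Om), 0 < δ → δ ≤ δ0 →
    |∫ x, Q F0 (M.S0 δ b x) ∂M.mu - ∫ x, Q F0 ((b : X → L2) x) ∂M.mu| ≤
      c * δ * ∫ x, ‖(b : X → L2) x‖ ∂M.mu := by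
  obtain ⟨s, C, hs, hC, hL1⟩ := M.exists_L1_U
  obtain ⟨D, hD, hF⟩ := M.exists_F_U
  have hz1 := M.z1_pos
  have hvi := vinv_pos
  refine ⟨min (min s 1) (min M.z1 (vinv / 2)), max 1 (6 * D * C),
    lt_min (lt_min hs one_pos) (lt_min hz1 (by linarith)), le_max_left _ _,
    fun δ b h0 h1 => ?_⟩
  have hds : δ ≤ s := h1.trans ((min_le_left _ _).trans (min_le_left _ _))
  have hd1 : δ ≤ 1 := h1.trans ((min_le_left _ _).trans (min_le_right _ _))
  have hdz : δ ≤ M.z1 := h1.trans ((min_le_right _ _).trans (min_le_left _ _))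
  have hdv : δ ≤ vinv / 2 := h1.trans ((min_le_right _ _).trans (min_le_right _ _))
  have hFO := M.F_mem_Om
  have hFc : ∀ a, Continuous (M.cf a (fun _ : X => F0)) := fun a => (hFO a).continuous
  have hbO : (b : X → L2) ∈ M.Om := b.2
  set N := ∫ x, ‖(b : X → L2) x‖ ∂M.mu with hN
  have hN0 : 0 ≤ N := integral_nonneg fun x => norm_nonneg _
  have e1 : ∫ x, Q F0 (M.S0 δ b x) ∂M.mu = ∫ z, M.rr z * M.pr (fun _ => F0) (M.U (δ • z) b) :=
    M.pr_S0 h0.le hdz hFc hbO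
  have e2 : ∫ x, Q F0 ((b : X → L2) x) ∂M.mu = ∫ z, M.rr z * M.pr (fun _ => F0) b := by
    rw [integral_mul_const, M.bump_rr.int, one_mul]; rfl
  have hrr : Integrable M.rr :=
    M.bump_rr.smooth.continuous.integrable_of_hasCompactSupport M.hasCompactSupport_rr
  rw [e1, e2, ← integral_sub (M.integrable_pr_U h0.le hdz hFc hbO) (hrr.mul_const _)]
  have key : ∀ w : M.A → V4, ‖w‖ ≤ δ →
      |M.pr (fun _ => F0) (M.U w b) - M.pr (fun _ => F0) b| ≤ 6 * D * C * δ * N := by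
    intro w hw
    have hwv : ‖w‖ < vinv := by linarith only [h0, hdv, hw]
    rw [← M.pr_U hwv hFO hbO]
    have hUb := M.U_mem_Om w hbO
    have hUF := M.U_mem_Om w hFO
    have e3 : M.pr (fun _ => F0) (M.U w b) - M.pr (M.U w (fun _ => F0)) (M.U w b) =
        ∫ x, Q (F0 - M.U w (fun _ => F0) x) (M.U w b x) ∂M.mu := by
      unfold pr
      rw [← integral_sub (M.integrable_Q hFc fun a => (hUb a).continuous)
        (M.integrable_Q (fun a => (hUF a).continuous) fun a => (hUb a).continuous)]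
      refine integral_congr_ae (Filter.Eventually.of_forall fun x => ?_)
      exact (Q_sub_left _ _ _).symm
    rw [e3]
    have h2 : ∀ x, ‖Q (F0 - M.U w (fun _ => F0) x) (M.U w b x)‖ ≤
        6 * (D * δ) * ‖M.U w b x‖ := by
      intro x
      refine (abs_Q_le _ _).trans ?_
      have h3 := hF w (hw.trans hd1) (hw.trans hdz) x
      have h4 : ‖F0 - M.U w (fun _ => F0) x‖ ≤ D * δ := h3.trans (by gcongr)
      gcongr
    calc |∫ x, Q (F0 - M.U w (fun _ => F0) x) (M.U w b x) ∂M.mu|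
        ≤ ∫ x, 6 * (D * δ) * ‖M.U w b x‖ ∂M.mu :=
          norm_integral_le_of_norm_le ((M.integrable_norm hUb).const_mul _)
            (Filter.Eventually.of_forall h2)
      _ = 6 * (D * δ) * ∫ x, ‖M.U w b x‖ ∂M.mu := integral_const_mul _ _
      _ ≤ 6 * (D * δ) * (C * N) := by
          gcongr
          exact hL1 _ hbO w (hw.trans hds)
      _ = _ := by ring
  have h5 : ∀ z, ‖M.rr z * M.pr (fun _ => F0) (M.U (δ • z) b) - M.rr z * M.pr (fun _ => F0) b‖ ≤
      M.rr z * (6 * D * C * δ * N) := by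
    intro z
    have hr := M.bump_rr.nonneg z
    rw [← mul_sub, norm_mul, Real.norm_eq_abs, abs_of_nonneg hr]
    by_cases hz : ‖z‖ ≤ 1
    · have h6 : ‖δ • z‖ ≤ δ := by
        rw [norm_smul, Real.norm_eq_abs, abs_of_nonneg h0.le]
        calc δ * ‖z‖ ≤ δ * 1 := by gcongr
          _ = δ := mul_one _
      exact mul_le_mul_of_nonneg_left (key _ h6) hr
    · rw [M.bump_rr.supp z (not_le.1 hz)]
      simp
  have h6 := norm_integral_le_of_norm_le (hrr.mul_const (6 * D * C * δ * N))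
    (Filter.Eventually.of_forall h5)
  rw [integral_mul_const, M.bump_rr.int, one_mul] at h6
  refine h6.trans ?_
  calc 6 * D * C * δ * N = (6 * D * C) * (δ * N) := by ring
    _ ≤ max 1 (6 * D * C) * (δ * N) := by gcongr; exact le_max_right _ _
    _ = _ := by ring

end CM
end Vale.Agent.P204.GX
end

section
set_option linter.all false

/-!
The smoothing system of a closed manifold at the level of functions.
-/

open MeasureTheory Set Metric
open scoped ContDiff ENNReal NNReal BigOperators InnerProductSpace Topology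

namespace Vale.Agent.P204.GX
open T4 _root_.P204.GX

theorem sysStatementB : SysStatement := by
  intro X _ _ _ _ _ M
  obtain ⟨d0, hd0, hsc⟩ := M.exists_scale
  obtain ⟨e0, c0, he0, hc0, hz0, P0⟩ := M.exists_P0
  obtain ⟨e1, c1, he1, hc1, hz1, P1⟩ := M.exists_P1
  obtain ⟨e3, c3, he3, hc3, P3⟩ := M.exists_P3
  obtain ⟨eF, cF, heF, hcF, PF⟩ := M.exists_PF
  obtain ⟨cv, hcv, hv⟩ := CM.exists_vol (M := M)
  obtain ⟨δ1, h1pos, h1d, h1e0, h1e1, h1e3, h1eF⟩ : ∃ δ1 : ℝ, 0 < δ1 ∧ δ1 ≤ d0 ∧ δ1 ≤ e0 ∧ δ1 ≤ e1 ∧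
      δ1 ≤ e3 ∧ δ1 ≤ eF :=
    ⟨min d0 (min e0 (min e1 (min e3 eF))), by positivity, min_le_left _ _,
      (min_le_right _ _).trans (min_le_left _ _),
      (min_le_right _ _).trans ((min_le_right _ _).trans (min_le_left _ _)),
      (min_le_right _ _).trans ((min_le_right _ _).trans ((min_le_right _ _).trans (min_le_left _ _))),
      (min_le_right _ _).trans ((min_le_right _ _).trans ((min_le_right _ _).trans (min_le_right _ _)))⟩
  have hs := hsc δ1 h1pos h1d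
  obtain ⟨Z, hι, hst, hpm, hpmH, hCl, hEx, hδ, hS, hM0, hN⟩ := CM.exists_Sys0 M hs
  obtain ⟨c, hc1', lc0, lc1, lc3, lcF, lcv⟩ : ∃ c : ℝ, 1 ≤ c ∧ c0 ≤ c ∧ c1 ≤ c ∧ c3 ≤ c ∧ cF ≤ c ∧ cv ≤ c :=
    ⟨c0 + c1 + c3 + cF + cv, by linarith only [hc0, hc1, hc3, hcF, hcv], by linarith only [hc1, hc3, hcF, hcv], by linarith only [hc0, hc3, hcF, hcv], by linarith only [hc0, hc1, hcF, hcv], by linarith only [hc0, hc1, hc3, hcv], by linarith only [hc0, hc1, hc3, hcF]⟩
  have hSS : ∀ (δ : ℝ) (b : M.Om), 0 < δ → δ ≤ δ1 →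
      ((Z.toSmSys.S δ (Z.toSmSys.ι b) : M.Om) : X → L2) = M.S0 δ b := by
    intro δ b h0 h1
    have e1 : Z.toSmSys.S δ (Z.toSmSys.ι b) = Z.S0 δ b := Z.S_ι h0 (h1.trans hδ.ge) b
    rw [e1, hS]
    exact M.S0L_coe h0.le (h1.trans hs.le_z1) b
  have hint : ∀ (b : M.Om) x {s t : ℝ}, s ≤ t →
      ∫ y in ball x s, ‖(b : X → L2) y‖ ∂M.mu ≤ ∫ y in ball x t, ‖(b : X → L2) y‖ ∂M.mu :=
    fun b x s t h => M.mono_ball b.2 x h
  have hint0 : ∀ (b : M.Om) x (s : ℝ), 0 ≤ ∫ y in ball x s, ‖(b : X → L2) y‖ ∂M.mu :=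
    fun b x s => integral_nonneg fun y => norm_nonneg _
  have hcont : ∀ (b : M.Om) a, Continuous (M.cf a (b : X → L2)) := fun b a => (b.2 a).continuous
  refine ⟨{
    μ := M.mu
    μfin := inferInstance
    Om := M.Om
    Y := Z.toSmSys
    meas := fun b hb => Hil.measurable_Om M hb
    ι_eq := fun b => by
      show (Z.ι b : X → E6) =ᵐ[M.mu] _
      rw [hι]; exact Hil.io_ae M b
    st_eq := fun u => by
      show (Z.st u : X → E6) =ᵐ[M.mu] _
      rw [hst]; exact Hil.stH_ae M u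
    pm_eq := fun b x => by
      show (Z.pm b : X → L2) x = _
      rw [hpm]; rfl
    pmH_eq := fun u => by
      show (Z.pmH u : X → E6) =ᵐ[M.mu] _
      rw [hpmH]; exact Hil.pmH_ae M u
    M0 := hM0
    F := M.FOm
    F_eq := fun x => rfl
    c := c
    one_le_c := hc1'
    vol := fun x r hr => (hv x r hr).trans (by gcongr)
    P0 := ?_
    P1 := ?_
    P3 := ?_
    PF := ?_
    pos_dense := fun v h => Hil.pos_detect M v (fun b hb => by
      have := h b hb
      rwa [show Z.toSmSys.ι b = Hil.io M b by rw [← hι]; rfl] at this) }, rfl, fun _ => Iff.rfl, ?_, ?_, ?_⟩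
  · intro δ b x h0 h1
    have h1' : δ ≤ δ1 := h1.trans hδ.le
    rw [hSS δ b h0 h1']
    refine (P0 δ b (hcont b) x h0 (h1'.trans h1e0)).trans ?_
    have := hint b x (mul_le_mul_of_nonneg_right lc0 h0.le)
    have := hint0 b x (c0 * δ)
    gcongr
  · intro δ b x h0 h1
    have h1' : δ ≤ δ1 := h1.trans hδ.le
    rw [hSS δ _ h0 h1']
    have e : ((Z.toSmSys.pm b : M.Om) : X → L2) = fun x => pM J0 ((b : X → L2) x) := by
      show ((Z.pm b : M.Om) : X → L2) = _
      rw [hpm]; rfl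
    rw [e]
    refine (P1 δ b (hcont b) x h0 (h1'.trans h1e1)).trans ?_
    have := hint b x (mul_le_mul_of_nonneg_right lc1 h0.le)
    have := hint0 b x (c1 * δ)
    gcongr
  · intro δ b x h0 h1 hb
    have h1' : δ ≤ δ1 := h1.trans hδ.le
    rw [hSS δ b h0 h1']
    have h2 := P3 δ b x h0 (h1'.trans h1e3) hb
    have h3 : c3 * δ ^ 2 * (δ ^ 4)⁻¹ * ∫ y in ball x (c3 * δ), ‖(b : X → L2) y‖ ∂M.mu ≤
        c * δ ^ 2 * (δ ^ 4)⁻¹ * ∫ y in ball x (c * δ), ‖(b : X → L2) y‖ ∂M.mu := by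
      have := hint b x (mul_le_mul_of_nonneg_right lc3 h0.le)
      have := hint0 b x (c3 * δ)
      gcongr
    have h4 := G7.cone_add h2 (G7.cone_smul (sub_nonneg.2 h3) G7.cone_F0')
    convert h4 using 1
    module
  · intro δ b h0 h1
    have h1' : δ ≤ δ1 := h1.trans hδ.le
    rw [hSS δ b h0 h1']
    refine (PF δ b h0 (h1'.trans h1eF)).trans ?_
    have : 0 ≤ ∫ x, ‖(b : X → L2) x‖ ∂M.mu := integral_nonneg fun y => norm_nonneg _
    gcongr
  · intro b
    show b ∈ Z.Cl ↔ _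
    rw [hCl]; exact Iff.rfl
  · intro b
    show b ∈ Z.Ex ↔ _
    rw [hEx]
    constructor
    · intro h; exact ⟨b, h, rfl⟩
    · rintro ⟨e, he, h⟩
      have : e = b := Subtype.ext h
      rwa [← this]
  · intro m
    refine ⟨1, zero_le_one, fun δ b h0 _ => ?_⟩
    show Z.N m δ b ≤ _
    rw [hN m δ b h0, one_mul]

end Vale.Agent.P204.GX
end
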